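import Crest.Agent.X212.Mon62.Aff
import Crest.Agent.X212.Mp86.Res
import Crest.Agent.X212.Mon62.Nem0
import Crest.Agent.X212.Ell97.Nab
import Crest.Agent.X212.Wz78.Hs

-- ▼ part X212/Mon62/GAff
section

/-! # Row 212, WORDH: families of frames, multipliers and the resolvent -/

set_option autoImplicit false
set_option linter.unusedSectionVars false
set_option maxSynthPendingDepth 3
noncomputable section
open scoped Manifold ContDiff Topology InnerProductSpace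
open MeasureTheory Set Function Filter

namespace Crest.Agent.X212.Mon62
open An Sob92 Prm93 Wz78
open Ell97 (UB)

variable {E : Type} [NormedAddCommGroup E] [NormedSpace ℝ E] [FiniteDimensional ℝ E]
  [MeasurableSpace E] [BorelSpace E]
  {HM : Type} [TopologicalSpace HM] {I : ModelWithCorners ℝ E HM}
  {M : Type} [TopologicalSpace M] [ChartedSpace HM M] [IsManifold I ∞ M]
  [MeasurableSpace M] [T2Space M] [BorelSpace M] [SecondCountableTopology M] {ι : Type} [Fintype ι]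
  {J : Type} {X Y : J → Type} [∀ i, NormedAddCommGroup (X i)] [∀ i, NormedSpace ℝ (X i)]
  {U V W : Type} [NormedAddCommGroup U] [InnerProductSpace ℝ U]
  [NormedAddCommGroup V] [InnerProductSpace ℝ V] [NormedAddCommGroup W] [InnerProductSpace ℝ W]

section one
variable {F₀ : Pre I M ι} {F : Fr I M ι} {S : ι → ι → M → ℝ} {j : ℕ} {s : ℝ}

theorem rep_mix (h : Mix F₀ F.toPre S) (hS : ∀ a b, F₀.Cb (S a b)) (j : ℕ) (c : ι) :
    F₀.Rep (∑ b, smulH F₀ j (triv M V) (S c b) ∘L DH F₀ j (triv M V) b) (F.D c) :=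
  RepT_congr (RepT_sum Finset.univ fun b _ => RepT_comp (rep_smulH (hS c b)) (rep_DH b))
    fun u => (h.D c u.1).symm

theorem Dt_eq (h : Mix F₀ F.toPre S) (hS : ∀ a b, F₀.Cb (S a b)) (j : ℕ) (c : ι) :
    Dt V F₀ F j c = ∑ b, smulH F₀ j (triv M V) (S c b) ∘L DH F₀ j (triv M V) b :=
  (rep_mix h hS j c).liftT_eq

theorem act_mix (h : Mix F₀ F.toPre S) (hS : ∀ a b, F₀.Cb (S a b)) (hd : ∀ c, F₀.Cb (F.dv c)) :
    Act V F₀ F := ⟨fun j c => by rw [Dt_eq h hS]; exact rep_mix h hS j c, hd⟩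

variable [CompleteSpace V] [I.Boundaryless]

theorem val_Dt (hs : Sup F₀ s) (h : Mix F₀ F.toPre S) (hS : ∀ a b, F₀.Cb (S a b)) (hj : 4 ≤ j)
    (c : ι) (u : HT F₀ V (j + 1)) :
    F₀.val j _ (Dt V F₀ F j c u) = F.D c (F₀.val (j + 1) _ u) := by
  funext x
  rw [Dt_eq h hS, h.D, _root_.sum_apply, val_sum]
  exact Finset.sum_congr rfl fun b _ => by
    rw [ContinuousLinearMap.comp_apply, val_smulH hs hj (hS c b), (val_DH hs hj u).2]

theorem val_Nb (hs : Sup F₀ s) (h : Mix F₀ F.toPre S) (hS : ∀ a b, F₀.Cb (S a b)) (hj : 4 ≤ j)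
    {A : ι → M → V →L[ℝ] V} (hA : ∀ c, F₀.Cb (A c)) (c : ι) (u : HT F₀ V (j + 1)) :
    F₀.val j _ (Nb F₀ F j (F₀.mulH j _ _ (A c)) c u) = nab I F.e A c (F₀.val (j + 1) _ u) := by
  funext x
  rw [Nb, add_apply, val_add, Pi.add_apply, val_Dt hs h hS hj, ContinuousLinearMap.comp_apply,
    val_mulH hs hj (hA c) (Maps.triv _), val_incl hs hj j.le_succ]
  rfl

theorem val_QQ (hs : Sup F₀ s) (h : Mix F₀ F.toPre S) (hS : ∀ a b, F₀.Cb (S a b))
    (hd : ∀ c, F₀.Cb (F.dv c)) (hj : 4 ≤ j) {A : ι → M → V →L[ℝ] V} (hA : ∀ c, F₀.Cb (A c))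
    (u : HT F₀ V (j + 2)) (x : M) :
    F₀.val j _ (QQ F₀ F j (fun c => F₀.mulH j _ _ (A c), fun c => F₀.mulH (j + 1) _ _ (A c)) u) x
      = F₀.val (j + 2) _ u x + lap I F.e F.dv A (F₀.val (j + 2) _ u) x := by
  rw [QQ, sub_apply, val_sub, Pi.sub_apply, val_incl hs hj (by omega),
    _root_.sum_apply, val_sum, lap, sub_eq_add_neg]
  congr 2
  refine Finset.sum_congr rfl fun c _ => ?_
  rw [ContinuousLinearMap.comp_apply, add_apply, val_add, Pi.add_apply, val_Nb hs h hS hj hA,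
    ContinuousLinearMap.comp_apply, val_smulH hs hj (hd c), val_incl hs hj j.le_succ,
    val_Nb hs h hS (by omega) hA]

end one

namespace Dm
variable (D : Dm I M ι X Y)

/-- coefficient families -/
structure Lc (f : ∀ i, X i → M → ℝ) : Prop where
  us : D.US f
  a0 : ∀ j, 4 ≤ j → D.A0 False j fun i y => f i (D.pt i y)

/-- a family of geometric frames over the Sobolev frames -/
structure FF (G : ∀ i, X i → Fr I M ι) : Prop where
  mix : ∃ S : ι → ι → ∀ i, X i → M → ℝ, (∀ a b, D.Lc (S a b)) ∧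
    ∀ i, ∀ x ∈ D.U i, Mix (D.P i) (G i x).toPre fun a b => S a b i x
  dv : ∀ a, D.Lc fun i x => (G i x).dv a
  c : ∀ a b k, D.Lc fun i x => (G i x).c a b k
  bump : ∀ i y, Mp86.Bumps I (G i (D.pt i y)).e (G i (D.pt i y)).dv
  dens : ∃ ρ : ∀ i, X i → M → ℝ, D.US ρ ∧ ∀ i y (g : M → ℂ), ∫ x, g x ∂(G i (D.pt i y)).μ =
    ∫ x, ρ i (D.pt i y) x • g x ∂(D.P i).μ

variable (V) in
/-- hypothesis: the resolvent on the Sobolev scale -/
def RB (G : ∀ i, X i → Fr I M ι) : Prop := ∀ l, 4 ≤ l →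
  (∀ i, ∀ x ∈ D.U i, ∀ T ∈ closure (Adm V (D.P i) l), Bijective (QQ (D.P i) (G i x) l T)) ∧
  ∀ R, ∃ K, ∀ i, ∀ x ∈ D.B i, ∀ T ∈ closure (Adm V (D.P i) l), ‖T‖ ≤ R →
    ∀ u, ‖u‖ ≤ K * ‖QQ (D.P i) (G i x) l T u‖

variable (V) in
/-- hypothesis: the resolvent on `Cb` functions -/
structure RE (G : ∀ i, X i → Fr I M ι) : Prop where
  ex : ∀ i y (A : ι → M → V →L[ℝ] V) (s : M → V), (∀ c, (D.P i).Cb (A c)) →
    (∀ c x, Skew (A c x)) → (D.P i).Cb s → ∃ u, (G i (D.pt i y)).IsRes A s u ∧ (D.P i).Cb u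
  ub : ∀ (A : J → ι → M → V →L[ℝ] V) (s : J → M → V), (∀ c, UB D.P fun i => A i c) →
    (∀ i c x, Skew (A i c x)) → UB D.P s →
    UB D.P fun i => (G i (D.pt i (D.y₀ i))).res (A i) (s i)

/-- operator valued families acting on the levels `≤ j` -/
structure Mul (j : ℕ) (A : ∀ i, Y i → M → V →L[ℝ] W) : Prop where
  sz : D.Sz A
  op : ∀ l, 4 ≤ l → l ≤ j → ∃ T : ∀ i, X i → D.H V l i →L[ℝ] D.H W l i, UC D.toRg T ∧
    ∀ i y, T i (D.pt i y) = (D.P i).mulH l _ _ (A i y)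
  app : ∀ {ε : Prop} {l : ℕ} {w : ∀ i, Y i → M → V}, 4 ≤ l → l ≤ j → D.A0 ε l w →
    D.A0 ε l fun i y x => A i y x (w i y x)

variable {D} {G : ∀ i, X i → Fr I M ι} {ε : Prop} {j l : ℕ} {w s : ∀ i, Y i → M → V}

theorem Lc.fixed {b : J → M → ℝ} (h : UB D.P b) : D.Lc fun i _ => b i :=
  ⟨US.fixed h, fun _ _ => A0.fixed h⟩

theorem Lc.of_cut {f : ∀ i, X i → M → ℝ} (h : D.US f) {χ : J → M → ℝ}
    (hχ : ∀ j, 4 ≤ j → D.A0 True j fun i _ => χ i)
    (h1 : ∀ i y x, χ i x • (f i (D.pt i y) x - f i (D.pt i (D.y₀ i)) x) =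
      f i (D.pt i y) x - f i (D.pt i (D.y₀ i)) x) : D.Lc f :=
  ⟨h, fun j hj => A0.loc hj h (hχ j hj) h1⟩

variable [CompleteSpace U] [CompleteSpace V] [CompleteSpace W]

theorem A0.smul {ε' : Prop} {k : ℕ} {f : ∀ i, Y i → M → ℝ} (hL : Lev k j l) (hl : 4 ≤ l)
    (hf : D.A0 ε' k f) (h : D.A0 ε j w) : D.A0 (ε' ∨ ε) l fun i y x => f i y x • w i y x :=
  hf.bil (ContinuousLinearMap.lsmul ℝ ℝ) hL hl h

theorem Lc.smul {f : ∀ i, X i → M → ℝ} (hf : D.Lc f) (hj : 4 ≤ j) (h : D.A0 ε j w) :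
    D.A0 ε j fun i y x => f i (D.pt i y) x • w i y x :=
  (A0.smul (Lev.left (by omega) (by omega)) hj (hf.a0 (j + 7) (by omega)) h).imp Or.inr

theorem A0.neg (hj : 4 ≤ j) (h : D.A0 ε j w) : D.A0 ε j fun i y x => -w i y x :=
  h.clm hj (-ContinuousLinearMap.id ℝ V)

theorem A0.sub (hj : 4 ≤ j) (h : D.A0 ε j w) (h' : D.A0 ε j s) :
    D.A0 ε j fun i y x => w i y x - s i y x :=
  (h.add (h'.neg hj)).congr fun _ _ _ => sub_eq_add_neg _ _

/-- integrals with a smooth family of densities -/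
theorem A0.integral_us {N N' : Type} [NormedAddCommGroup N] [NormedSpace ℝ N]
    [NormedAddCommGroup N'] [NormedSpace ℝ N'] [CompleteSpace N'] (β : N →L[ℝ] V →L[ℝ] N')
    (hj : 4 ≤ j) (h : D.A0 ε j w) {ρ : ∀ i, X i → M → ℝ} (hρ : D.US ρ) {σ : J → M → N}
    (hs : ∀ i, Continuous (σ i)) (hc : ∀ i, HasCompactSupport (σ i))
    (hn : ∃ K, ∀ i, ∫ x, ‖σ i x‖ ∂(D.P i).μ ≤ K) :
    D.Sc fun i y => ∫ x, ρ i (D.pt i y) x • β (σ i x) (w i y x) ∂(D.P i).μ := by
  obtain ⟨γ, g1, g2⟩ := (A0.us_smul (ε := True) hj hρ ((h.aff.sub hj (A0.fixed h.sz.ub)).pure_of_base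
    (A0.zero.congr fun _ _ _ => sub_self _))).integral β hj hs hc hn
  obtain ⟨K, hK⟩ := hn
  obtain ⟨C, hC⟩ := h.sz.ub
  have hi : ∀ i {f : M → ℝ} {u : M → V}, Continuous f → Continuous u →
      Integrable (fun x => f x • β (σ i x) (u x)) (D.P i).μ := fun i f u hf hu =>
    (hf.smul ((β.continuous.comp (hs i)).clm_apply hu)).integrable_of_hasCompactSupport
      (hcs_bil_left β u (hc i)).smul_left
  let L : ∀ i, B (D.P i) 0 ℝ →L[ℝ] N' := fun i => LinearMap.mkContinuous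
    { toFun := fun f => ∫ x, B.fn f x • β (σ i x) (w i (D.y₀ i) x) ∂(D.P i).μ
      map_add' := fun f g => by
        rw [← integral_add (hi i f.sm.continuous (hC i).1.continuous)
          (hi i g.sm.continuous (hC i).1.continuous)]
        simp only [map_add, Pi.add_apply, add_smul]
      map_smul' := fun c f => by
        simp only [map_smul, Pi.smul_apply, smul_assoc, integral_smul, RingHom.id_apply] }
    (‖β‖ * K * |C 0|) fun f => by
      refine (norm_integral_le_of_norm_le (((((hs i).norm.integrable_of_hasCompactSupport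
        (hc i).norm).const_mul ‖β‖).mul_const |C 0|).mul_const ‖f‖) (.of_forall fun x => ?_)).trans ?_
      · rw [norm_smul, mul_comm]
        exact mul_le_mul ((β.le_opNorm₂ _ _).trans (mul_le_mul_of_nonneg_left
          (CB_bound (CB_abs ((hC i).2 0)) x) (by positivity))) (CB_bound f.CB x) (norm_nonneg _)
          (by positivity)
      · rw [integral_mul_const, integral_mul_const, integral_const_mul]
        gcongr
        exact hK i
  have hL : Bv L := ⟨_, fun i => LinearMap.mkContinuous_norm_le' _ _⟩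
  refine ⟨_, g1.add ((hρ.uc 0).clm hL), fun i y => ?_⟩
  have c1 := (hρ.sz.sm i y).continuous
  have e : L i (toB (D.P i) 0 (ρ i (D.pt i y))) =
      ∫ x, ρ i (D.pt i y) x • β (σ i x) (w i (D.y₀ i) x) ∂(D.P i).μ := by
    rw [← fn_toB (k := 0) (hρ.cb i _ (D.mem i y)), toB_fn]; rfl
  have e' := g2 i y
  simp only [map_smul] at e'
  beta_reduce
  rw [e, ← e', ← integral_add (hi i (u := fun x => w i y x - w i (D.y₀ i) x) c1
    ((h.sz.sm i y).continuous.sub (hC i).1.continuous))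
    (hi i (u := w i (D.y₀ i)) c1 (hC i).1.continuous)]
  simp only [map_sub, smul_sub, sub_add_cancel]

theorem A0.toMul (β : U →L[ℝ] V →L[ℝ] W) (hj : 7 ≤ j) {a : ∀ i, Y i → M → U} (h : D.A0 ε j a) :
    D.Mul j fun i y x => β (a i y x) :=
  ⟨h.sz.clm β, fun _ hl hlj => h.mult β hj hl hlj,
    fun hl hlj hw => (h.bil β (Lev.left hj hlj) hl hw).imp Or.inr⟩

theorem Mul.fixed {f : J → M → V →L[ℝ] W} (h : UB D.P f) : D.Mul j fun i _ => f i :=
  ⟨Sz.fixed h, fun l _ _ => ⟨_, UC.const (bv_mulH h l), fun _ _ => rfl⟩,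
    fun hl _ hw => hw.app hl h⟩

theorem Mul.add {A A' : ∀ i, Y i → M → V →L[ℝ] W} (h : D.Mul j A) (h' : D.Mul j A') :
    D.Mul j fun i y x => A i y x + A' i y x := by
  refine ⟨h.sz.add h'.sz, fun l hl hlj => ?_, fun hl hlj hw =>
    (h.app hl hlj hw).add (h'.app hl hlj hw)⟩
  obtain ⟨T, h1, h2⟩ := h.op l hl hlj
  obtain ⟨T', k1, k2⟩ := h'.op l hl hlj
  exact ⟨_, h1.add k1, fun i y => by
    rw [h2, k2, ← mulH_add (h.sz.cb i y) (Maps.triv _) (h'.sz.cb i y) (Maps.triv _)]; rfl⟩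

theorem Mul.lower {A : ∀ i, Y i → M → V →L[ℝ] W} (h : D.Mul j A) (hl : l ≤ j) : D.Mul l A :=
  ⟨h.sz, fun k h4 hk => h.op k h4 (hk.trans hl), fun h4 hk hw => h.app h4 (hk.trans hl) hw⟩

variable [I.Boundaryless]

theorem A0.dG (hF : D.FF G) (hj : 4 ≤ j) (h : D.A0 ε (j + 1) w) (a : ι) :
    D.A0 ε j fun i y => (G i (D.pt i y)).D a (w i y) := by
  obtain ⟨S, h1, h2⟩ := hF.mix
  exact (A0.fsum Finset.univ fun b _ => (h1 a b).smul hj (h.dD hj b)).congr fun i y x =>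
    congrFun ((h2 i _ (D.mem i y)).D a _) x

theorem A0.nab (hF : D.FF G) (hj : 4 ≤ j) {A : ∀ i, Y i → ι → M → V →L[ℝ] V}
    (hA : ∀ c, D.Mul j fun i y => A i y c) (h : D.A0 ε (j + 1) w) (a : ι) :
    D.A0 ε j fun i y => nab I (G i (D.pt i y)).e (A i y) a (w i y) :=
  (h.dG hF hj a).add ((hA a).app hj le_rfl (h.lower hj j.le_succ))

theorem A0.lap (hF : D.FF G) (hj : 4 ≤ j) {A : ∀ i, Y i → ι → M → V →L[ℝ] V}
    (hA : ∀ c, D.Mul (j + 1) fun i y => A i y c) (h : D.A0 ε (j + 2) w) :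
    D.A0 ε j fun i y => lap I (G i (D.pt i y)).e (G i (D.pt i y)).dv (A i y) (w i y) :=
  have h1 := fun a => h.nab hF (by omega) hA a
  (A0.fsum Finset.univ fun a _ => ((h1 a).nab hF hj (fun c => (hA c).lower j.le_succ) a).add
    ((hF.dv a).smul hj ((h1 a).lower hj j.le_succ))).neg hj

omit [CompleteSpace V] [I.Boundaryless] in
theorem uc_QQ (hF : D.FF G) {T : ∀ i, X i → Mu (D.P i) V l}
    (h1 : ∀ c, UC D.toRg fun i x => (T i x).1 c) (h2 : ∀ c, UC D.toRg fun i x => (T i x).2 c) :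
    UC D.toRg fun i x => QQ (D.P i) (G i x) l (T i x) := by
  obtain ⟨S, s1, s2⟩ := hF.mix
  have hD : ∀ j c, UC D.toRg fun i x => Dt V (D.P i) (G i x) j c := fun j c =>
    (UC.sum fun b => ((s1 c b).us.smulH j).comp (UC.const (bv_DH j b))).congr fun i x hx =>
      Dt_eq (s2 i x hx) (fun a b => (s1 a b).us.cb i x hx) j c
  exact (UC.const (bv_ic (by omega))).sub (UC.sum fun c =>
    (((hD l c).add ((h1 c).comp (UC.const (bv_ic l.le_succ)))).add
      (((hF.dv c).us.smulH l).comp (UC.const (bv_ic l.le_succ)))).comp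
      ((hD (l + 1) c).add ((h2 c).comp (UC.const (bv_ic (l + 1).le_succ)))))

/-- the resolvent operator of a family of connections -/
theorem exists_inv (hF : D.FF G) (hB : D.RB V G) (hl : 4 ≤ l)
    {A : ∀ i, Y i → ι → M → V →L[ℝ] V} (hA : ∀ c, D.Mul (l + 1) fun i y => A i y c)
    (hs : ∀ i y c x, Skew (A i y c x)) :
    ∃ R : ∀ i, X i → D.H V l i →L[ℝ] D.H V (l + 2) i, UC D.toRg R ∧ ∀ i y f x,
      D.vl (R i (D.pt i y) f) x + Wz78.lap I (G i (D.pt i y)).e (G i (D.pt i y)).dv (A i y)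
        (D.vl (R i (D.pt i y) f)) x = D.vl f x := by
  choose T₁ a1 a2 using fun c => (hA c).op l hl l.le_succ
  choose T₂ b1 b2 using fun c => (hA c).op (l + 1) (by omega) le_rfl
  let T : ∀ i, X i → Mu (D.P i) V l := fun i x => (fun c => T₁ c i x, fun c => T₂ c i x)
  have hT : ∀ i y, T i (D.pt i y) = (fun c => (D.P i).mulH l _ _ (A i y c),
      fun c => (D.P i).mulH (l + 1) _ _ (A i y c)) := fun i y => by simp only [T, a2, b2]
  have hc : ∀ i, ∀ x ∈ D.U i, T i x ∈ closure (Adm V (D.P i) l) := fun i x hx => by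
    have c1 : ContinuousAt (T i) x := (continuousAt_pi.2 fun c => ((a1 c).sm.diff hx).continuousAt).prodMk
      (continuousAt_pi.2 fun c => ((b1 c).sm.diff hx).continuousAt)
    refine c1.continuousWithinAt.mem_closure (D.dns i hx) ?_
    rintro _ ⟨y, rfl⟩
    rw [hT]
    exact ⟨A i y, fun c => (hA c).sz.sm i y, hs i y,
      fun c => rep_mulH ((hA c).sz.cb i y) (Maps.triv _),
      fun c => rep_mulH ((hA c).sz.cb i y) (Maps.triv _)⟩
  have hi : ∀ i, ∀ x ∈ D.U i, (QQ (D.P i) (G i x) l (T i x)).IsInvertible := fun i x hx =>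
    isInvertible_of_bij ((hB l hl).1 i x hx _ (hc i x hx))
  have hb : ∃ R, ∀ i, ∀ x ∈ D.B i, ‖T i x‖ ≤ R := by
    choose K₁ n1 k1 using fun c => (a1 c).bd0.nn
    choose K₂ n2 k2 using fun c => (b1 c).bd0.nn
    have p1 := Finset.sum_nonneg fun c (_ : c ∈ Finset.univ) => n1 c
    have p2 := Finset.sum_nonneg fun c (_ : c ∈ Finset.univ) => n2 c
    refine ⟨∑ c, K₁ c + ∑ c, K₂ c, fun i x hx => max_le ?_ ?_⟩
    · exact (pi_norm_le_iff_of_nonneg (by positivity)).2 fun c => (k1 c i x hx).trans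
        ((Finset.single_le_sum (fun c _ => n1 c) (Finset.mem_univ c)).trans (by linarith))
    · exact (pi_norm_le_iff_of_nonneg (by positivity)).2 fun c => (k2 c i x hx).trans
        ((Finset.single_le_sum (fun c _ => n2 c) (Finset.mem_univ c)).trans (by linarith))
  obtain ⟨R, hR⟩ := hb
  obtain ⟨K, hK⟩ := (hB l hl).2 R
  obtain ⟨S, s1, s2⟩ := hF.mix
  refine ⟨_, (uc_QQ hF (T := T) a1 b1).inverse hi ⟨|K|, fun i x hx =>
    norm_inverse_le (hi i x (D.sub i hx)) (abs_nonneg K) fun u =>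
      (hK i x hx _ (hc i x (D.sub i hx)) (hR i x hx) u).trans
        (mul_le_mul_of_nonneg_right (le_abs_self K) (norm_nonneg _))⟩, fun i y f x => ?_⟩
  have hx := D.mem i y
  rw [vl, ← val_QQ (D.sup i) (s2 i _ hx) (fun a b => (s1 a b).us.cb i _ hx)
    (fun c => (hF.dv c).us.cb i _ hx) hl (fun c => (hA c).sz.cb i y), ← hT,
    apply_inverse (hi i _ hx)]

omit [CompleteSpace V] [I.Boundaryless] in
theorem sz_res [BoundarylessManifold I M] (hF : D.FF G) (hE : D.RE V G)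
    {A : ∀ i, Y i → ι → M → V →L[ℝ] V} (hA : ∀ c, D.Sz fun i y => A i y c)
    (hs : ∀ i y c x, Skew (A i y c x)) (h : D.Sz s) :
    (D.Sz fun i y => (G i (D.pt i y)).res (A i y) (s i y)) ∧
      ∀ i y, (G i (D.pt i y)).IsRes (A i y) (s i y) ((G i (D.pt i y)).res (A i y) (s i y)) := by
  have h1 := fun i y => hE.ex i y (A i y) (s i y) (fun c => (hA c).cb i y) (hs i y) (h.cb i y)
  refine ⟨⟨fun i y => ?_, hE.ub _ _ (fun c => (hA c).ub) (fun i => hs i _) h.ub⟩, fun i y =>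
    Mp86.res_spec ((h1 i y).imp fun _ h => h.1)⟩
  obtain ⟨u, h2, h3⟩ := h1 i y
  rwa [Mp86.res_eq (hF.bump i y) ⟨fun c => (hA c).sm i y, hs i y⟩ h2]

/-- **The resolvent gains two derivatives.** -/
theorem A0.res (hF : D.FF G) (hB : D.RB V G) (hE : D.RE V G) (hl : 4 ≤ l)
    {A : ∀ i, Y i → ι → M → V →L[ℝ] V} (hA : ∀ c, D.Mul (l + 1) fun i y => A i y c)
    (hs : ∀ i y c x, Skew (A i y c x)) (h : D.A0 ε l s) :
    D.A0 ε (l + 2) fun i y => (G i (D.pt i y)).res (A i y) (s i y) := by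
  obtain ⟨z1, z2⟩ := sz_res hF hE (fun c => (hA c).sz) hs h.sz
  obtain ⟨R, r1, r2⟩ := exists_inv hF hB hl hA hs
  have key : ∀ u : J → M → V, UB D.P u → (ε → ∀ i x, u i x = 0) → (D.A0 True l fun i y x =>
      s i y x - (u i x + Wz78.lap I (G i (D.pt i y)).e (G i (D.pt i y)).dv (A i y) (u i) x)) →
      D.A0 ε (l + 2) fun i y => (G i (D.pt i y)).res (A i y) (s i y) := by
    intro u hu h0 hp
    obtain ⟨δ, d1, d2⟩ := hp.pure
    refine ⟨z1, u, _, hu, h0, r1.app d1, fun i y x => ?_⟩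
    obtain ⟨e1, ⟨C, e2⟩, e3⟩ := z2 i y
    obtain ⟨C', hu⟩ := hu
    have mc := Mp86.Mc.mc (⟨fun c => (hA c).sz.sm i y, hs i y⟩ : Mp86.Mc I (A i y))
    have vf := Mp86.vf (G i (D.pt i y)).toPre
    refine eq_add_of_sub_eq' (Mp86.eq_of_bdd (hF.bump i y) finite_empty (fun h => absurd h
      not_nonempty_empty) (C := C + C' 0 + √|D.C 0| * ‖R i (D.pt i y) (δ i (D.pt i y))‖)
      (u := fun x => (G i (D.pt i y)).res (A i y) (s i y) x - u i x) vf
      (fun _ h => h.elim) (fun _ h => h.elim) (fun x _ => mc x)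
      (fun x _ => Mp86.cm2 (e1.sub (hu i).1) x)
      (fun x _ => contMDiff_val (n := 2) (D.sup i) (by omega) _ x) (fun x _ => ?_)
      (fun x _ => ?_) x (notMem_empty x))
    · exact (norm_sub_le _ _).trans (add_le_add ((norm_sub_le _ _).trans (add_le_add (e2 x)
        (CB_bound ((hu i).2 0) x))) (norm_val_le (D.sup i) (by omega) _ x))
    · rw [Mp86.LA_sub (vf x) (mc x).sm (Mp86.cm2 e1 x) (Mp86.cm2 (hu i).1 x), Mp86.LA_eq_lap,
        Mp86.LA_eq_lap, Mp86.LA_eq_lap, sub_neg_eq_add _ (Wz78.lap _ _ _ _ (Pre.val _ _ _ _) _),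
        r2, ← congrFun (d2 i y) x, ← e3 x]
      abel
  by_cases e : ε
  · refine key (fun _ _ => 0) (UB.const 0) (fun _ _ _ => rfl) ((h.imp fun _ => e).congr
      fun i y x => ?_)
    rw [show (fun _ => 0 : M → V) = 0 from rfl, Mp86.lap_zero, add_zero, sub_zero]
  · have h1 := A0.fixed (j := l + 2) z1.ub
    refine key _ z1.ub (fun h => absurd h e) ((h.aff.sub hl ((h1.lower hl (by omega)).add
      (h1.lap hF hl hA))).pure_of_base (A0.zero.congr fun i _ x => ?_))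
    exact sub_eq_zero.2 ((z2 i _).2.2 x).symm

end Dm

end Crest.Agent.X212.Mon62
end
end

-- ▼ part X212/Mon62/Nem
section

/-! # Row 212, WORDH: Nemytskii operators on the Sobolev scale -/

set_option autoImplicit false
set_option linter.unusedSectionVars false
set_option maxSynthPendingDepth 3
noncomputable section
open scoped Manifold ContDiff Topology InnerProductSpace
open MeasureTheory Set Function Filter

namespace Crest.Agent.X212.Mon62
open An Sob92 Prm93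
open Ell97 (UB)

section abs
variable {S H Z : Type*} [NormedAddCommGroup H] [NormedAddCommGroup Z] [CompleteSpace Z]

/-- extension of maps that are Lipschitz on balls -/
theorem exists_lip_ext {e : S → H} (he : DenseRange e) {f : S → Z} {L : ℝ → ℝ}
    (h : ∀ R s t, ‖e s‖ ≤ R → ‖e t‖ ≤ R → ‖f t - f s‖ ≤ L R * ‖e t - e s‖) :
    ∃ N : H → Z, (∀ s, N (e s) = f s) ∧ Continuous N ∧
      ∀ R x y, ‖x‖ < R → ‖y‖ < R → ‖N y - N x‖ ≤ L R * ‖y - x‖ := by
  have nb : ∀ x, (comap e (𝓝 x)).NeBot := fun x => comap_neBot fun t ht => he.mem_nhds ht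
  have ev : ∀ {R x}, ‖x‖ < R → ∀ᶠ s in comap e (𝓝 x), ‖e s‖ ≤ R := fun {R x} hx =>
    (tendsto_comap.norm.eventually_lt_const hx).mono fun _ => le_of_lt
  have two : ∀ {R x y}, ‖x‖ < R → ‖y‖ < R → ∀ᶠ p : S × S in comap e (𝓝 x) ×ˢ comap e (𝓝 y),
      ‖f p.2 - f p.1‖ ≤ L R * ‖e p.2 - e p.1‖ := fun hx hy =>
    ((ev hx).prod_mk (ev hy)).mono fun p hp => h _ _ _ hp.1 hp.2
  have te : ∀ R x y, Tendsto (fun p : S × S => L R * ‖e p.2 - e p.1‖)
      (comap e (𝓝 x) ×ˢ comap e (𝓝 y)) (𝓝 (L R * ‖y - x‖)) := fun R x y =>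
    ((tendsto_comap.comp tendsto_snd).sub (tendsto_comap.comp tendsto_fst)).norm.const_mul _
  have ex : ∀ x, ∃ c, Tendsto f (comap e (𝓝 x)) (𝓝 c) := fun x => by
    have := nb x
    refine CompleteSpace.complete (cauchy_map_iff'.2 ?_)
    rw [tendsto_uniformity_iff_dist_tendsto_zero]
    have h1 := te (‖x‖ + 1) x x
    rw [sub_self, norm_zero, mul_zero] at h1
    refine squeeze_zero' (.of_forall fun _ => dist_nonneg) ?_ h1
    exact (two (lt_add_one _) (lt_add_one _)).mono fun p hp => by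
      rwa [dist_comm, dist_eq_norm]
  choose N hN using ex
  have lip : ∀ R x y, ‖x‖ < R → ‖y‖ < R → ‖N y - N x‖ ≤ L R * ‖y - x‖ := fun R x y hx hy => by
    have := nb x
    have := nb y
    exact le_of_tendsto_of_tendsto (((hN y).comp tendsto_snd).sub
      ((hN x).comp tendsto_fst)).norm (te R x y) (two hx hy)
  refine ⟨N, fun s => ?_, continuous_iff_continuousAt.2 fun x => ?_, lip⟩
  · have := nb (e s)
    refine tendsto_nhds_unique (hN _) (tendsto_iff_norm_sub_tendsto_zero.2 ?_)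
    have h1 : Tendsto (fun t => L (‖e s‖ + 1) * ‖e t - e s‖) (comap e (𝓝 (e s))) (𝓝 0) := by
      simpa using (tendsto_iff_norm_sub_tendsto_zero.1 tendsto_comap).const_mul (L (‖e s‖ + 1))
    exact squeeze_zero' (.of_forall fun _ => norm_nonneg _)
      ((ev (lt_add_one _)).mono fun t ht => h _ _ _ (lt_add_one _).le ht) h1
  · refine tendsto_iff_norm_sub_tendsto_zero.2 ?_
    have h1 : Tendsto (fun y => L (‖x‖ + 1) * ‖y - x‖) (𝓝 x) (𝓝 0) := by
      simpa using (tendsto_iff_norm_sub_tendsto_zero.1 tendsto_id).const_mul (L (‖x‖ + 1))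
    exact squeeze_zero' (.of_forall fun _ => norm_nonneg _)
      ((continuous_norm.continuousAt.eventually_lt_const (lt_add_one ‖x‖)).mono fun y hy =>
        lip _ _ _ (lt_add_one _) hy) h1

variable [NormedSpace ℝ H] [NormedSpace ℝ Z]

theorem hasFDerivAt_of_integral {N : H → Z} {A : H → H →L[ℝ] Z} (hA : Continuous A)
    (h : ∀ σ τ, N (σ + τ) - N σ = ∫ t in (0 : ℝ)..1, A (σ + t • τ) τ) (σ : H) :
    HasFDerivAt N (A σ) σ := by
  refine hasFDerivAt_iff_isLittleO_nhds_zero.2 (Asymptotics.isLittleO_iff.2 fun c hc => ?_)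
  obtain ⟨r, hr, h1⟩ := Metric.continuous_iff.1 hA σ c hc
  filter_upwards [Metric.ball_mem_nhds (0 : H) hr] with τ hτ
  have hi : IntervalIntegrable (fun t : ℝ => A (σ + t • τ) τ) volume 0 1 :=
    Continuous.intervalIntegrable (by fun_prop) _ _
  have h2 : N (σ + τ) - N σ - A σ τ = ∫ t in (0 : ℝ)..1, (A (σ + t • τ) τ - A σ τ) := by
    rw [h, intervalIntegral.integral_sub hi intervalIntegrable_const]; simp
  rw [h2]
  refine (intervalIntegral.norm_integral_le_of_norm_le_const (C := c * ‖τ‖) fun t ht => ?_).trans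
    (by simp)
  rw [uIoc_of_le zero_le_one] at ht
  rw [← sub_apply]
  refine ContinuousLinearMap.le_of_opNorm_le _ ?_ _
  rw [← dist_eq_norm]
  refine (h1 _ ?_).le
  rw [dist_self_add_left, norm_smul, Real.norm_of_nonneg ht.1.le]
  exact (mul_le_of_le_one_left (norm_nonneg _) ht.2).trans_lt (mem_ball_zero_iff.1 hτ)

end abs

theorem Bn.clm {J : Type} {X Z Z' : J → Type} [∀ i, NormedAddCommGroup (X i)]
    [∀ i, NormedSpace ℝ (X i)] [∀ i, NormedAddCommGroup (Z i)] [∀ i, NormedSpace ℝ (Z i)]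
    [∀ i, NormedAddCommGroup (Z' i)] [∀ i, NormedSpace ℝ (Z' i)] {R : Rg X} {f : ∀ i, X i → Z i}
    (n : ℕ) {L : ∀ i, Z i →L[ℝ] Z' i} (hL : Bv L) (s : R.Sm f) (h : Bn R.B n f) :
    Bn R.B n fun i x => L i (f i x) :=
  Bn.bil n (β := fun i => ContinuousLinearMap.id ℝ (Z i →L[ℝ] Z' i)) (f := fun i _ => L i) bv_id
    (fun _ => contDiffOn_const) s (Bn.const n hL) h

variable {E : Type} [NormedAddCommGroup E] [NormedSpace ℝ E] [FiniteDimensional ℝ E]
  [MeasurableSpace E] [BorelSpace E]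
  {HM : Type} [TopologicalSpace HM] {I : ModelWithCorners ℝ E HM}
  {M : Type} [TopologicalSpace M] [ChartedSpace HM M] [IsManifold I ∞ M]
  [MeasurableSpace M] [T2Space M] [BorelSpace M] [SecondCountableTopology M] {ι : Type} [Fintype ι]
  {J : Type} {X Y : J → Type} [∀ i, NormedAddCommGroup (X i)] [∀ i, NormedSpace ℝ (X i)]
  {D : Dm I M ι X Y} {k : ℕ} {u : J → M → ℝ}

theorem ub_comp {F : J → Pre I M ι} {h : ℝ → ℝ} (hh : ContDiff ℝ ∞ h) (hu : UB F u) :
    UB F fun i x => h (u i x) := by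
  obtain ⟨C, hu⟩ := hu
  choose K hK using fun k => CB_comp (I := I) (M := M) (ι := ι) C k hh
  exact ⟨K, fun i => ⟨sm_comp hh (hu i).1, fun k => hK k _ _ (hu i)⟩⟩

namespace Dm

theorem exists_nem (hk : 7 ≤ k) (hu : UB D.P u) {h : ℝ → ℝ} (hh : ContDiff ℝ ∞ h) :
    ∃ N : ∀ i, D.H ℝ (k + 1) i → D.H ℝ (k + 1) i, (∀ i, Continuous (N i)) ∧
      (∀ i σ z, D.vl (N i σ) z = h (u i z + D.vl σ z) - h (u i z)) ∧
      ∀ R, ∃ K, ∀ i σ, ‖σ‖ < R → ‖N i σ‖ ≤ K := by
  obtain ⟨C, hC⟩ := hu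
  choose L hL0 hL using fun R => nem_lip (I := I) (M := M) (ι := ι) (D.C 0) C hk R (k + 1) le_rfl hh
  have h4 : 4 ≤ k + 1 := by omega
  have hm : ∀ i (σ : Sec I (triv M ℝ)),
      (fun x => h (u i x + σ.1 x) - h (u i x)) ∈ Sec I (triv M ℝ) := fun i σ =>
    mem_triv ((sm_comp hh ((hC i).1.add σ.2.1)).sub (sm_comp hh (hC i).1))
      (σ.2.2.1.mono fun x hx h0 => hx (by simp [h0]))
  have key := fun i => exists_lip_ext ((D.P i).dense_toH (k + 1) (triv M ℝ))
    (f := fun σ => (D.P i).toH (k + 1) _ ⟨_, hm i σ⟩) (L := L) fun R σ τ hσ hτ => by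
      rw [← map_sub, ← map_sub, Pre.norm_toH, Pre.norm_toH]
      rw [Pre.norm_toH] at hσ hτ
      have := hL R (D.P i) (u i) σ.1 τ.1 (D.sup i) (hC i) σ.2.1 σ.2.2.1 τ.2.1 τ.2.2.1 hσ hτ
      convert this using 2
      · funext x
        simp
      · rfl
  choose N h1 h2 h3 using key
  have hv : ∀ i σ z, D.vl (N i σ) z = h (u i z + D.vl σ z) - h (u i z) := fun i σ z => by
    have c1 := continuous_val_apply (F := D.P i) (k := k + 1) (p := triv M ℝ) z
    refine H_eq (f := fun σ => D.vl (N i σ) z) (g := fun σ => h (u i z + D.vl σ z) - h (u i z))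
      (c1.comp (h2 i)) ((hh.continuous.comp (continuous_const.add c1)).sub continuous_const)
      (fun σ => ?_) σ
    rw [h1, vl, vl, val_toH (D.sup i) h4, val_toH (D.sup i) h4]
  refine ⟨N, h2, hv, fun R => ⟨L R * |R|, fun i σ hσ => ?_⟩⟩
  have h0 : N i 0 = 0 := val_injective (D.sup i) h4 (funext fun z => by
    have := hv i 0 z
    simpa [vl, val_zero] using this)
  have := h3 i R 0 σ (by rw [norm_zero]; exact (norm_nonneg σ).trans_lt hσ) hσ
  rw [h0, sub_zero, sub_zero] at this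
  exact this.trans (mul_le_mul_of_nonneg_left (hσ.le.trans (le_abs_self R)) (hL0 R))

/-- balls in the Sobolev spaces -/
def ball (D : Dm I M ι X Y) (j : ℕ) (R : ℝ) : Rg (D.H ℝ j) :=
  ⟨fun _ => univ, fun _ => {σ | ‖σ‖ < R}, fun _ => isOpen_univ, fun _ => subset_univ _⟩

/-- **Nemytskii operators** are smooth with uniform bounds on balls. -/
theorem exists_nem_uc (hk : 7 ≤ k) (hu : UB D.P u) {h : ℝ → ℝ} (hh : ContDiff ℝ ∞ h) :
    ∃ N : ∀ i, D.H ℝ (k + 1) i → D.H ℝ (k + 1) i, (∀ R, UC (D.ball (k + 1) R) N) ∧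
      ∀ i σ z, D.vl (N i σ) z = h (u i z + D.vl σ z) - h (u i z) := by
  choose N h1 h2 h3 using fun h : {h : ℝ → ℝ // ContDiff ℝ ∞ h} => exists_nem hk hu h.2
  have h4 : 4 ≤ k + 1 := by omega
  have hL : Lev (k + 1) (k + 1) (k + 1) := Lev.self (by omega)
  let d : {h : ℝ → ℝ // ContDiff ℝ ∞ h} → {h : ℝ → ℝ // ContDiff ℝ ∞ h} :=
    fun h => ⟨deriv h.1, cd_deriv h.2⟩
  let β := ContinuousLinearMap.mul ℝ ℝ
  have m := fun h : {h : ℝ → ℝ // ContDiff ℝ ∞ h} => (ub_comp (d h).2 hu).clm β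
  let A := fun h i (σ : D.H ℝ (k + 1) i) =>
    (D.P i).mulH (k + 1) (triv M ℝ) (triv M ℝ) (fun x => β ((d h).1 (u i x))) +
      (D.P i).bilH (k + 1) (k + 1) (triv M ℝ) (triv M ℝ) (triv M ℝ) (k + 1) (fun _ => β)
        (N (d h) i σ)
  have hA : ∀ h i σ τ z, D.vl (A h i σ τ) z = deriv h.1 (u i z + D.vl σ z) * D.vl τ z := by
    intro h i σ τ z
    have := h2 (d h) i σ z
    simp only [A, vl, add_apply, val_add, Pi.add_apply] at this ⊢
    rw [val_mulH (D.sup i) h4 ((m h).cb i) (Maps.triv _),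
      val_bilH (D.sup i) hL h4 (Cb_const β) (Maps₂.triv _), this]
    simp only [β, d, ContinuousLinearMap.mul_apply']
    ring
  have hD : ∀ h i σ, HasFDerivAt (N h i) (A h i σ) σ := fun h i => by
    have cA : Continuous (A h i) :=
      continuous_const.add ((ContinuousLinearMap.continuous _).comp (h1 (d h) i))
    refine hasFDerivAt_of_integral cA fun σ τ => val_injective (D.sup i) h4 (funext fun z => ?_)
    have hi : IntervalIntegrable (fun t : ℝ => A h i (σ + t • τ) τ) volume 0 1 :=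
      Continuous.intervalIntegrable (by fun_prop) _ _
    have e1 := ((D.P i).ev (k + 1) (triv M ℝ) z).intervalIntegral_comp_comm hi
    have e2 : ∫ t in (0 : ℝ)..1, deriv h.1 (u i z + (D.vl σ z + t * D.vl τ z)) * D.vl τ z =
        h.1 (u i z + (D.vl σ z + 1 * D.vl τ z)) - h.1 (u i z + (D.vl σ z + 0 * D.vl τ z)) :=
      intervalIntegral.integral_eq_sub_of_hasDerivAt
        (f := fun t => h.1 (u i z + (D.vl σ z + t * D.vl τ z))) (fun t _ => by
          have := (h.2.differentiable (by simp) _).hasDerivAt.comp t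
            ((((hasDerivAt_id t).mul_const (D.vl τ z)).const_add (D.vl σ z)).const_add (u i z))
          rw [one_mul] at this
          exact this)
        (Continuous.intervalIntegrable (((cd_deriv h.2).continuous.comp (by fun_prop)).mul
          continuous_const) _ _)
    change D.vl _ z = (D.P i).ev (k + 1) (triv M ℝ) z _
    rw [← e1, vl, val_sub, Pi.sub_apply, ← vl, ← vl, h2, h2]
    have e3 : ∀ t : ℝ, (D.P i).ev (k + 1) (triv M ℝ) z (A h i (σ + t • τ) τ) =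
        deriv h.1 (u i z + (D.vl σ z + t * D.vl τ z)) * D.vl τ z := fun t => by
      refine (hA h i _ τ z).trans ?_
      simp only [vl, val_add, val_smul, Pi.add_apply, Pi.smul_apply, smul_eq_mul]
    simp only [e3, e2, vl, val_add, Pi.add_apply]
    simp
  have hS : ∀ (n : ℕ) h i, ContDiff ℝ n (N h i) := fun n => by
    induction n with
    | zero => exact fun h i => contDiff_zero.2 (h1 h i)
    | succ n ih =>
      exact fun h i => contDiff_succ_iff_hasFDerivAt.2 ⟨A h i, contDiff_const.add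
        ((ContinuousLinearMap.contDiff _).comp (ih (d h) i)), hD h i⟩
  have hs : ∀ R h, (D.ball (k + 1) R).Sm (N h) := fun R h i =>
    (contDiff_infty.2 fun n => hS n h i).contDiffOn
  have hB : ∀ R n h, Bn (D.ball (k + 1) R).B n (N h) := fun R n => by
    induction n with
    | zero => exact fun h => h3 h R
    | succ n ih =>
      exact fun h => ⟨h3 h R, (Bn.add n (fun _ => contDiffOn_const)
        (fun i => (ContinuousLinearMap.contDiff _).comp_contDiffOn (hs R (d h) i))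
        (Bn.const n (bv_mulH (m h) (k + 1))) (Bn.clm n (bv_bilH hL β) (hs R (d h))
          (ih (d h)))).congr n fun i σ _ => (hD h i σ).fderiv⟩
  exact ⟨N ⟨h, hh⟩, fun R => ⟨hs R _, fun n => hB R n _⟩, h2 ⟨h, hh⟩⟩

theorem A0.comp {ε : Prop} {j : ℕ} (hj : 8 ≤ j) {h : ℝ → ℝ} (hh : ContDiff ℝ ∞ h)
    {w : ∀ i, Y i → M → ℝ} (hw : D.A0 ε j w) : D.A0 False j fun i y x => h (w i y x) := by
  obtain ⟨k, rfl⟩ : ∃ k, j = k + 1 := ⟨j - 1, by omega⟩
  obtain ⟨b, δ, h1, -, h3, h4⟩ := hw.ex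
  obtain ⟨N, n1, n2⟩ := exists_nem_uc (by omega : 7 ≤ k) h1 hh
  obtain ⟨K, hK⟩ := h3.bd0
  refine ⟨⟨fun i y => Cb_comp_fun hh (hw.sz.cb i y), ub_comp hh hw.sz.ub⟩, _, _, ub_comp hh h1,
    False.elim, (n1 (K + 1)).cmp h3 (fun _ _ _ => mem_univ _)
      fun i x hx => (hK i x hx).trans_lt (lt_add_one K), fun i y x => ?_⟩
  rw [n2, h4, add_sub_cancel]

end Dm

end Crest.Agent.X212.Mon62
end
end

-- ▼ part X212/Mon62/Wrd

/-! # Row 212, WORDH: the words and terms of `An/Gauge` extend smoothly to the Banach model -/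

set_option autoImplicit false
set_option linter.unusedSectionVars false
set_option maxSynthPendingDepth 3
noncomputable section
open scoped Manifold ContDiff Topology InnerProductSpace
open MeasureTheory Set Function Filter

namespace Crest.Agent.X212.Mon62
open An Sob92 Prm93 Wz78
open Ell97 (UB)
open Wrd81 (wd)

section lin
variable {κ : Type} [Fintype κ] [DecidableEq κ]

/-- `rk1` as a bilinear map -/
def rkL : CL (Eu κ) (CL (Eu κ) (HS κ)) :=
  (ContinuousLinearMap.compL ℝ (Eu κ) (En κ) (HS κ) hsL).comp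
    (((ContinuousLinearMap.compL ℝ (Eu κ) (CL (Eu κ) ℝ) (En κ)).flip (innerSL ℝ)).comp
      (ContinuousLinearMap.smulRightL ℝ (Eu κ) (Eu κ)).flip)

theorem rkL_apply (u v : Eu κ) : rkL u v = hsL (rk1 u v) := rfl

/-- the product of endomorphisms -/
def mlL : CL (HS κ) (CL (HS κ) (HS κ)) :=
  (ContinuousLinearMap.compL ℝ (HS κ) (En κ) (HS κ) hsL).comp
    ((ContinuousLinearMap.mul ℝ (En κ)).bilinearComp opL opL)

theorem mlL_apply (S T : En κ) : mlL (hsL S) (hsL T) = hsL (S * T) := by simp [mlL]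

/-- the pairing behind `hm` -/
def hmL (Jc : En κ) : CL (HS κ) (CL (HS κ) ℂ) :=
  (ContinuousLinearMap.compL ℝ (HS κ) ℝ ℂ Complex.ofRealCLM).comp (innerSL ℝ) -
    (ContinuousLinearMap.compL ℝ (HS κ) ℝ ℂ (Complex.I • Complex.ofRealCLM)).comp
      (((ContinuousLinearMap.compL ℝ (HS κ) (HS κ) ℝ).flip (mlL (hsL Jc))).comp (innerSL ℝ))

theorem hmL_apply (Jc T : En κ) (u v : Eu κ) : hmL Jc (hsL T) (rkL v u) = hm Jc (T u) v := by
  have h1 : Jc * rk1 v u = rk1 (Jc v) u := by ext1 w; simp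
  have h2 : hmL Jc (hsL T) (rkL v u) = (⟪hsL T, rkL v u⟫_ℝ : ℂ) -
    Complex.I * (⟪hsL T, mlL (hsL Jc) (rkL v u)⟫_ℝ : ℂ) := rfl
  rw [h2, rkL_apply, mlL_apply, h1, inner_rk1, inner_rk1, opL_hsL]
  apply Complex.ext <;> simp [hm]

end lin

/-- a smooth function equal to `(1 + t)^(-1/2)` for `t ≥ 0` -/
def isq (t : ℝ) : ℝ := (√(1 + t * Real.smoothTransition (t + 1)))⁻¹

theorem isq_eq {t : ℝ} (h : 0 ≤ t) : isq t = (√(1 + t))⁻¹ := by
  rw [isq, Real.smoothTransition.one_of_one_le (by linarith), mul_one]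

theorem contDiff_isq : ContDiff ℝ ∞ isq := by
  have h : ∀ t : ℝ, 0 < 1 + t * Real.smoothTransition (t + 1) := fun t => by
    have h0 := Real.smoothTransition.nonneg (t + 1)
    have h1 := Real.smoothTransition.le_one (t + 1)
    rcases le_or_gt t (-1) with h2 | h2
    · rw [Real.smoothTransition.zero_of_nonpos (by linarith)]; simp
    · rcases le_total 0 t with h3 | h3
      · positivity
      · nlinarith
  exact ((contDiff_const.add (contDiff_id.mul (Real.smoothTransition.contDiff.comp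
    (contDiff_id.add contDiff_const)))).sqrt fun t => (h t).ne').inv
    fun t => (Real.sqrt_pos.2 (h t)).ne'

variable {E : Type} [NormedAddCommGroup E] [NormedSpace ℝ E] [FiniteDimensional ℝ E]
  [MeasurableSpace E] [BorelSpace E]
  {HM : Type} [TopologicalSpace HM] {I : ModelWithCorners ℝ E HM}
  {M : Type} [TopologicalSpace M] [ChartedSpace HM M] [IsManifold I ∞ M]
  [MeasurableSpace M] [T2Space M] [BorelSpace M] [SecondCountableTopology M] {ι : Type} [Fintype ι]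
  {lam : Type} [Fintype lam]
  {J : Type} {X Y : J → Type} [∀ i, NormedAddCommGroup (X i)] [∀ i, NormedSpace ℝ (X i)]
  {N N' N'' : Type} [NormedAddCommGroup N] [NormedSpace ℝ N] [NormedAddCommGroup N']
  [NormedSpace ℝ N'] [NormedAddCommGroup N''] [NormedSpace ℝ N'']
  {D : Dm I M ι X Y}

namespace Dm
variable {V W : Type} [NormedAddCommGroup V] [InnerProductSpace ℝ V] [NormedAddCommGroup W]
  [InnerProductSpace ℝ W]

namespace Sc
variable {c c' : ∀ i, Y i → N} {d : ∀ i, Y i → N'}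

theorem congr (h : D.Sc c) (e : ∀ i y, c' i y = c i y) : D.Sc c' :=
  let ⟨γ, h1, h2⟩ := h; ⟨γ, h1, fun i y => (e i y).trans (h2 i y)⟩

theorem const (a : N) : D.Sc fun _ _ => a := ⟨_, UC.const (Bv.const a), fun _ _ => rfl⟩

theorem add (h : D.Sc c) (h' : D.Sc c') : D.Sc fun i y => c i y + c' i y :=
  let ⟨_, h1, h2⟩ := h; let ⟨_, k1, k2⟩ := h'; ⟨_, h1.add k1, fun i y => by simp only [h2, k2]⟩

theorem bil (β : N →L[ℝ] N' →L[ℝ] N'') (h : D.Sc c) (h' : D.Sc d) :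
    D.Sc fun i y => β (c i y) (d i y) :=
  let ⟨_, h1, h2⟩ := h; let ⟨_, k1, k2⟩ := h'
  ⟨_, UC.bil (Bv.const β) h1 k1, fun i y => by simp only [h2, k2]⟩

theorem clm (L : N →L[ℝ] N') (h : D.Sc c) : D.Sc fun i y => L (c i y) :=
  let ⟨_, h1, h2⟩ := h; ⟨_, h1.clm (Bv.const L), fun i y => by simp only [h2]⟩

theorem comp [ProperSpace N] {φ : N → N'} (hφ : ContDiff ℝ ∞ φ) (h : D.Sc c) :
    D.Sc fun i y => φ (c i y) := by
  obtain ⟨γ, h1, h2⟩ := h
  obtain ⟨K, hK⟩ := h1.bd0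
  exact ⟨_, h1.cmp_fixed isOpen_univ (isCompact_closedBall 0 K) (subset_univ _) hφ.contDiffOn
    (fun _ _ _ => mem_univ _) fun i x hx => mem_closedBall_zero_iff.2 (hK i x hx),
    fun i y => by simp only [h2]⟩

theorem lsum {α : Type*} {u : α → ∀ i, Y i → N} :
    ∀ L : List α, (∀ a ∈ L, D.Sc (u a)) → D.Sc fun i y => (L.map fun a => u a i y).sum
  | [], _ => const 0
  | a :: L, h => (h a List.mem_cons_self).add (lsum L fun b hb => h b (List.mem_cons_of_mem a hb))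

end Sc

variable {ε : Prop} {j : ℕ}

theorem A0.lsum {α : Type*} {u : α → ∀ i, Y i → M → V} :
    ∀ L : List α, (∀ a ∈ L, D.A0 ε j (u a)) → D.A0 ε j fun i y x => (L.map fun a => u a i y x).sum
  | [], _ => A0.zero
  | a :: L, h => (h a List.mem_cons_self).add (lsum L fun b hb => h b (List.mem_cons_of_mem a hb))

theorem A0.toLp [CompleteSpace V] {α : Type} [Fintype α] (hj : 4 ≤ j) {u : α → ∀ i, Y i → M → V}
    (h : ∀ a, D.A0 ε j (u a)) :
    D.A0 ε j fun i y x => (WithLp.toLp 2 fun a => u a i y x : Fm α V) :=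
  (A0.fsum Finset.univ fun a _ => (h a).clm hj (Ell97.ij V a)).congr fun _ _ _ =>
    PiLp.ext fun c => (Ell97.sum_ij _ c).symm

theorem Mul.congr {A A' : ∀ i, Y i → M → V →L[ℝ] W} (h : D.Mul j A)
    (e : ∀ i y x, A' i y x = A i y x) : D.Mul j A' := by
  obtain rfl : A' = A := funext fun i => funext fun y => funext (e i y)
  exact h

variable (D)

/-! ### uniformly bounded coefficients -/

def CbU (f : M → N) : Prop := UB D.P fun _ => f

def CdU (g : M → ℝ) : Prop := ∀ a, UB D.P fun i => (D.P i).D a g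

def LtU : Lt M → Prop
  | .mul f => D.CbU f
  | .cl g => D.CdU g
  | _ => True

def SwU (w : SW M) : Prop := ∀ t ∈ w, D.LtU t

def LaU : La M → Prop
  | .mul f => D.CbU f
  | .G => True

def SdU : Sd M → Prop
  | .q u v => D.SwU u ∧ D.SwU v
  | .cv f g h => D.CbU f ∧ D.CdU g ∧ D.CdU h

def AwU (ξ : AW M) : Prop := D.SdU ξ.s ∧ ∀ t ∈ ξ.l, D.LaU t

def SgU (g : Sg M lam) : Prop := Continuous g.s ∧ HasCompactSupport g.s ∧
  (∃ K, ∀ i, ∫ x, ‖g.s x‖ ∂(D.P i).μ ≤ K) ∧ D.SwU g.u ∧ D.SwU g.v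

def CoU {r : ℕ} : Co M lam r → Prop
  | .z _ => True
  | .s g L => D.SgU g ∧ ∀ g' ∈ L, D.SgU g'

def TmU {r n : ℕ} : Tm M lam r n → Prop
  | .lin u => D.SwU u
  | .anti d s u => D.CoU d ∧ D.CbU s ∧ D.SwU u
  | .ad g h ξ => D.CdU g ∧ D.CdU h ∧ D.AwU ξ
  | .adj d s g h u v l => D.CoU d ∧ D.CbU s ∧ D.CdU g ∧ D.CdU h ∧ D.SwU u ∧ D.SwU v ∧
      ∀ t ∈ l, D.LaU t
  | .adn f g h φ L => D.CbU f ∧ D.CdU g ∧ D.CdU h ∧ ContDiff ℝ ∞ φ ∧ ∀ ξ ∈ L, D.AwU ξ
  | .cut _ _ g => D.SgU g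
  | .cz _ _ _ => True

end Dm

variable (J M ι lam) in
/-- a family of modules of the same size -/
structure MF where
  N : ℕ
  Jc : En (Fin N)
  p : J → M → En (Fin N)
  ρ : J → ι → M → En (Fin N)
  j : J → M → CL (Eu lam) (En (Fin N))

abbrev MF.m (μ : MF M ι lam J) (i : J) : Md M ι lam := ⟨μ.N, μ.Jc, μ.p i, μ.ρ i, μ.j i⟩
abbrev MF.V (μ : MF M ι lam J) : Type := Eu (Fin μ.N)
abbrev MF.A (μ : MF M ι lam J) : Type := HS (Fin μ.N)
abbrev MF.pg (μ : MF M ι lam J) (i : J) : M → CL μ.A μ.A := (μ.m i).pg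
abbrev MF.adW (μ : MF M ι lam J) (i : J) (W : ι → M → En (Fin μ.N)) : ι → M → CL μ.A μ.A :=
  (μ.m i).adW W
abbrev MF.pm (μ : MF M ι lam J) (B : J → Base M ι lam) (i : J) : M → CL μ.V μ.V := (μ.m i).pm (B i)
abbrev MF.p2 (μ : MF M ι lam J) (B : J → Base M ι lam) (i : J) :
    M → CL (Fm (ι × ι) μ.A) (Fm (ι × ι) μ.A) := (μ.m i).p2 (B i)

/-- a family of configurations and geometric frames -/
structure CF (D : Dm I M ι X Y) (μ : MF M ι lam J) (r : ℕ) where
  G : ∀ i, X i → Fr I M ι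
  W : ∀ i, Y i → ι → M → En (Fin μ.N)
  Φ : ∀ i, Y i → M → μ.V
  z : ∀ i, Y i → EuclideanSpace ℂ (Fin r)

namespace CF
open Dm
variable {μ : MF M ι lam J} {r n : ℕ} (κ : CF D μ r)

abbrev c (i : J) (y : Y i) : Cfg M ι lam r := ⟨μ.m i, κ.W i y, κ.Φ i y, κ.z i y⟩
abbrev F (i : J) (y : Y i) : Fr I M ι := κ.G i (D.pt i y)

structure OK (ε : Prop) (j : ℕ) : Prop where
  hj : 8 ≤ j
  F : D.FF κ.G
  bV : D.RB μ.V κ.G
  bA : D.RB μ.A κ.G
  eV : D.RE μ.V κ.G
  eA : D.RE μ.A κ.G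
  W : ∀ a, D.A0 False j fun i y x => hsL (κ.W i y a x)
  sk : ∀ i y a x, Skw (κ.W i y a x)
  Φ : D.A0 ε j κ.Φ
  z : D.Sc κ.z
  ρ : ∀ a, UB D.P fun i => μ.ρ i a
  j : UB D.P μ.j
  pg : UB D.P μ.pg

def sw (u : SW M) (i : J) (y : Y i) : M → μ.V := (κ.c i y).sw (κ.F i y) u
def aw (ξ : AW M) (i : J) (y : Y i) : M → μ.A := (κ.c i y).aw (κ.F i y) ξ
def aws (L : List (AW M)) (i : J) (y : Y i) : M → μ.A := (κ.c i y).aws (κ.F i y) L
def js (s : M → Eu lam) (u : SW M) (i : J) (y : Y i) (x : M) : μ.V := μ.j i x (s x) (κ.sw u i y x)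

/-- decay condition for a term (automatic on a fixed closed manifold) -/
def Pu (j : ℕ) : Tm M lam r n → Prop
  | .lin u => D.A0 True j (κ.sw u)
  | .anti _ s u => D.A0 True j (κ.js s u)
  | .ad _ _ ξ => D.A0 True j (κ.aw ξ)
  | .adj _ s _ _ u _ _ => D.A0 True j (κ.js s u)
  | .adn f _ _ _ L => D.A0 True j fun i y x => f x • κ.aws L i y x
  | _ => True

namespace OK
variable {κ} {ε ε' : Prop} {j l : ℕ} [I.Boundaryless] (h : κ.OK ε j)
include h

theorem h4 : 4 ≤ j := h.hj.trans' (by omega)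
theorem lev : Lev j j j := Lev.self (h.hj.trans' (by omega))

theorem mulV (a : ι) : D.Mul j fun i y => κ.W i y a :=
  ((h.W a).toMul opL (h.hj.trans' (by omega))).congr fun _ _ _ => (opL_hsL _).symm

theorem mulA (a : ι) : D.Mul j fun i y => μ.adW i (κ.W i y) a :=
  ((h.W a).toMul (adcL ∘L opL) (h.hj.trans' (by omega))).congr fun _ _ _ => by
    rw [ContinuousLinearMap.comp_apply, opL_hsL]; rfl

theorem resV {u : ∀ i, Y i → M → μ.V} (hl : 4 ≤ l) (hlj : l + 1 ≤ j) (hu : D.A0 ε' l u) :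
    D.A0 ε' (l + 2) fun i y => (κ.F i y).res (κ.W i y) (u i y) :=
  hu.res h.F h.bV h.eV hl (fun c => (h.mulV c).lower hlj) h.sk

theorem resA {u : ∀ i, Y i → M → μ.A} (hl : 4 ≤ l) (hlj : l + 1 ≤ j) (hu : D.A0 ε' l u) :
    D.A0 ε' (l + 2) fun i y => (κ.F i y).res (μ.adW i (κ.W i y)) (u i y) :=
  hu.res h.F h.bA h.eA hl (fun c => (h.mulA c).lower hlj) fun i y c x => adc_skw (h.sk i y c x)

theorem dg {g : M → ℝ} (hg : D.CdU g) (hl : 4 ≤ l) (a : ι) :
    D.A0 False l fun i y => (κ.F i y).D a g := by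
  obtain ⟨S, h1, h2⟩ := h.F.mix
  exact (A0.fsum Finset.univ fun b _ => (h1 a b).smul hl (A0.fixed (hg b))).congr fun i y x =>
    congrFun ((h2 i _ (D.mem i y)).D a _) x

theorem lt {t : Lt M} (ht : D.LtU t) {u : ∀ i, Y i → M → μ.V} (hu : D.A0 ε' j u) :
    D.A0 ε' j (V := μ.V) fun i y => (κ.c i y).lt (κ.F i y) t (u i y) := by
  have := h.hj
  cases t with
  | mul f => exact (Lc.fixed ht).smul h.h4 hu
  | cl g => exact A0.fsum Finset.univ fun a _ =>
      (A0.smul h.lev h.h4 (h.dg ht h.h4 a) (hu.app h.h4 (h.ρ a))).imp Or.inr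
  | im => exact hu.clm h.h4 μ.Jc
  | G =>
    obtain ⟨l, rfl⟩ : ∃ l, j = l + 2 := ⟨j - 2, by omega⟩
    exact h.resV (by omega) (by omega) (hu.lower (by omega) (by omega))

theorem wdV {s : ∀ i, Y i → M → μ.V} (hs : D.A0 ε' j s) : ∀ {w : SW M}, D.SwU w →
    D.A0 ε' j (V := μ.V) fun i y => wd ((κ.c i y).lt (κ.F i y)) (s i y) w
  | [], _ => hs
  | t :: _, hw => h.lt (hw t List.mem_cons_self)
      (wdV hs fun b hb => hw b (List.mem_cons_of_mem t hb))

theorem sw {w : SW M} (hw : D.SwU w) : D.A0 ε j (κ.sw w) := h.wdV h.Φ hw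

theorem la {t : La M} (ht : D.LaU t) {u : ∀ i, Y i → M → μ.A} (hu : D.A0 ε' j u) :
    D.A0 ε' j (V := μ.A) fun i y => (κ.c i y).la (κ.F i y) t (u i y) := by
  have := h.hj
  cases t with
  | mul f => exact (Lc.fixed ht).smul h.h4 hu
  | G =>
    obtain ⟨l, rfl⟩ : ∃ l, j = l + 2 := ⟨j - 2, by omega⟩
    exact h.resA (by omega) (by omega) (hu.lower (by omega) (by omega))

/-- adjoint words on an arbitrary seed -/
theorem wdA {s : ∀ i, Y i → M → μ.A} (hs : D.A0 ε' j s) : ∀ {w : List (La M)},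
    (∀ t ∈ w, D.LaU t) → D.A0 ε' j (V := μ.A) fun i y => wd ((κ.c i y).la (κ.F i y)) (s i y) w
  | [], _ => hs
  | t :: _, hw => h.la (hw t List.mem_cons_self)
      (wdA hs fun b hb => hw b (List.mem_cons_of_mem t hb))

theorem q {ε'' : Prop} {u v : ∀ i, Y i → M → μ.V} (hu : D.A0 ε' j u) (hv : D.A0 ε'' j v) :
    D.A0 (ε' ∨ ε'') j (V := μ.A) fun i y x => (μ.m i).q x (u i y x) (v i y x) :=
  (hu.bil rkL h.lev h.h4 hv).app h.h4 h.pg

theorem curv (hl : 4 ≤ l) (hlj : l + 1 ≤ j) (a b : ι) :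
    D.A0 False l fun i y x => hsL (curv I (κ.F i y).e (κ.F i y).c (κ.W i y) a b x) := by
  have h1 := fun a => (h.W a).lower (by omega) hlj
  have h2 := fun a => (h.W a).lower hl (by omega)
  have h3 := fun a b => ((h.W a).bil mlL (Lev.left (h.hj.trans' (by omega)) (by omega)) hl
    (h2 b)).aff
  have h5 : ∀ i y a b x, (κ.F i y).D a (fun x => hsL (κ.W i y b x)) x =
      hsL (dv I ((κ.F i y).e a) (κ.W i y b) x) := fun i y a b x =>
    dv_clm hsL (((h.mulV b).sz.sm i y).mdifferentiableAt (by simp))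
  refine (((((h1 b).dG h.F hl a).sub hl ((h1 a).dG h.F hl b)).add ((h3 a b).sub hl (h3 b a))).sub hl
    (A0.fsum Finset.univ fun k _ => (h.F.c a b k).smul hl (h2 k))).congr fun i y x => ?_
  simp only [Wz78.curv, h5, mlL_apply, map_sub, map_add, map_sum, map_smul]

theorem Fg (hl : 4 ≤ l) (hlj : l + 1 ≤ j) (s : ι × ι) :
    D.A0 False l (V := μ.A) fun i y x => (μ.m i).Fg (κ.F i y) (κ.W i y) x s :=
  (h.curv hl hlj s.1 s.2).app hl h.pg

theorem dd {g g' : M → ℝ} (hg : D.CdU g) (hg' : D.CdU g') (hl : 4 ≤ l) (s : ι × ι) :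
    D.A0 False l fun i y x => (κ.F i y).D s.1 g x * (κ.F i y).D s.2 g' x :=
  (A0.smul (Lev.left (by omega) (by omega)) hl (h.dg (l := l + 7) hg (by omega) s.1)
    (h.dg hg' hl s.2)).aff

theorem cv {f g g' : M → ℝ} (hf : D.A0 ε' j fun _ _ => f) (hg : D.CdU g) (hg' : D.CdU g') :
    D.A0 ε' j (V := μ.A) fun i y => (κ.c i y).sd (κ.F i y) (.cv f g g') := by
  have := h.hj
  have h7 : 7 ≤ j := by omega
  obtain ⟨l, rfl⟩ : ∃ l, j = l + 2 := ⟨j - 2, by omega⟩
  have hl : 4 ≤ l := by omega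
  refine h.resA hl (by omega) ((h.resA hl (by omega) (A0.fsum Finset.univ fun s _ => ?_)).lower
    hl (by omega))
  exact ((A0.smul (Lev.left h7 (by omega)) hl hf (A0.smul (Lev.left h7 (by omega)) hl
    (h.dd hg hg' h.h4 s) (h.Fg hl (by omega) s))).imp Or.inl).congr fun i y x => by
      rw [mul_assoc, mul_smul]

theorem sd {s : Sd M} (hs : D.SdU s) :
    D.A0 False j (V := μ.A) fun i y => (κ.c i y).sd (κ.F i y) s := by
  cases s with
  | q u v => exact (h.q (h.sw hs.1) (h.sw hs.2)).aff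
  | cv f g g' => exact h.cv (A0.fixed hs.1) hs.2.1 hs.2.2

theorem aw {ξ : AW M} (hξ : D.AwU ξ) : D.A0 False j (κ.aw ξ) := h.wdA (h.sd hξ.1) hξ.2

theorem aws {L : List (AW M)} (hL : ∀ ξ ∈ L, D.AwU ξ) : D.A0 False j (κ.aws L) :=
  A0.lsum L fun ξ hξ => h.aw (hL ξ hξ)

theorem js {s : M → Eu lam} (hs : D.A0 ε' j fun _ _ => s) {u : SW M} (hu : D.SwU u) :
    D.A0 (ε' ∨ ε) j (κ.js s u) :=
  ((hs.app h.h4 ((UB.const hsL).comp h.j)).bil opL h.lev h.h4 (h.sw hu)).congr fun i y x => by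
    rw [ContinuousLinearMap.comp_apply, opL_hsL]; rfl

theorem sg {g : Sg M lam} (hg : D.SgU g) : D.Sc fun i y => (κ.c i y).sg (κ.F i y) g := by
  obtain ⟨g1, g2, ⟨K, hK⟩, g4, g5⟩ := hg
  obtain ⟨ρ, r1, r2⟩ := h.F.dens
  obtain ⟨C, hC⟩ := (UB.const hsL).comp h.j
  refine (((h.sw g5).bil rkL h.lev h.h4 (h.sw g4)).integral_us (hmL μ.Jc) h.h4 r1
    (σ := fun i x => hsL.comp (μ.j i x) (g.s x))
    (fun i => (hC i).1.continuous.clm_apply g1) (fun i => g2.mono fun x hx h0 => hx (by simp [h0]))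
    ⟨|C 0| * K, fun i => ?_⟩).congr fun i y => ?_
  · refine (integral_mono_of_nonneg (.of_forall fun _ => norm_nonneg _)
      ((g1.norm.integrable_of_hasCompactSupport g2.norm).const_mul |C 0|) (.of_forall fun x =>
        ContinuousLinearMap.le_of_opNorm_le _ (CB_bound (CB_abs ((hC i).2 0)) x) _)).trans ?_
    rw [integral_const_mul]
    exact mul_le_mul_of_nonneg_left (hK i) (abs_nonneg _)
  · refine (r2 i y _).trans (integral_congr_ae (.of_forall fun x => ?_))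
    simp only [ContinuousLinearMap.comp_apply, hmL_apply]
    rfl

theorem co {d : Co M lam r} (hd : D.CoU d) : D.Sc fun i y => (κ.c i y).co (κ.F i y) d := by
  cases d with
  | z k => exact h.z.clm (PiLp.proj (𝕜 := ℝ) 2 (fun _ => ℂ) k)
  | s g L =>
    have sq : ∀ {g : Sg M lam}, D.SgU g → D.Sc fun i y => ‖(κ.c i y).sg (κ.F i y) g‖ ^ 2 :=
      fun hg => (h.sg hg).comp (contDiff_norm_sq ℝ)
    refine ((((sq hd.1).add (Sc.lsum L fun g' hg' => sq (hd.2 g' hg'))).comp contDiff_isq).bil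
      (ContinuousLinearMap.lsmul ℝ ℝ) (h.sg hd.1)).congr fun i y => ?_
    rw [isq_eq (add_nonneg (sq_nonneg _) (List.sum_nonneg fun a ha => by
      obtain ⟨_, -, rfl⟩ := List.mem_map.1 ha; exact sq_nonneg _))]
    simp only [Cfg.co, ContinuousLinearMap.lsmul_apply, Complex.real_smul, Complex.ofReal_inv,
      add_assoc]
    exact div_eq_inv_mul _ _

theorem cs {d : ∀ i, Y i → ℂ} (hd : D.Sc d) {u : ∀ i, Y i → M → μ.V} (hu : D.A0 True j u) :
    D.A0 ε' j fun i y x => cs μ.Jc (d i y) (u i y x) :=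
  (hu.smulc (hd.clm Complex.reCLM)).add ((hu.clm h.h4 μ.Jc).smulc (hd.clm Complex.imCLM))

variable {B : J → Base M ι lam} {T : Tm M lam r n}

/-- **Dirac row** -/
theorem tD (hB : UB D.P (μ.pm B)) (hT : D.TmU T)
    (hp : κ.Pu j T) : D.A0 True j (V := μ.V) fun i y => (κ.c i y).tD (B i) (κ.F i y) T := by
  cases T with
  | lin u => exact A0.app h.h4 hB hp
  | anti d s u => exact (h.cs (h.co hT.1) hp).app h.h4 hB
  | _ => exact A0.zero

/-- **curvature row** -/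
theorem tC (hB : UB D.P (μ.p2 B)) (hT : D.TmU T) (hp : κ.Pu j T) :
    D.A0 True j (V := Fm (ι × ι) μ.A) fun i y => (κ.c i y).tC (B i) (κ.F i y) T := by
  cases T with
  | ad g g' ξ =>
    exact (A0.toLp h.h4 fun s =>
      (A0.smul h.lev h.h4 (h.dd hT.1 hT.2.1 h.h4 s) hp).imp Or.inr).app h.h4 hB
  | adj d s g g' u v l =>
    obtain ⟨t1, -, t3, t4, -, t6, t7⟩ := hT
    exact (A0.toLp h.h4 fun s => (A0.smul h.lev h.h4 (h.dd t3 t4 h.h4 s)
      (h.wdA (h.q (h.cs (ε' := True) (h.co t1) hp) (h.sw t6)) t7)).imp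
        fun e => Or.inr (Or.inl e)).app h.h4 hB
  | adn f g g' φ L =>
    obtain ⟨-, t2, t3, t4, t5⟩ := hT
    have h1 := (((h.aws t5).bil (innerSL ℝ) h.lev h.h4 (h.aws t5)).congr
      (w' := fun i y x => ‖κ.aws L i y x‖ ^ 2) fun i y x =>
        (real_inner_self_eq_norm_sq _).symm).comp h.hj t4
    refine ((A0.toLp h.h4 fun s => (A0.smul h.lev h.h4 (A0.smul h.lev h.h4 (h.dd t2 t3 h.h4 s) h1)
      hp).imp Or.inr).app h.h4 hB).congr fun i y x => ?_
    simp only [Cfg.tC, smul_smul, smul_eq_mul]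
    congr 2
    funext s
    congr 1
    simp only [CF.aws]
    ring
  | _ => exact A0.zero

/-- **scalar rows** -/
theorem tS (hT : D.TmU T) : D.Sc fun i y => (κ.c i y).tS (κ.F i y) T := by
  cases T with
  | cut k w g =>
    exact ((h.sg hT).clm (ContinuousLinearMap.mul ℝ ℂ w)).clm
      (ContinuousLinearMap.single ℝ (fun _ => ℂ) k)
  | cz k w k' =>
    exact ((h.co (d := .z k') trivial).clm (ContinuousLinearMap.mul ℝ ℂ w)).clm
      (ContinuousLinearMap.single ℝ (fun _ => ℂ) k)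
  | _ => exact Sc.const 0

end OK

end CF

end Crest.Agent.X212.Mon62
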