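import Crest.Agent.X212.Nk89.Wt
import Crest.Agent.X212.Mon62.Res
import Crest.Agent.X212.Ell97.Nab
import Crest.Agent.X212.Mon62.Wrd
import Crest.Agent.X212.Ell97.Main
import Crest.Agent.X212.Prm93.Chg

-- ▼ part X212/Nk89/WRes
section

/-! The resolvent `1 + ∇*∇` of the frame `F` on weighted Sobolev spaces. -/

set_option autoImplicit false
set_option linter.unusedSectionVars false
noncomputable section
open scoped Manifold ContDiff Topology InnerProductSpace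
open MeasureTheory Set Function Filter

namespace Crest.Agent.X212.Nk89
open An Sob92 Wz78 Mon62

variable {E : Type} [NormedAddCommGroup E] [NormedSpace ℝ E] [FiniteDimensional ℝ E]
  [MeasurableSpace E] [BorelSpace E]
  {HM : Type} [TopologicalSpace HM] {I : ModelWithCorners ℝ E HM} [I.Boundaryless]
  {M : Type} [TopologicalSpace M] [ChartedSpace HM M] [IsManifold I ∞ M]
  [MeasurableSpace M] [T2Space M] [BorelSpace M] [SecondCountableTopology M] {ι : Type} [Fintype ι]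
  {V : Type} [NormedAddCommGroup V] [InnerProductSpace ℝ V]

/-- the same frame, divergences differing by a small bounded drift -/
structure Dr (F F' : Fr I M ι) (D : ℕ → ℝ) : Prop where
  e : F'.e = F.e
  cb : ∀ a, F'.CBs (fun x => F'.dv a x - F.dv a x) D
  sm : ∀ x, ∑ a, (F'.dv a x - F.dv a x) ^ 2 ≤ 1

variable {F F' : Fr I M ι} {C D : ℕ → ℝ} {j : ℕ}

theorem Wt.dr {ψ : M → ℝ} (h : Wt F F' ψ) (hD : ∀ a, F.CBs (F.D a ψ) D)
    (hs : ∀ x, ∑ a, F.D a ψ x ^ 2 ≤ 1 / 4) : Dr F F' fun k => 2 * |D k| := by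
  refine ⟨h.e, fun a => ?_, fun x => ?_⟩
  · simp only [h.dv, add_sub_cancel_left]
    refine h.toWtP.CBs.2 ⟨contMDiff_const.mul (hD a).1, fun k => CB_mono
      (CB_clm ((2 : ℝ) • ContinuousLinearMap.id ℝ ℝ) (hD a).1 (CB_abs ((hD a).2 k))) ?_⟩
    simp only [norm_smul, ContinuousLinearMap.norm_id, Real.norm_ofNat, mul_one, le_refl]
  · simp only [h.dv, add_sub_cancel_left, mul_pow, ← Finset.mul_sum]
    linarith [hs x]

namespace Dr
variable (h : Dr F F' D)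
include h

theorem D_eq (a : ι) : (F.D a : (M → V) → M → V) = F'.D a := by
  funext u; rw [Pre.D_def, Pre.D_def, h.e]

theorem Dt (j : ℕ) (c : ι) : Dt V F'.toPre F j c = Dt V F'.toPre F' j c := by
  rw [Mon62.Dt, Mon62.Dt, h.D_eq]

theorem Nb (j : ℕ) (T : HT F'.toPre V j →L[ℝ] HT F'.toPre V j) (c : ι) :
    Nb F'.toPre F j T c = Nb F'.toPre F' j T c := by rw [Mon62.Nb, Mon62.Nb, h.Dt]

theorem act (hF : F'.Tame C) : Act V F'.toPre F := by
  refine ⟨fun j c => ?_, fun c => ?_⟩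
  · rw [h.Dt, h.D_eq]; exact rep_DH c
  · have := Cb_sub ⟨C, hF.dv c⟩ ⟨_, h.cb c⟩
    convert this using 1
    funext x; simp

theorem QQ_eq (hF : F'.Tame C) (T : Mu F'.toPre V j) (u : HT F'.toPre V (j + 2)) :
    QQ F'.toPre F j T u = QQ F'.toPre F' j T u + ∑ c, smulH F'.toPre j _
      (fun x => F'.dv c x - F.dv c x) (ic F'.toPre V (j + 1) j
        (Mon62.Nb F'.toPre F' (j + 1) (T.2 c) c u)) := by
  have e : ∀ c, smulH F'.toPre j (triv M V) (F.dv c) = smulH F'.toPre j _ (F'.dv c) -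
      smulH F'.toPre j _ fun x => F'.dv c x - F.dv c x := fun c =>
    RepT_eq (rep_smulH ((h.act (V := V) hF).dv c))
      (RepT_sub (rep_smulH ⟨C, hF.dv c⟩) (rep_smulH ⟨_, h.cb c⟩)) fun u => funext fun x => by
        simp [sub_smul]
  simp only [QQ, h.Nb, e, sub_apply, _root_.sum_apply, ContinuousLinearMap.comp_apply,
    add_apply, sub_add, ← Finset.sum_sub_distrib]
  congr 1
  exact Finset.sum_congr rfl fun c _ => by abel

theorem coer_adm (hF : F'.Tame C) {T : Mu F'.toPre V j} (hT : T ∈ Adm V F'.toPre j) :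
    Coer (ic F'.toPre V (j + 2) 0) (ic F'.toPre V j 0) (3 / 4) (QQ F'.toPre F j T) := by
  obtain ⟨A, hA, hs, hT⟩ := hT
  intro u
  refine H_le (f := fun u => 3 / 4 * ‖ic F'.toPre V (j + 2) 0 u‖ ^ 2)
    (g := fun u => ⟪ic F'.toPre V j 0 (QQ F'.toPre F j T u), ic F'.toPre V (j + 2) 0 u⟫_ℝ)
    (by fun_prop) (by fun_prop) (fun u => ?_) u
  simp only [ic]
  rw [RepT_toH (rep_QQ (h.act hF) hT), incl_toH (Nat.zero_le _), incl_toH (Nat.zero_le _),
    ← real_inner_self_eq_norm_sq, Pre.inner_toH, Pre.inner_toH]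
  have hu := u.2.1
  have hc := u.2.2.1
  have e : ∀ x, ⟪u.1 x + lap I F.e F.dv A u.1 x, u.1 x⟫_ℝ = (⟪u.1 x, u.1 x⟫_ℝ +
      ∑ a, (F'.dv a x - F.dv a x) * ⟪nab I F'.e A a u.1 x, u.1 x⟫_ℝ) +
        ⟪lap I F'.e F'.dv A u.1 x, u.1 x⟫_ℝ := fun x => by
    simp only [lap, h.e, inner_add_left, inner_neg_left, sum_inner, real_inner_smul_left,
      Finset.sum_add_distrib, sub_mul, Finset.sum_sub_distrib]
    ring
  have s1 : Sm I fun x => ⟪u.1 x, u.1 x⟫_ℝ := fun x => SA.inner (hu x) (hu x)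
  have s2 : Sm I fun x => ∑ a, (F'.dv a x - F.dv a x) * ⟪nab I F'.e A a u.1 x, u.1 x⟫_ℝ :=
    fun x => SA.sum _ fun a _ => ((h.cb a).1 x).mul (SA.inner (sm_nab hA a hu x) (hu x))
  have s3 : Sm I fun x => ∑ a, ⟪nab I F'.e A a u.1 x, nab I F'.e A a u.1 x⟫_ℝ :=
    fun x => SA.sum _ fun a _ => SA.inner (sm_nab hA a hu x) (sm_nab hA a hu x)
  have c2 : HasCompactSupport fun x =>
      ∑ a, (F'.dv a x - F.dv a x) * ⟪nab I F'.e A a u.1 x, u.1 x⟫_ℝ :=
    hc.mono fun x hx h0 => hx (by simp [h0])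
  have c3 : HasCompactSupport fun x => ∑ a, ⟪nab I F'.e A a u.1 x, nab I F'.e A a u.1 x⟫_ℝ :=
    HasCompactSupport.intro hc fun x hx => Finset.sum_eq_zero fun a _ => by
      have : nab I F'.e A a u.1 x = 0 := by
        rw [nab, dv_eq_zero_of_notMem hx, image_eq_zero_of_notMem_tsupport hx]; simp
      rw [this, inner_zero_left]
  have i1 := integ (F := F') s1 (hcs_inner _ hc)
  have i2 : Integrable (fun x => ⟪u.1 x, u.1 x⟫_ℝ +
      ∑ a, (F'.dv a x - F.dv a x) * ⟪nab I F'.e A a u.1 x, u.1 x⟫_ℝ) F'.μ :=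
    i1.add (integ (F := F') s2 c2)
  simp only [Pre.ip, e]
  rw [integral_add i2 (integ (fun x => SA.inner (sm_lap hA hu x) (hu x)) (hcs_inner _ hc)),
    integral_lap hA hs hu hu hc, ← integral_add i2 (integ s3 c3), ← integral_const_mul]
  refine integral_mono (i1.const_mul _) (i2.add (integ s3 c3)) fun x => ?_
  have h1 : ∀ a, -((F'.dv a x - F.dv a x) ^ 2 * (‖u.1 x‖ ^ 2 / 4)) ≤
      (F'.dv a x - F.dv a x) * ⟪nab I F'.e A a u.1 x, u.1 x⟫_ℝ +
        ⟪nab I F'.e A a u.1 x, nab I F'.e A a u.1 x⟫_ℝ := fun a => by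
    have := real_inner_self_nonneg
      (x := nab I F'.e A a u.1 x + ((F'.dv a x - F.dv a x) / 2) • u.1 x)
    simp only [inner_add_left, inner_add_right, real_inner_smul_left, real_inner_smul_right,
      real_inner_comm (nab I F'.e A a u.1 x) (u.1 x), real_inner_self_eq_norm_sq (u.1 x)] at this ⊢
    nlinarith
  have h2 := Finset.sum_le_sum fun a (_ : a ∈ Finset.univ) => h1 a
  rw [Finset.sum_neg_distrib, ← Finset.sum_mul, Finset.sum_add_distrib] at h2
  have h3 := mul_le_mul_of_nonneg_right (h.sm x) (by positivity : 0 ≤ ‖u.1 x‖ ^ 2 / 4)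
  simp only [real_inner_self_eq_norm_sq (u.1 x)]
  linarith

theorem coer_closure (hF : F'.Tame C) {T : Mu F'.toPre V j}
    (hT : T ∈ closure (Adm V F'.toPre j)) :
    Coer (ic F'.toPre V (j + 2) 0) (ic F'.toPre V j 0) (3 / 4) (QQ F'.toPre F j T) := fun u => by
  have hc : Continuous fun T : Mu F'.toPre V j => QQ F'.toPre F j T u :=
    continuous_QQ.clm_apply continuous_const
  have hcl : IsClosed {T : Mu F'.toPre V j | 3 / 4 * ‖ic F'.toPre V (j + 2) 0 u‖ ^ 2 ≤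
      ⟪ic F'.toPre V j 0 (QQ F'.toPre F j T u), ic F'.toPre V (j + 2) 0 u⟫_ℝ} :=
    isClosed_le continuous_const (by fun_prop)
  exact hcl.closure_subset_iff.2 (fun T hT => h.coer_adm hF hT u) hT

end Dr

/-- the lower order part -/
def cL (n : ℕ) (s d R : ℝ) : ℝ := n * (R * (2 * 1 + R + s)) + n * (d * (1 + R))

/-- the bound of the weighted resolvent -/
def KW (n : ℕ) (b s d K₀ R : ℝ) (j : ℕ) : ℝ :=
  2 * (K₀ + K₀ * cL n s d R * KJ b (2 * (K₀ * cL n s d R + 1))⁻¹ (j + 1) * ((3 / 4)⁻¹ * |1|))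

theorem Dr.bij_QQ (h : Dr F F' D) (hF : F'.Tame C) {K₀ : ℝ} (hK : 0 ≤ K₀)
    (hs : Surjective (QQ F'.toPre F' j (0 : Mu F'.toPre V j)))
    (hb : ∀ u, ‖u‖ ≤ K₀ * ‖QQ F'.toPre F' j (0 : Mu F'.toPre V j) u‖)
    {T : Mu F'.toPre V j} (hT : T ∈ closure (Adm V F'.toPre j)) {R : ℝ} (hR : ‖T‖ ≤ R) :
    Bijective (QQ F'.toPre F j T) ∧ ∀ u, ‖u‖ ≤ KW (Fintype.card ι)
      (Fintype.card ι * (1 + cK ι 0 * |C 0|)) (cK ι j * |C j|) (cK ι j * |D j|) K₀ R j *
        ‖QQ F'.toPre F j T u‖ := by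
  have ha := act_self (V := V) hF
  have hR0 : 0 ≤ R := (norm_nonneg T).trans hR
  have hs0 : 0 ≤ cK ι j * |C j| := mul_nonneg (cK_nonneg _) (abs_nonneg _)
  have hd0 : 0 ≤ cK ι j * |D j| := mul_nonneg (cK_nonneg _) (abs_nonneg _)
  have h0 := norm_QQ_sub ha (d := 1) (s := cK ι j * |C j|)
    (fun c u => by rw [one_mul]; exact norm_DH_le c u)
    (fun c u => ContinuousLinearMap.le_of_opNorm_le _
      (rep_smulH' (F'.dv_sm c) ((hF.dv c).2 j)).2 u) zero_le_one hs0 hR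
  have h1 : ∀ u, ‖QQ F'.toPre F j T u - QQ F'.toPre F' j 0 u‖ ≤
      cL (Fintype.card ι) (cK ι j * |C j|) (cK ι j * |D j|) R * ‖ic F'.toPre V (j + 2) (j + 1) u‖ := by
    intro u
    rw [h.QQ_eq hF, add_sub_right_comm, cL, add_mul]
    refine (norm_add_le _ _).trans (add_le_add (h0 u) ((norm_sum_le _ _).trans ?_))
    rw [mul_assoc]
    refine (Finset.sum_le_card_nsmul _ _ _ fun c _ => ?_).trans
      (by rw [nsmul_eq_mul, Finset.card_univ])
    refine (ContinuousLinearMap.le_of_opNorm_le _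
      (rep_smulH' (h.cb c).1 ((h.cb c).2 j)).2 _).trans ?_
    rw [mul_assoc (cK ι j * |D j|)]
    refine mul_le_mul_of_nonneg_left ?_ hd0
    simp only [Mon62.Nb, add_apply, ContinuousLinearMap.comp_apply, map_add, ic_Dt ha, add_mul, one_mul]
    exact (norm_add_le _ _).trans (add_le_add (norm_DH_le c _) ((norm_ic_le (Nat.le_succ j) _).trans
      ((norm_T2_le T c _).trans (mul_le_mul_of_nonneg_right hR (norm_nonneg _)))))
  have h2 : ∀ f : HT F'.toPre V j, ‖ic F'.toPre V j 0 f‖ ≤ 1 * ‖f‖ := fun f => by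
    rw [one_mul]; exact norm_ic_le (Nat.zero_le _) f
  have hL : 0 ≤ cL (Fintype.card ι) (cK ι j * |C j|) (cK ι j * |D j|) R := by
    unfold cL; positivity
  have h3 := interpH (V := V) hF (δ := (2 * (K₀ *
    cL (Fintype.card ι) (cK ι j * |C j|) (cK ι j * |D j|) R + 1))⁻¹) (by positivity) (j + 1)
  have hc0 : Coer (ic F'.toPre V (j + 2) 0) (ic F'.toPre V j 0) (3 / 4)
      (QQ F'.toPre F' j (0 : Mu F'.toPre V j)) := fun u =>
    le_trans (by nlinarith [sq_nonneg ‖ic F'.toPre V (j + 2) 0 u‖]) (Mon62.coer_adm ha zero_mem_adm u)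
  exact ⟨hc0.bij (h.coer_closure hF hT) (by norm_num) hK hL (KJ_nn _ _ _) hs hb h1 h2 h3,
    (h.coer_closure hF hT).bound (by norm_num) hK hL (KJ_nn _ _ _) hb h1 h2 h3⟩

theorem QQ_zero [FiniteDimensional ℝ V] (hF : F.Tame C) :
    QQ F.toPre F j (0 : Mu F.toPre V j) = Ell97.lapH F (fun _ _ => 0) j :=
  (rep_QQ (act_self hF) repM_zero).unique
    (Ell97.rep_lapH hF (fun _ => Cb_const _) (fun _ _ v w => by simp) j)

/-- **The weighted resolvent**, with constants depending on the bounds only. -/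
theorem res_unif [FiniteDimensional ℝ V] (C D : ℕ → ℝ) (j : ℕ) (R : ℝ) : ∃ K, 0 ≤ K ∧
    ∀ F F' : Fr I M ι, Dr F F' D → F'.Tame C → Ell97.Reg V F' →
      ∀ T ∈ closure (Adm V F'.toPre j), ‖T‖ ≤ R →
        Bijective (QQ F'.toPre F j T) ∧ ∀ u, ‖u‖ ≤ K * ‖QQ F'.toPre F j T u‖ := by
  obtain ⟨K, hK, h⟩ := Ell97.lap_unif (I := I) (M := M) (ι := ι) (V := V) fun k => |C k|
  refine ⟨|KW (Fintype.card ι) (Fintype.card ι * (1 + cK ι 0 * |C 0|)) (cK ι j * |C j|)
    (cK ι j * |D j|) (K j) R j|, abs_nonneg _, fun F F' hd hF hr T hT hR => ?_⟩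
  have := hd.bij_QQ hF (hK j) (by
      rw [QQ_zero hF]
      exact (Ell97.lapH_bij hr hF (fun _ => Cb_const _) (fun _ _ v w => by simp) j).2)
    (by
      rw [QQ_zero hF]
      exact h F' _ (Ell97.Tame_mono hF fun k => le_abs_self _)
        (fun _ => ⟨contMDiff_const, fun k => CB_mono (CB_const k _) (by simp)⟩)
        (fun _ _ v w => by simp) j) hT hR
  exact ⟨this.1, fun u => (this.2 u).trans
    (mul_le_mul_of_nonneg_right (le_abs_self _) (norm_nonneg _))⟩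

end Crest.Agent.X212.Nk89
end
end

-- ▼ part X212/Mon62/Hyp

/-! # Row 212, WORDH: the hypotheses `RB`, `RE`, `TmU`, `Pu`; inputs and outputs -/

set_option autoImplicit false
set_option linter.unusedSectionVars false
set_option maxSynthPendingDepth 3
noncomputable section
open scoped Manifold ContDiff Topology InnerProductSpace
open MeasureTheory Set Function Filter

namespace Crest.Agent.X212.Mon62
open An Sob92 Prm93 Wz78
open Ell97 (UB)

variable {E : Type} [NormedAddCommGroup E] [NormedSpace ℝ E] [FiniteDimensional ℝ E]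
  [MeasurableSpace E] [BorelSpace E]
  {HM : Type} [TopologicalSpace HM] {I : ModelWithCorners ℝ E HM}
  {M : Type} [TopologicalSpace M] [ChartedSpace HM M] [IsManifold I ∞ M]
  [MeasurableSpace M] [T2Space M] [BorelSpace M] [SecondCountableTopology M] {ι : Type} [Fintype ι]
  {lam : Type} [Fintype lam]
  {J : Type} {X Y : J → Type} [∀ i, NormedAddCommGroup (X i)] [∀ i, NormedSpace ℝ (X i)]
  {N : Type} [NormedAddCommGroup N] [NormedSpace ℝ N]
  {V : Type} [NormedAddCommGroup V] [InnerProductSpace ℝ V]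

section one
variable {F₀ F₁ : Pre I M ι} {F : Fr I M ι} {l : ℕ}

variable (V F₀ F) in
/-- the resolvent of the frame `F` on the scale of `F₀` -/
def RB1 : Prop := ∀ l R, ∃ K, ∀ T ∈ closure (Adm V F₀ l), ‖T‖ ≤ R →
  Bijective (QQ F₀ F l T) ∧ ∀ u, ‖u‖ ≤ K * ‖QQ F₀ F l T u‖

/-- conjugation of multipliers -/
def cjM (h : Cmp F₀ F₁) (k : ℕ) (T : HT F₀ V k →L[ℝ] HT F₀ V k) : HT F₁ V k →L[ℝ] HT F₁ V k :=
  (chg k (triv M V) h : HT F₀ V k →L[ℝ] HT F₁ V k) ∘L T ∘L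
    ((chg k (triv M V) h).symm : HT F₁ V k →L[ℝ] HT F₀ V k)

theorem chg_Nb (h : Cmp F₀ F₁) (h₀ : Act V F₀ F) (h₁ : Act V F₁ F) (k : ℕ)
    (T : HT F₀ V k →L[ℝ] HT F₀ V k) (c : ι) (u : HT F₀ V (k + 1)) :
    chg k _ h (Nb F₀ F k T c u) = Nb F₁ F k (cjM h k T) c (chg (k + 1) _ h u) := by
  simp only [Nb, cjM, add_apply, map_add, ContinuousLinearMap.comp_apply,
    chg_rep h (h₀.D k c) (h₁.D k c), ← chg_incl h k.le_succ, ContinuousLinearEquiv.coe_coe,
    ContinuousLinearEquiv.symm_apply_apply]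

theorem chg_QQ (h : Cmp F₀ F₁) (h₀ : Act V F₀ F) (h₁ : Act V F₁ F) (T : Mu F₀ V l)
    (u : HT F₀ V (l + 2)) : chg l _ h (QQ F₀ F l T u) =
      QQ F₁ F l (fun c => cjM h l (T.1 c), fun c => cjM h (l + 1) (T.2 c)) (chg (l + 2) _ h u) := by
  simp only [QQ, sub_apply, map_sub, _root_.sum_apply, map_sum, add_apply, map_add,
    ContinuousLinearMap.comp_apply, chg_Nb h h₀ h₁, chg_incl h l.le_succ,
    chg_incl h (l.le_add_right 2), fun c => chg_rep h (rep_smulH (k := l) (p := triv M V) (h₀.dv c))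
      (rep_smulH (h₁.dv c))]

theorem RB1.chg (h : Cmp F₀ F₁) (h₀ : Act V F₀ F) (h₁ : Act V F₁ F) (hR : RB1 V F₁ F) :
    RB1 V F₀ F := fun l R => by
  let φ : Mu F₀ V l → Mu F₁ V l := fun T =>
    (fun c => cjM h l (T.1 c), fun c => cjM h (l + 1) (T.2 c))
  have hφ : Continuous φ := by
    unfold φ cjM
    exact (continuous_pi fun c => continuous_const.clm_comp (Continuous.clm_comp (by fun_prop)
      continuous_const)).prodMk (continuous_pi fun c => continuous_const.clm_comp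
        (Continuous.clm_comp (by fun_prop) continuous_const))
  have hm : MapsTo φ (Adm V F₀ l) (Adm V F₁ l) := fun T ⟨A, h1, h2, h3, h4⟩ =>
    ⟨A, h1, h2, fun c => rep_conj h.symm (h3 c), fun c => rep_conj h.symm (h4 c)⟩
  let a := fun k => ‖(Prm93.chg k (triv M V) h : HT F₀ V k →L[ℝ] HT F₁ V k)‖
  let b := fun k => ‖((Prm93.chg k (triv M V) h).symm : HT F₁ V k →L[ℝ] HT F₀ V k)‖
  have hn : ∀ k (T : HT F₀ V k →L[ℝ] HT F₀ V k), ‖T‖ ≤ R → ‖cjM h k T‖ ≤ a k * (|R| * b k) :=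
    fun k T hT => (ContinuousLinearMap.opNorm_comp_le _ _).trans (mul_le_mul_of_nonneg_left
      ((ContinuousLinearMap.opNorm_comp_le _ _).trans (mul_le_mul_of_nonneg_right
        (hT.trans (le_abs_self R)) (norm_nonneg _))) (norm_nonneg _))
  obtain ⟨K, hK⟩ := hR l (max (a l * (|R| * b l)) (a (l + 1) * (|R| * b (l + 1))))
  refine ⟨b (l + 2) * (|K| * a l), fun T hT hTR => ?_⟩
  obtain ⟨k1, k2⟩ := hK (φ T) (hm.closure hφ hT) (max_le_max
    ((pi_norm_le_iff_of_nonneg (by positivity)).2 fun c =>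
      hn _ _ ((norm_le_pi_norm T.1 c).trans ((norm_fst_le T).trans hTR)))
    ((pi_norm_le_iff_of_nonneg (by positivity)).2 fun c =>
      hn _ _ ((norm_le_pi_norm T.2 c).trans ((norm_snd_le T).trans hTR))))
  have e : Prm93.chg l _ h ∘ QQ F₀ F l T = QQ F₁ F l (φ T) ∘ Prm93.chg (l + 2) _ h :=
    funext (chg_QQ h h₀ h₁ T)
  refine ⟨(Bijective.of_comp_iff' (Prm93.chg l _ h).bijective _).1
    (e ▸ k1.comp (Prm93.chg (l + 2) _ h).bijective), fun u => ?_⟩
  have h1 := ((Prm93.chg (l + 2) (triv M V) h).symm :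
    HT F₁ V (l + 2) →L[ℝ] HT F₀ V (l + 2)).le_opNorm
    (Prm93.chg (l + 2) _ h u)
  rw [ContinuousLinearEquiv.coe_coe, ContinuousLinearEquiv.symm_apply_apply] at h1
  have h2 := k2 (Prm93.chg (l + 2) _ h u)
  rw [← chg_QQ h h₀ h₁] at h2
  rw [mul_assoc, mul_assoc]
  exact h1.trans (mul_le_mul_of_nonneg_left (h2.trans (mul_le_mul (le_abs_self K)
    ((Prm93.chg l (triv M V) h : HT F₀ V l →L[ℝ] HT F₁ V l).le_opNorm _) (norm_nonneg _)
    (abs_nonneg K))) (norm_nonneg _))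

variable [FiniteDimensional ℝ V] [I.Boundaryless] {C : ℕ → ℝ}

theorem rb1_dr {F' : Fr I M ι} {d : ℕ → ℝ} (h : Nk89.Dr F F' d) (hF : F'.Tame C) :
    RB1 V F'.toPre F := fun l R =>
  let ⟨K, _, hK⟩ := Nk89.res_unif (I := I) (M := M) (ι := ι) (V := V) C d l R
  ⟨K, hK F F' h hF (Ell97.reg V F')⟩

omit [I.Boundaryless] in
theorem dr_refl (F : Fr I M ι) : Nk89.Dr F F fun _ => 0 :=
  ⟨rfl, fun a => by
    simp only [sub_self]
    exact ⟨contMDiff_const, fun k => by simpa using CB_const k (0 : ℝ)⟩, fun x => by simp⟩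

theorem rb1_cmp (h : Cmp F₀ F.toPre) (h₀ : Act V F₀ F) (hF : F.Tame C) : RB1 V F₀ F :=
  (rb1_dr (dr_refl F) hF).chg h h₀ (act_self hF)

/-- existence of the resolvent on closed manifolds -/
theorem exists_res [CompactSpace M] (hF : F.Tame C) {A : ι → M → V →L[ℝ] V} (hA : ∀ c, Sm I (A c))
    (hs : ∀ c x, Skew (A c x)) {s : M → V} (h : Sm I s) : ∃ u, F.IsRes A s u := by
  have hA' := fun c => Cb_of_compact (F := F.toPre) (hA c)
  have hb := Ell97.lap_bij hF hA' hs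
  have hr := Ell97.rep_lapH hF hA' hs
  let σ : Sec I (triv M V) := ⟨s, mem_triv h (HasCompactSupport.of_compactSpace _)⟩
  choose x hx using fun k => (hb k).2 (F.toH k _ σ)
  obtain ⟨u, hu⟩ := Ell97.sec_of_all hF (x := x 0) fun j hj => by
    obtain ⟨k, rfl⟩ : ∃ k, j = k + 2 := ⟨j - 2, by omega⟩
    refine ⟨x k, (hb 0).1 ?_⟩
    rw [← Rep_incl (hr k) (hr 0) (by omega) k.zero_le, hx, hx, incl_toH k.zero_le]
  have h1 := hx 0
  rw [← hu, RepT_toH (hr 0)] at h1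
  obtain ⟨c, hc⟩ := (Cb_of_compact (F := F.toPre) u.2.1)
  exact ⟨u.1, u.2.1, ⟨c 0, CB_bound (hc.2 0)⟩,
    congrFun (congrArg Subtype.val (Ell97.toH_inj F 0 _ h1))⟩

end one

namespace Dm
variable {D : Dm I M ι X Y} {G : ∀ i, X i → Fr I M ι} {ε ε' : Prop} {j : ℕ}
  {w : ∀ i, Y i → M → V}

theorem FF.act (h : D.FF G) {i : J} {x : X i} (hx : x ∈ D.U i) : Act V (D.P i) (G i x) :=
  let ⟨_, s1, s2⟩ := h.mix
  act_mix (s2 i x hx) (fun a b => (s1 a b).us.cb i x hx) fun c => (h.dv c).us.cb i x hx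

theorem rb_of_finite [Finite J] (hB : ∀ i, (D.B i).Finite)
    (h : ∀ i, ∀ x ∈ D.U i, RB1 V (D.P i) (G i x)) : D.RB V G := fun l _ => by
  refine ⟨fun i x hx T hT => ?_, fun R => ?_⟩
  · obtain ⟨K, hK⟩ := h i x hx l ‖T‖
    exact (hK T hT le_rfl).1
  · have := fun i => (hB i).to_subtype
    choose K hK using fun z : Σ i, D.B i => h z.1 z.2 (D.sub _ z.2.2) l R
    obtain ⟨L, hL⟩ := (finite_range K).bddAbove
    exact ⟨L, fun i x hx T hT hR u => ((hK ⟨i, x, hx⟩ T hT hR).2 u).trans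
      (mul_le_mul_of_nonneg_right (hL (mem_range_self _)) (norm_nonneg _))⟩

/-- frames that differ from the Sobolev frames by a small drift (weights) -/
theorem rb_of_dr [FiniteDimensional ℝ V] [I.Boundaryless] {d : ℕ → ℝ}
    (h : ∀ i, ∀ x ∈ D.U i, Nk89.Dr (G i x) (D.F i) d) : D.RB V G := fun l _ => by
  have h1 := Nk89.res_unif (I := I) (M := M) (ι := ι) (V := V) D.C d l
  refine ⟨fun i x hx T hT => ?_, fun R => ?_⟩
  · obtain ⟨K, -, hK⟩ := h1 ‖T‖
    exact (hK _ _ (h i x hx) (D.tame i) (Ell97.reg V _) T hT le_rfl).1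
  · obtain ⟨K, -, hK⟩ := h1 R
    exact ⟨K, fun i x hx T hT hR =>
      (hK _ _ (h i x (D.sub i hx)) (D.tame i) (Ell97.reg V _) T hT hR).2⟩

theorem re_of_finite [Finite J] [BoundarylessManifold I M] (hF : D.FF G)
    (h : ∀ i y (A : ι → M → V →L[ℝ] V) (s : M → V), (∀ c, (D.P i).Cb (A c)) →
      (∀ c x, Skew (A c x)) → (D.P i).Cb s → ∃ u, (G i (D.pt i y)).IsRes A s u ∧ (D.P i).Cb u) :
    D.RE V G := ⟨h, fun A s hA hs hu => ub_of_finite fun i => by
  obtain ⟨u, h1, h2⟩ := h i (D.y₀ i) (A i) (s i) (fun c => (hA c).cb i) (hs i) (hu.cb i)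
  rwa [Mp86.res_eq (hF.bump i _) ⟨fun c => (hA c).sm i, hs i⟩ h1]⟩

theorem re_compact [Finite J] [CompactSpace M] [FiniteDimensional ℝ V] [I.Boundaryless]
    (hF : D.FF G) (hG : ∀ i y, ∃ C, (G i (D.pt i y)).Tame C) : D.RE V G :=
  re_of_finite hF fun i y _ _ hA hs h =>
    let ⟨_, hC⟩ := hG i y
    let ⟨u, hu⟩ := exists_res hC (fun c => Cb.sm (hA c)) hs (Cb.sm h)
    ⟨u, hu, Cb_of_compact hu.1⟩

/-- constant families of frames with the same vector fields -/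
theorem ff_fixed {F' : J → Fr I M ι} (he : ∀ i, (F' i).e = (D.F i).e)
    (hd : ∀ a, UB D.P fun i => (F' i).dv a) (hc : ∀ a b k, UB D.P fun i => (F' i).c a b k)
    (hb : ∀ i, Mp86.Bumps I (F' i).e (F' i).dv) {ρ : J → M → ℝ} (hρ : UB D.P ρ)
    (hμ : ∀ i (g : M → ℂ), ∫ x, g x ∂(F' i).μ = ∫ x, ρ i x • g x ∂(D.P i).μ) :
    D.FF fun i _ => F' i := by
  classical
  exact ⟨⟨fun a b _ _ _ => if a = b then 1 else 0, fun a b => Lc.fixed (UB.const _),
    fun i _ _ a x => by simp [he]⟩, fun a => Lc.fixed (hd a), fun a b k => Lc.fixed (hc a b k),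
    fun i _ => hb i, _, US.fixed hρ, fun i _ => hμ i⟩

variable [CompleteSpace V]

theorem A0.of_cs [Finite J] (hj : 4 ≤ j) {b : J → M → V} (h : ∀ i, Sm I (b i))
    (hc : ∀ i, HasCompactSupport (b i)) : D.A0 ε j fun i _ => b i :=
  A0.of_hcs hj (ub_of_finite fun i => Cb_of_hcs (h i) (hc i)) hc
    (let ⟨L, hL⟩ := (finite_range fun i => (D.P i).nrm j (b i)).bddAbove
    ⟨L, fun i => hL (mem_range_self i)⟩)

theorem A0.pure_compact [Finite J] [CompactSpace M] (hj : 4 ≤ j) (h : D.A0 ε j w) :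
    D.A0 ε' j w :=
  h.pure_of_base (A0.of_cs hj h.sz.ub.sm fun _ => HasCompactSupport.of_compactSpace _)

/-- input: coordinates of the Banach model -/
theorem A0.of_coord (hj : 4 ≤ j) {p : J → M → V →L[ℝ] V} {δ : ∀ i, X i → (D.P i).H j (p i)}
    (hδ : UC D.toRg δ) (hs : D.Sz w) (e : ∀ i y, w i y = (D.P i).val j _ (δ i (D.pt i y))) :
    D.A0 ε j w :=
  A0.of_pure hs (hδ.clm (L := fun i => fg (D.P i) j (p i)) ⟨1, fun _ =>
    ContinuousLinearMap.opNorm_le_bound _ zero_le_one fun x => by rw [norm_fg, one_mul]⟩)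
    fun i y x => by rw [vl, val_fg (D.sup i) hj, e]

/-- output: a pure family as a map into the Sobolev space of a bundle -/
theorem A0.out (hj : 4 ≤ j) {q : J → M → V →L[ℝ] V} (hq : UB D.P q)
    (hi : ∀ i x v, q i x (q i x v) = q i x v) (h : D.A0 True j w) :
    ∃ f : ∀ i, X i → (D.P i).H j (q i), UC D.toRg f ∧
      ∀ i y x, (D.P i).val j _ (f i (D.pt i y)) x = q i x (w i y x) := by
  obtain ⟨δ, h1, h2⟩ := h.pure
  obtain ⟨C, hC⟩ := hq
  exact ⟨_, h1.clm (L := fun i => prH (D.P i) j (q i)) ⟨_, fun i =>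
    norm_mulH_le (hC i).1 ((hC i).2 j) (Maps.of_left (hi i))⟩, fun i y x => by
      rw [val_mulH (D.sup i) hj ⟨C, hC i⟩ (Maps.of_left (hi i)), h2]⟩

/-! ### finite families -/

section fin
variable [Finite J]

theorem cbU {f : M → N} (h : ∀ i, (D.P i).Cb f) : D.CbU f := ub_of_finite h

theorem cdU {g : M → ℝ} (h : ∀ i, (D.F i).Cd g) : D.CdU g := fun a =>
  ub_of_finite fun i => (h i).2 a

theorem swU {u : SW M} (h : ∀ i, SW.OK (D.F i) u) : D.SwU u := fun t ht => by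
  cases t with
  | mul f => exact cbU fun i => h i _ ht
  | cl g => exact cdU fun i => h i _ ht
  | _ => trivial

theorem laU {l : List (La M)} (h : ∀ i, ∀ t ∈ l, La.OK (D.F i) t) : ∀ t ∈ l, D.LaU t :=
  fun t ht => by
  cases t with
  | mul f => exact cbU fun i => h i _ ht
  | G => trivial

theorem awU {ξ : AW M} (h : ∀ i, ξ.OK (D.F i)) : D.AwU ξ := by
  refine ⟨?_, laU fun i => (h i).2⟩
  obtain ⟨s, l⟩ := ξ
  cases s with
  | q u v => exact ⟨swU fun i => (h i).1.1, swU fun i => (h i).1.2⟩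
  | cv f g g' => exact ⟨cbU fun i => (h i).1.1, cdU fun i => (h i).1.2.1, cdU fun i => (h i).1.2.2⟩

variable [Nonempty J]

theorem sgU {g : Sg M lam} (h : ∀ i, g.OK (D.F i)) : D.SgU g :=
  ⟨(h (Classical.arbitrary J)).1.continuous, (h (Classical.arbitrary J)).2.1,
    let ⟨L, hL⟩ := (finite_range fun i => ∫ x, ‖g.s x‖ ∂(D.P i).μ).bddAbove
    ⟨L, fun i => hL (mem_range_self i)⟩, swU fun i => (h i).2.2.1, swU fun i => (h i).2.2.2⟩

theorem coU {r : ℕ} {d : Co M lam r} (h : ∀ i, d.OK (D.F i)) : D.CoU d := by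
  cases d with
  | z k => trivial
  | s g L => exact ⟨sgU fun i => (h i).1, fun g' hg => sgU fun i => (h i).2 g' hg⟩

theorem tmU {r n : ℕ} {T : Tm M lam r n} (h : ∀ i, T.OK (D.F i)) : D.TmU T := by
  cases T with
  | lin u => exact swU h
  | anti d s u => exact ⟨coU fun i => (h i).1, cbU fun i => (h i).2.1, swU fun i => (h i).2.2⟩
  | ad g g' ξ => exact ⟨cdU fun i => (h i).1, cdU fun i => (h i).2.1, awU fun i => (h i).2.2⟩
  | adj d s g g' u v l => exact ⟨coU fun i => (h i).1, cbU fun i => (h i).2.1,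
      cdU fun i => (h i).2.2.1, cdU fun i => (h i).2.2.2.1, swU fun i => (h i).2.2.2.2.1,
      swU fun i => (h i).2.2.2.2.2.1, laU fun i => (h i).2.2.2.2.2.2⟩
  | adn f g g' φ L => exact ⟨cbU fun i => (h i).1, cdU fun i => (h i).2.1,
      cdU fun i => (h i).2.2.1, (h (Classical.arbitrary J)).2.2.2.1,
      fun ξ hξ => awU fun i => (h i).2.2.2.2.2 ξ hξ⟩
  | cut k w g => exact sgU h
  | cz k w k' => trivial

end fin

/-- syntactic decay: the term carries a coefficient that lies in `L²_j` uniformly -/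
def Cp (D : Dm I M ι X Y) (j : ℕ) {r n : ℕ} : Tm M lam r n → Prop
  | .lin u => ∃ f l, u = .mul f :: l ∧ D.A0 True j fun _ _ => f
  | .anti _ s _ => D.A0 True j fun _ _ => s
  | .ad _ _ ξ => ∃ f l, ξ.l = .mul f :: l ∧ D.A0 True j fun _ _ => f
  | .adj _ s _ _ _ _ _ => D.A0 True j fun _ _ => s
  | .adn f _ _ _ _ => D.A0 True j fun _ _ => f
  | _ => True

end Dm

namespace CF.OK
open Dm
variable {D : Dm I M ι X Y} {μ : MF M ι lam J} {r n : ℕ} {κ : CF D μ r} {ε : Prop} {j : ℕ}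
  [I.Boundaryless] (h : κ.OK ε j) {T : Tm M lam r n}
include h

theorem pu_of_cp (hT : D.TmU T) (hc : D.Cp j T) : κ.Pu j T := by
  cases T with
  | lin u =>
    obtain ⟨f, l, rfl, hf⟩ := hc
    exact (A0.smul h.lev h.h4 hf (h.sw fun t ht => hT t (List.mem_cons_of_mem _ ht))).imp Or.inl
  | anti d s u => exact (h.js hc hT.2.2).imp Or.inl
  | ad g g' ξ =>
    obtain ⟨s, l'⟩ := ξ
    obtain ⟨f, l, rfl, hf⟩ := hc
    exact (A0.smul h.lev h.h4 hf (h.aw (ξ := ⟨s, l⟩) ⟨hT.2.2.1, fun t ht =>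
      hT.2.2.2 t (List.mem_cons_of_mem _ ht)⟩)).imp Or.inl
  | adj d s g g' u v l => exact (h.js hc hT.2.2.2.2.1).imp Or.inl
  | adn f g g' φ L => exact (A0.smul h.lev h.h4 hc (h.aws hT.2.2.2.2)).imp Or.inl
  | _ => trivial

theorem pu_compact [Finite J] [CompactSpace M] (hT : D.TmU T) : κ.Pu j T := by
  cases T with
  | lin u => exact (h.sw hT).pure_compact h.h4
  | anti d s u => exact (h.js (A0.fixed hT.2.1) hT.2.2).pure_compact h.h4
  | ad g g' ξ => exact (h.aw hT.2.2).pure_compact h.h4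
  | adj d s g g' u v l => exact (h.js (A0.fixed hT.2.1) hT.2.2.2.2.1).pure_compact h.h4
  | adn f g g' φ L => exact ((Lc.fixed hT.1).smul h.h4 (h.aws hT.2.2.2.2)).pure_compact h.h4
  | _ => trivial

end CF.OK

end Crest.Agent.X212.Mon62
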