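import Crest.Agent.X212.Ell97.Fo
import Crest.Agent.X212.Mp86.Res
import Crest.Agent.X212.Mon62.Inst
import Crest.Agent.X212.Cmp73.Cv

-- ▼ part X212/Mon62/Bern
section

/-! # Row 212: uniform bounds of all derivatives by Bernstein's method -/

set_option autoImplicit false
set_option linter.unusedSectionVars false
noncomputable section
open scoped Manifold ContDiff Topology InnerProductSpace
open MeasureTheory Set Function Filter

namespace Crest.Agent.X212.Mon62
open An Sob92 Mp86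
open Ell97 (UB)

variable {E : Type} [NormedAddCommGroup E] [NormedSpace ℝ E] [FiniteDimensional ℝ E]
  [MeasurableSpace E] [BorelSpace E]
  {HM : Type} [TopologicalSpace HM] {I : ModelWithCorners ℝ E HM}
  {M : Type} [TopologicalSpace M] [ChartedSpace HM M] [IsManifold I ∞ M]
  [MeasurableSpace M] {ι : Type} [Fintype ι] {J : Type*}
  {V : Type} [NormedAddCommGroup V] [InnerProductSpace ℝ V]

theorem Dw_snoc (P : Pre I M ι) (w : List ι) (a : ι) (u : M → V) :
    P.Dw (w ++ [a]) u = P.D a (P.Dw w u) := by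
  induction w generalizing u with
  | nil => rfl
  | cons b w ih => exact ih _

/-- differential expressions of order `≤ k` in `u` with uniformly bounded coefficients -/
inductive Od (P : J → Pre I M ι) (u : J → M → V) (k : ℕ) : (J → M → V) → Prop
  | cst {f : J → M → V} : UB P f → Od P u k f
  | trm {B : J → M → V →L[ℝ] V} (w : List ι) : UB P B → w.length ≤ k →
      Od P u k fun j x => B j x ((P j).Dw w (u j) x)
  | add {g h : J → M → V} : Od P u k g → Od P u k h → Od P u k fun j x => g j x + h j x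

namespace Od
variable {P : J → Pre I M ι} {u g g' : J → M → V} {k l : ℕ}

theorem congr (h : Od P u k g) (e : ∀ j x, g' j x = g j x) : Od P u k g' :=
  (funext fun j => funext (e j) : g' = g) ▸ h

theorem mono (h : Od P u k g) (hl : k ≤ l) : Od P u l g := by
  induction h with
  | cst h => exact cst h
  | trm w h hw => exact trm w h (hw.trans hl)
  | add _ _ h1 h2 => exact add h1 h2

theorem sm (hu : ∀ j, Sm I (u j)) (h : Od P u k g) (j : J) : Sm I (g j) := by
  induction h with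
  | cst h => exact h.sm j
  | trm w h _ => exact (h.sm j).clm_apply (sm_Dw (hu j) w)
  | add _ _ h1 h2 => exact h1.add h2

theorem app {B : J → M → V →L[ℝ] V} (hB : UB P B) (h : Od P u k g) :
    Od P u k fun j x => B j x (g j x) := by
  induction h with
  | cst h => exact cst (hB.bil (ContinuousLinearMap.id ℝ _) h)
  | trm w h hw => exact trm w (hB.comp h) hw
  | add _ _ h1 h2 => exact (add h1 h2).congr fun _ _ => map_add _ _ _

theorem smul {f : J → M → ℝ} (hf : UB P f) (h : Od P u k g) :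
    Od P u k fun j x => f j x • g j x := h.app (hf.smul (UB.const (.id ℝ V)))

theorem neg (h : Od P u k g) : Od P u k fun j x => -g j x :=
  h.app (UB.const (-ContinuousLinearMap.id ℝ V))

theorem sub (h : Od P u k g) (h' : Od P u k g') : Od P u k fun j x => g j x - g' j x :=
  (h.add h'.neg).congr fun _ _ => sub_eq_add_neg _ _

theorem sum {κ : Type*} (s : Finset κ) {f : κ → J → M → V} (h : ∀ i, Od P u k (f i)) :
    Od P u k fun j x => ∑ i ∈ s, f i j x := by
  classical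
  induction s using Finset.induction_on with
  | empty => exact (cst (UB.const 0)).congr fun _ _ => Finset.sum_empty
  | insert i s hi ih => exact ((h i).add ih).congr fun _ _ => Finset.sum_insert hi

theorem wd (w : List ι) : Od P u w.length fun j => (P j).Dw w (u j) :=
  trm w (UB.const (.id ℝ V)) le_rfl

theorem D (hu : ∀ j, Sm I (u j)) (h : Od P u k g) (a : ι) :
    Od P u (k + 1) fun j => (P j).D a (g j) := by
  induction h with
  | cst h => exact cst (h.D a)
  | trm w h hw =>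
    exact ((trm w (h.D a) (by omega)).add (trm (w ++ [a]) h (by simpa using hw))).congr
      fun j x => by rw [Dw_snoc]; exact Ell97.D_app _ a (h.sm j) (sm_Dw (hu j) w) x
  | add h1 h2 i1 i2 =>
    exact (i1.add i2).congr fun j x => congrFun ((P j).D_add (h1.sm hu j) (h2.sm hu j) a) x

theorem bd (h : Od P u k g) : ∃ K, 0 ≤ K ∧ ∀ j x R, 1 ≤ R →
    (∀ w : List ι, w.length ≤ k → ‖(P j).Dw w (u j) x‖ ≤ R) → ‖g j x‖ ≤ K * R := by
  induction h with
  | cst h =>
    obtain ⟨C, hC⟩ := h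
    exact ⟨|C 0|, abs_nonneg _, fun j x R hR _ => (CB_bound (CB_abs ((hC j).2 0)) x).trans
      (le_mul_of_one_le_right (abs_nonneg _) hR)⟩
  | trm w h hw =>
    obtain ⟨C, hC⟩ := h
    exact ⟨|C 0|, abs_nonneg _, fun j x R _ h => (ContinuousLinearMap.le_opNorm _ _).trans
      (mul_le_mul (CB_bound (CB_abs ((hC j).2 0)) x) (h w hw) (norm_nonneg _) (abs_nonneg _))⟩
  | add _ _ h1 h2 =>
    obtain ⟨K, k0, k1⟩ := h1
    obtain ⟨L, l0, l1⟩ := h2
    exact ⟨K + L, add_nonneg k0 l0, fun j x R hR h => (norm_add_le _ _).trans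
      (by rw [add_mul]; exact add_le_add (k1 j x R hR h) (l1 j x R hR h))⟩

end Od

section comm
variable {F : J → Fr I M ι} {u : J → M → V}

/-- the rough Laplacian of a family -/
abbrev LF (F : J → Fr I M ι) (g : J → M → V) : J → M → V :=
  fun j => Lop I (F j).e (F j).dv (g j)

theorem lop_D (F : Fr I M ι) {g : M → V} (hg : Sm I g) (b : ι) (x : M) :
    Lop I F.e F.dv (F.D b g) x = F.D b (fun y => Lop I F.e F.dv g y -
      ∑ a, F.dv a y • F.D a g y) x + ∑ a, (∑ l, F.c a b l x • F.D l (F.D a g) x +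
        F.D a (fun y => ∑ l, F.c a b l y • F.D l g y) x + F.dv a x • F.D a (F.D b g) x) := by
  have h1 : (fun y => Lop I F.e F.dv g y - ∑ a, F.dv a y • F.D a g y) =
      fun y => ∑ a, F.D a (F.D a g) y := funext fun y => by
    rw [Lop, Finset.sum_add_distrib]; exact add_sub_cancel_right _ _
  have h2 : F.D b (fun y => ∑ a, F.D a (F.D a g) y) x = ∑ a, F.D b (F.D a (F.D a g)) x :=
    Mp86.dv_sum _ fun a _ => (F.sm_D (F.sm_D hg a) a).mdifferentiableAt (by simp)
  rw [h1, h2, Lop, ← Finset.sum_add_distrib]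
  refine Finset.sum_congr rfl fun a _ => ?_
  have h3 : (fun y => ∑ l, F.c a b l y • F.D l g y) = F.D a (F.D b g) - F.D b (F.D a g) :=
    funext fun y => (Ell97.D_br F a b hg y).symm
  have h4 : F.D a (F.D a (F.D b g) - F.D b (F.D a g)) x =
      F.D a (F.D a (F.D b g)) x - F.D a (F.D b (F.D a g)) x :=
    Sob92.dv_sub ((F.sm_D (F.sm_D hg b) a).mdifferentiableAt (by simp))
      ((F.sm_D (F.sm_D hg a) b).mdifferentiableAt (by simp))
  rw [h3, h4, ← Ell97.D_br F a b (F.sm_D hg a) x]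
  change F.D a (F.D a (F.D b g)) x + F.dv a x • F.D a (F.D b g) x = _
  abel

theorem od_lop (hc : ∀ a b l, UB (fun j => (F j).toPre) fun j => (F j).c a b l)
    (hd : ∀ a, UB (fun j => (F j).toPre) fun j => (F j).dv a) (hu : ∀ j, Sm I (u j))
    (h : Od (fun j => (F j).toPre) u 1 (LF F u)) (w : List ι) :
    Od (fun j => (F j).toPre) u (w.length + 1) (LF F fun j => (F j).Dw w (u j)) := by
  induction w using List.reverseRecOn with
  | nil => exact h
  | append_singleton w b ih =>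
    have h0 := Od.wd (P := fun j => (F j).toPre) (u := u) w
    have h1 := fun a => h0.D hu a
    have h2 := fun a l => (h1 a).D hu l
    rw [List.length_append, List.length_singleton]
    exact (((ih.sub (Od.sum Finset.univ fun a => (h1 a).smul (hd a))).D hu b).add
      (Od.sum Finset.univ fun a => ((Od.sum Finset.univ fun l => (h2 a l).smul (hc a b l)).add
        ((Od.sum Finset.univ fun l => (h1 l).smul (hc a b l)).D hu a)).add
        ((h2 b a).smul (hd a)))).congr fun j x => by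
      simp only [LF, Dw_snoc]
      exact lop_D (F j) (sm_Dw (hu j) w) b x

end comm

section bern
variable [BoundarylessManifold I M] [T2Space M]

theorem lop_sq (F : Fr I M ι) {g : M → V} (hg : Sm I g) (x : M) :
    Lop I F.e F.dv (fun y => ‖g y‖ ^ 2) x =
      2 * ⟪Lop I F.e F.dv g x, g x⟫_ℝ + 2 * ∑ a, ‖F.D a g x‖ ^ 2 := by
  have e : ∀ (a : ι) (v : M → V), cd I (F.e a) (fun _ => (0 : V →L[ℝ] V)) v = F.D a v :=
    fun a v => funext fun y => add_zero _
  rw [Lop_normSq (A := fun _ _ => 0) (vf F.toPre x) (fun _ => contMDiffAt_const)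
    (fun _ => .of_forall fun _ _ _ => by simp) (cm2 hg x)]
  simp only [LA, e]
  rfl

theorem sq_step {n K R m X Y s t : ℝ} (hn : 0 ≤ n) (hK : 0 ≤ K)
    (hm : m = (n * K) ^ 2 + n * K + 2) (hs : 2 * Y ^ 2 - 2 * (n * K) * X * (R + X + Y) ≤ s)
    (ht : 2 * X ^ 2 - 2 * (n * K) * R * (R + X) ≤ t) :
    X ^ 2 - ((n * K * R * (1 + m)) ^ 2 + 2 * m * (n * K) * R ^ 2) ≤ s + m * t := by
  generalize hc : n * K = c at *
  have c0 : 0 ≤ c := hc ▸ mul_nonneg hn hK
  have m0 : 0 ≤ m := by rw [hm]; positivity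
  have h1 := mul_le_mul_of_nonneg_left ht m0
  have h2 : m * (2 * X ^ 2) = (2 * c ^ 2 + 2 * c + 4) * X ^ 2 := by rw [hm]; ring
  nlinarith [sq_nonneg (Y - c * X), sq_nonneg (X - c * R * (1 + m)), sq_nonneg Y, sq_nonneg X,
    sq_nonneg (c * X)]

/-- **Bernstein's gradient estimate** for a finite system -/
theorem bern_step (n : ℕ) {K R : ℝ} (hK : 0 ≤ K) (hR : 0 ≤ R) : ∃ T : ℝ, 0 ≤ T ∧
    ∀ (F : Fr I M ι) {κ : Type} [Fintype κ] (g : κ → M → V), Fintype.card κ = n →
      Bumps I F.e F.dv → (∀ i, F.Cb (g i)) → (∀ i x, ‖g i x‖ ≤ R) →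
      (∀ i x X, 0 ≤ X → (∀ i a, ‖F.D a (g i) x‖ ≤ X) → ‖Lop I F.e F.dv (g i) x‖ ≤ K * (R + X)) →
      (∀ i a x X Y, 0 ≤ X → 0 ≤ Y → (∀ i a, ‖F.D a (g i) x‖ ≤ X) →
        (∀ i a b, ‖F.D b (F.D a (g i)) x‖ ≤ Y) →
        ‖Lop I F.e F.dv (F.D a (g i)) x‖ ≤ K * (R + X + Y)) →
      ∀ i a x, ‖F.D a (g i) x‖ ≤ T := by
  obtain ⟨N, hN⟩ : ∃ N : ℝ, N = n * (Fintype.card ι + 1) := ⟨_, rfl⟩
  have N0 : 0 ≤ N := by rw [hN]; positivity
  obtain ⟨m, hm⟩ : ∃ m, m = (N * K) ^ 2 + N * K + 2 := ⟨_, rfl⟩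
  have m0 : 0 ≤ m := by rw [hm]; positivity
  obtain ⟨c, hc⟩ : ∃ c, c = (N * K * R * (1 + m)) ^ 2 + 2 * m * (N * K) * R ^ 2 := ⟨_, rfl⟩
  refine ⟨√(c + m * (n * R ^ 2)), Real.sqrt_nonneg _, fun F κ _ g hn hB hg h0 h1 h2 i a x => ?_⟩
  have sg := fun i => (hg i).choose_spec.1
  let G1 : M → ℝ := fun y => ∑ i, ∑ a, ‖F.D a (g i) y‖ ^ 2
  let G0 : M → ℝ := fun y => ∑ i, ‖g i y‖ ^ 2
  have c0 : ∀ i y, CM I 2 (fun y => ‖g i y‖ ^ 2) y := fun i y => cm_normSq (cm2 (sg i) y)
  have c1 : ∀ i a y, CM I 2 (fun y => ‖F.D a (g i) y‖ ^ 2) y := fun i a y =>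
    cm_normSq (cm2 (F.sm_D (sg i) a) y)
  have c1' : ∀ i y, CM I 2 (fun y => ∑ a, ‖F.D a (g i) y‖ ^ 2) y := fun i y =>
    ContMDiffAt.sum fun a _ => c1 i a y
  have s0 : ∀ y, CM I 2 G0 y := fun y => ContMDiffAt.sum fun i _ => c0 i y
  have s1 : ∀ y, CM I 2 G1 y := fun y => ContMDiffAt.sum fun i _ => c1' i y
  have b0 : ∀ y, G0 y ≤ n * R ^ 2 := fun y => (Finset.sum_le_card_nsmul _ _ _ fun i _ =>
    pow_le_pow_left₀ (norm_nonneg _) (h0 i y) 2).trans (by simp [hn])
  have l1 : ∀ y i a, ‖F.D a (g i) y‖ ^ 2 ≤ G1 y := fun y i a =>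
    (Finset.single_le_sum (f := fun a => ‖F.D a (g i) y‖ ^ 2) (fun _ _ => sq_nonneg _)
      (Finset.mem_univ a)).trans (Finset.single_le_sum (f := fun i => ∑ a, ‖F.D a (g i) y‖ ^ 2)
        (fun _ _ => Finset.sum_nonneg fun _ _ => sq_nonneg _) (Finset.mem_univ i))
  have p0 : ∀ y, 0 ≤ G0 y := fun y => Finset.sum_nonneg fun _ _ => sq_nonneg _
  have p1 : ∀ y, 0 ≤ G1 y := fun y =>
    Finset.sum_nonneg fun _ _ => Finset.sum_nonneg fun _ _ => sq_nonneg _
  choose C hC using hg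
  have key : ∀ y, G1 y - c ≤ Lop I F.e F.dv (fun y => G1 y + m * G0 y) y := fun y => by
    let G2 : ℝ := ∑ i, ∑ a, ∑ b, ‖F.D b (F.D a (g i)) y‖ ^ 2
    have p2 : 0 ≤ G2 := Finset.sum_nonneg fun _ _ => Finset.sum_nonneg fun _ _ =>
      Finset.sum_nonneg fun _ _ => sq_nonneg _
    have x0 := Real.sqrt_nonneg (G1 y)
    have y0 := Real.sqrt_nonneg G2
    have hX : ∀ i a, ‖F.D a (g i) y‖ ≤ √(G1 y) := fun i a => Real.le_sqrt_of_sq_le (l1 y i a)
    have hY : ∀ i a b, ‖F.D b (F.D a (g i)) y‖ ≤ √G2 := fun i a b => Real.le_sqrt_of_sq_le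
      ((Finset.single_le_sum (f := fun b => ‖F.D b (F.D a (g i)) y‖ ^ 2) (fun _ _ => sq_nonneg _)
        (Finset.mem_univ b)).trans ((Finset.single_le_sum
          (f := fun a => ∑ b, ‖F.D b (F.D a (g i)) y‖ ^ 2)
          (fun _ _ => Finset.sum_nonneg fun _ _ => sq_nonneg _) (Finset.mem_univ a)).trans
        (Finset.single_le_sum (f := fun i => ∑ a, ∑ b, ‖F.D b (F.D a (g i)) y‖ ^ 2)
          (fun _ _ => Finset.sum_nonneg fun _ _ => Finset.sum_nonneg fun _ _ => sq_nonneg _)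
          (Finset.mem_univ i))))
    have ip : ∀ {v w : V} {α β : ℝ}, ‖v‖ ≤ α → ‖w‖ ≤ β → -(α * β) ≤ ⟪v, w⟫_ℝ := fun h h' =>
      (neg_le_neg (mul_le_mul h h' (norm_nonneg _) ((norm_nonneg _).trans h))).trans
        (neg_le_of_abs_le (abs_real_inner_le_norm _ _))
    have n1 : (n : ℝ) ≤ N := by rw [hN]; nlinarith [Nat.cast_nonneg (α := ℝ) (Fintype.card ι)]
    have n2 : (n : ℝ) * Fintype.card ι ≤ N := by rw [hN]; nlinarith [Nat.cast_nonneg (α := ℝ) n]
    rw [Lop_add (w := fun y => m * G0 y) (vf _ y) (s1 y) (contMDiffAt_const.mul (s0 y)),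
      Lop_mul _ (vf _ y) (s0 y), hc, ← Real.sq_sqrt (p1 y)]
    refine sq_step (Y := √G2) N0 hK hm ?_ ?_
    · rw [Lop_sum _ (vf _ y) fun i _ => c1' i y]
      have e : ∀ i, Lop I F.e F.dv (fun y => ∑ a, ‖F.D a (g i) y‖ ^ 2) y = _ := fun i =>
        (Lop_sum Finset.univ (vf F.toPre y) fun a _ => c1 i a y).trans
          (Finset.sum_congr rfl fun a _ => lop_sq F (F.sm_D (sg i) a) y)
      simp only [e, Finset.sum_add_distrib, ← Finset.mul_sum]
      have h3 : (n * Fintype.card ι : ℝ) * -(K * (R + √(G1 y) + √G2) * √(G1 y)) ≤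
          ∑ i, ∑ a, ⟪Lop I F.e F.dv (F.D a (g i)) y, F.D a (g i) y⟫_ℝ := by
        have := Finset.card_nsmul_le_sum Finset.univ _ _ fun i _ => Finset.card_nsmul_le_sum
          Finset.univ _ _ fun a _ => ip (h2 i a y _ _ x0 y0 hX hY) (hX i a)
        simpa only [Finset.card_univ, hn, nsmul_eq_mul, mul_assoc] using this
      rw [Real.sq_sqrt p2]
      nlinarith [mul_le_mul_of_nonneg_right n2
        (by positivity : 0 ≤ K * (R + √(G1 y) + √G2) * √(G1 y))]
    · rw [Lop_sum _ (vf _ y) fun i _ => c0 i y]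
      simp only [fun i => lop_sq F (sg i) y, Finset.sum_add_distrib, ← Finset.mul_sum]
      have h3 : (n : ℝ) * -(K * (R + √(G1 y)) * R) ≤ ∑ i, ⟪Lop I F.e F.dv (g i) y, g i y⟫_ℝ := by
        have := Finset.card_nsmul_le_sum Finset.univ _ _ fun i _ => ip (h1 i y _ x0 hX) (h0 i y)
        simpa only [Finset.card_univ, hn, nsmul_eq_mul] using this
      rw [Real.sq_sqrt (p1 y)]
      nlinarith [mul_le_mul_of_nonneg_right n1 (by positivity : 0 ≤ K * (R + √(G1 y)) * R)]
  have fin := maxp_bdd (f := fun y => G1 y + m * G0 y) (m := c + m * (n * R ^ 2))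
    (C := ∑ i, ∑ _a : ι, |C i 1| ^ 2 + m * (n * R ^ 2)) hB finite_empty (by simp) (vf F.toPre)
    (by simp) (by simp) (fun y _ => (s1 y).add (contMDiffAt_const.mul (s0 y)))
    (fun y _ => add_le_add (Finset.sum_le_sum fun i _ => Finset.sum_le_sum fun a _ =>
      pow_le_pow_left₀ (norm_nonneg _) (CB_abs ((hC i).2 1) [a] le_rfl y) 2)
      (mul_le_mul_of_nonneg_left (b0 y) m0))
    (fun δ hδ => ⟨δ, hδ, fun y _ h => le_trans
      (by nlinarith [mul_le_mul_of_nonneg_left (b0 y) m0]) (key y)⟩) x (by simp)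
  exact Real.le_sqrt_of_sq_le ((l1 x i a).trans
    ((le_add_of_nonneg_right (mul_nonneg m0 (p0 x))).trans fin))

/-- **Uniform bounds of all orders** for bounded solutions of `Δ u = (first order in u)`. -/
theorem bern {F : J → Fr I M ι} {u : J → M → V}
    (hc : ∀ a b l, UB (fun j => (F j).toPre) fun j => (F j).c a b l)
    (hd : ∀ a, UB (fun j => (F j).toPre) fun j => (F j).dv a)
    (hB : ∀ j, Bumps I (F j).e (F j).dv) (hu : ∀ j, (F j).Cb (u j)) {R : ℝ}
    (h0 : ∀ j x, ‖u j x‖ ≤ R) (h : Od (fun j => (F j).toPre) u 1 (LF F u)) :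
    UB (fun j => (F j).toPre) u := by
  have su := fun j => (hu j).choose_spec.1
  have cw : ∀ j (w : List ι), (F j).Cb ((F j).Dw w (u j)) := fun j w => by
    induction w using List.reverseRecOn with
    | nil => exact hu j
    | append_singleton w b ih => rw [Dw_snoc]; exact Cb_D ih b
  have key : ∀ k, ∃ R, ∀ j, (F j).CB k (u j) R := fun k => by
    induction k with
    | zero => exact ⟨R, fun j => CB_zero.2 (h0 j)⟩
    | succ k ih =>
      obtain ⟨R, hR⟩ := ih
      choose K k0 hK using fun w => (od_lop hc hd su h w).bd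
      let K' := ∑ v : List.Vector ι k, K v.1 + ∑ v : List.Vector ι k, ∑ a, K (v.1 ++ [a])
      have a0 : 0 ≤ ∑ v : List.Vector ι k, K v.1 := Finset.sum_nonneg fun _ _ => k0 _
      have a1 : 0 ≤ ∑ v : List.Vector ι k, ∑ a, K (v.1 ++ [a]) :=
        Finset.sum_nonneg fun _ _ => Finset.sum_nonneg fun _ _ => k0 _
      have r0 : 0 ≤ |R| + 1 := by positivity
      obtain ⟨T, T0, hT⟩ := bern_step (I := I) (M := M) (ι := ι) (V := V)
        (Fintype.card (List.Vector ι k)) (add_nonneg a0 a1) r0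
      have lo : ∀ j x (w : List ι), w.length ≤ k → ‖(F j).Dw w (u j) x‖ ≤ |R| + 1 :=
        fun j x w hw => (CB_abs (hR j) w hw x).trans (le_add_of_nonneg_right zero_le_one)
      have w1 : ∀ j x X, 0 ≤ X →
          (∀ (v : List.Vector ι k) a, ‖(F j).D a ((F j).Dw v.1 (u j)) x‖ ≤ X) →
          ∀ w : List ι, w.length ≤ k + 1 → ‖(F j).Dw w (u j) x‖ ≤ |R| + 1 + X := by
        intro j x X X0 hX w hw
        rcases hw.lt_or_eq with hw | hw
        · exact (lo j x w (by omega)).trans (le_add_of_nonneg_right X0)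
        · induction w using List.reverseRecOn with
          | nil => simp at hw
          | append_singleton w a _ =>
            rw [Dw_snoc]
            exact (hX ⟨w, by simpa using hw⟩ a).trans (le_add_of_nonneg_left r0)
      refine ⟨|R| + 1 + T, fun j w hw x => w1 j x T T0 (fun v a => hT (F j)
        (fun v : List.Vector ι k => (F j).Dw v.1 (u j)) rfl (hB j) (fun v => cw j _)
        (fun v x => lo j x _ v.2.le) (fun v x X X0 hX => ?_)
        (fun v a x X Y X0 Y0 hX hY => ?_) v a x) w hw⟩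
      · refine (hK v.1 j x (|R| + 1 + X) (by linarith [abs_nonneg R])
          (by rw [v.2]; exact w1 j x X X0 hX)).trans (mul_le_mul_of_nonneg_right
            ((Finset.single_le_sum (f := fun v : List.Vector ι k => K v.1) (fun _ _ => k0 _)
              (Finset.mem_univ v)).trans (le_add_of_nonneg_right a1)) (by positivity))
      · rw [← Dw_snoc]
        refine (hK (v.1 ++ [a]) j x (|R| + 1 + X + Y) (by linarith [abs_nonneg R])
          fun w hw => ?_).trans (mul_le_mul_of_nonneg_right (((Finset.single_le_sum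
            (f := fun a => K (v.1 ++ [a])) (fun _ _ => k0 _) (Finset.mem_univ a)).trans
            (Finset.single_le_sum (f := fun v : List.Vector ι k => ∑ a, K (v.1 ++ [a]))
              (fun _ _ => Finset.sum_nonneg fun _ _ => k0 _) (Finset.mem_univ v))).trans
              (le_add_of_nonneg_left a0)) (by positivity))
        rw [List.length_append, List.length_singleton, v.2] at hw
        rcases hw.lt_or_eq with hw | hw
        · exact (w1 j x X X0 hX w (by omega)).trans (le_add_of_nonneg_right Y0)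
        · induction w using List.reverseRecOn with
          | nil => simp at hw
          | append_singleton w b _ =>
            induction w using List.reverseRecOn with
            | nil => simp at hw
            | append_singleton w c _ =>
              rw [Dw_snoc, Dw_snoc]
              exact (hY ⟨w, by simpa using hw⟩ c b).trans (le_add_of_nonneg_left (by positivity))
  choose R hR using key
  exact ⟨R, fun j => ⟨su j, fun k => hR k j⟩⟩

end bern

end Crest.Agent.X212.Mon62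
end
end

-- ▼ part X212/Mon62/RE

/-! # Row 212: the resolvent on `Cb` functions (any tame manifold), uniform bounds -/

set_option autoImplicit false
set_option linter.unusedSectionVars false
set_option maxSynthPendingDepth 3
noncomputable section
open scoped Manifold ContDiff Topology InnerProductSpace
open MeasureTheory Set Function Filter

namespace Crest.Agent.X212.Mon62
open An Sob92 Prm93 Wz78
open Ell97 (UB)

variable {E : Type} [NormedAddCommGroup E] [NormedSpace ℝ E] [FiniteDimensional ℝ E]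
  [MeasurableSpace E] [BorelSpace E]
  {HM : Type} [TopologicalSpace HM] {I : ModelWithCorners ℝ E HM} [I.Boundaryless]
  {M : Type} [TopologicalSpace M] [ChartedSpace HM M] [IsManifold I ∞ M]
  [MeasurableSpace M] [T2Space M] [BorelSpace M] [SecondCountableTopology M] {ι : Type} [Fintype ι]
  {N : Type} [NormedAddCommGroup N] [NormedSpace ℝ N]
  {V : Type} [NormedAddCommGroup V] [InnerProductSpace ℝ V]

section fam
variable {J : Type*} {F : J → Fr I M ι} {A : J → ι → M → V →L[ℝ] V} {s u : J → M → V}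

theorem ub_mix {P P' : J → Pre I M ι} {S : J → ι → ι → M → ℝ} (h : ∀ j, Mix (P j) (P' j) (S j))
    (hS : ∀ a b, UB P fun j => S j a b) {f : J → M → N} (hf : UB P f) : UB P' f := by
  obtain ⟨C, hC⟩ := UB.unif (f := fun (s : ι × ι) j => S j s.1 s.2) fun s => hS s.1 s.2
  obtain ⟨D, hD⟩ := hf
  exact ⟨_, fun j => ⟨(hD j).1, fun k => (h j).CB (fun a b => (hC j (a, b)).1) k
    (fun a b => (hC j (a, b)).2 k) (hD j).1 ((hD j).2 k)⟩⟩

theorem od_res (hd : ∀ a, UB (fun j => (F j).toPre) fun j => (F j).dv a)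
    (hA : ∀ a, UB (fun j => (F j).toPre) fun j => A j a) (hs : UB (fun j => (F j).toPre) s)
    (h : ∀ j, (F j).IsRes (A j) (s j) (u j)) : Od (fun j => (F j).toPre) u 1 (LF F u) := by
  have su := fun j => (h j).1
  have h0 : Od (fun j => (F j).toPre) u 0 u := Od.wd []
  have h1 := fun a => h0.app (hA a)
  refine (((h0.mono zero_le_one).sub (Od.cst hs)).sub (Od.sum Finset.univ fun a =>
    (((h1 a).D su a).add (((h0.D su a).add ((h1 a).mono zero_le_one)).app (hA a))).add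
      (((h1 a).mono zero_le_one).smul (hd a)))).congr fun j x => ?_
  rw [← (h j).2.2 x, sub_add_cancel_left, lap, neg_neg, LF, Mp86.Lop, ← Finset.sum_sub_distrib]
  refine Finset.sum_congr rfl fun a _ => ?_
  have e : dv I ((F j).e a) (nab I (F j).e (A j) a (u j)) x =
      (F j).D a ((F j).D a (u j)) x + (F j).D a (fun y => A j a y (u j y)) x :=
    congrFun ((F j).D_add ((F j).sm_D (su j) a) (((hA a).sm j).clm_apply (su j)) a) x
  rw [nab, e]
  simp only [nab, smul_add, Pre.D_def]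
  abel

/-- a priori bounds of all orders -/
theorem ub_isRes (hc : ∀ a b l, UB (fun j => (F j).toPre) fun j => (F j).c a b l)
    (hd : ∀ a, UB (fun j => (F j).toPre) fun j => (F j).dv a)
    (hB : ∀ j, Mp86.Bumps I (F j).e (F j).dv)
    (hA : ∀ a, UB (fun j => (F j).toPre) fun j => A j a) (hk : ∀ j a x, Skew (A j a x))
    (hs : UB (fun j => (F j).toPre) s) (h : ∀ j, (F j).IsRes (A j) (s j) (u j))
    (hu : ∀ j, (F j).Cb (u j)) : UB (fun j => (F j).toPre) u :=
  let ⟨C, hC⟩ := hs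
  bern hc hd hB hu (R := C 0) (fun j => Mp86.isRes_norm_le (hB j) ⟨fun a => (hA a).sm j, hk j⟩ (h j)
    (CB_bound ((hC j).2 0))) (od_res hd hA ⟨C, hC⟩ h)

end fam

theorem mb_of_ub {α : Type} {P : Pre I M ι} {l : Filter α} (k : ℕ) (x : M) :
    ∀ {f : α → M → N}, UB (fun _ => P) f → Cmp73.MB I l x k f := by
  have h0 : ∀ {f : α → M → N}, UB (fun _ => P) f → Cmp73.MB I l x 0 f := fun ⟨C, hC⟩ =>
    Cmp73.MB.zero_of (.of_forall fun q => (hC q.1).1 q.2)
      ⟨C 0, .of_forall fun q => CB_bound ((hC q.1).2 0) q.2⟩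
  induction k with
  | zero => exact h0
  | succ k ih => exact fun h => Cmp73.MB.gainP P (h0 h) fun a => ih (h.D a)

variable [FiniteDimensional ℝ V]

section one
variable {F : Fr I M ι} {C : ℕ → ℝ} {A : ι → M → V →L[ℝ] V} {s : M → V}

theorem exists_res_cs (hF : F.Tame C) (hA : ∀ c, F.Cb (A c)) (hs : ∀ c x, Skew (A c x))
    (h : Sm I s) (hc : HasCompactSupport s) : ∃ u, F.IsRes A s u ∧ F.Cb u := by
  classical
  have := FiniteDimensional.complete ℝ V
  have hS := Sup.of_tame hF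
  have hb := Ell97.lap_bij hF hA hs
  have hr := Ell97.rep_lapH hF hA hs
  let σ : Sec I (triv M V) := ⟨s, mem_triv h hc⟩
  choose x hx using fun k => (hb k).2 (F.toH k _ σ)
  have h1 : F.Cb (F.val 6 _ (x 4)) := Cb_val hS (by omega) fun j hj => by
    obtain ⟨k, rfl⟩ : ∃ k, j = k + 2 := ⟨j - 2, by omega⟩
    refine ⟨x k, (hb 4).1 ?_⟩
    rw [← Rep_incl (hr k) (hr 4) (by omega) (by omega), hx, hx, incl_toH (by omega)]
  have hm : Mix F.toPre F.toPre fun a b _ => if a = b then 1 else 0 := fun a x => by simp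
  have e := (hr 4).unique (rep_QQ (act_self hF) (T := (fun c => F.mulH 4 _ _ (A c),
    fun c => F.mulH 5 _ _ (A c))) ⟨fun c => rep_mulH (hA c) (Maps.triv _),
      fun c => rep_mulH (hA c) (Maps.triv _)⟩)
  refine ⟨_, ⟨Cb.sm h1, ⟨_, CB_bound (h1.choose_spec.2 0)⟩, fun y => ?_⟩, h1⟩
  rw [← val_QQ hS hm (fun _ _ => Cb_const _) (fun c => ⟨C, hF.dv c⟩) le_rfl hA, ← e, hx,
    val_toH hS le_rfl]

/-- limits of solutions -/
theorem isRes_lim {α : Type} {l : Filter α} [l.NeBot] (hA : ∀ c, Sm I (A c)) (hs : Sm I s)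
    {u t : α → M → V} {g : M → V} {D : ℕ → ℝ} (hD : ∀ n, F.CBs (u n) D)
    (hg : Cmp73.Cv I l univ u g) (h : ∀ n, F.IsRes A (t n) (u n))
    (ht : ∀ x, ∀ᶠ n in l, t n x = s x) : F.IsRes A s g ∧ F.CBs g D := by
  have g1 : F.CBs g D := ⟨fun x => hg.smoothAt isOpen_univ trivial, fun k w hw x =>
    (Cmp73.Cv.Dw isOpen_univ F.toPre w hg).mem_closed (x := x) trivial
      (C := {v | ‖v‖ ≤ D k}) (isClosed_le continuous_norm continuous_const)
      (.of_forall fun n => (hD n).2 k w hw x)⟩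
  have nb : ∀ (a : ι) {f : α → M → V} {g : M → V}, Cmp73.Cv I l univ f g →
      Cmp73.Cv I l univ (fun n => nab I F.e A a (f n)) (nab I F.e A a g) := fun a _ _ h =>
    (h.D isOpen_univ F.toPre a).add ((Cmp73.Cv.fixed' (hA a)).app h)
  have h1 : Cmp73.Cv I l univ (fun n x => u n x + lap I F.e F.dv A (u n) x)
      fun x => g x + lap I F.e F.dv A g x :=
    hg.add (Cmp73.Cv.sum fun a => (nb a (nb a hg)).add
      ((Cmp73.Cv.fixed' (F.dv_sm a)).smul (nb a hg))).neg
  exact ⟨⟨g1.1, ⟨_, CB_bound (g1.2 0)⟩, fun x => h1.eq_of (Cmp73.Cv.fixed' hs) trivial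
    ((ht x).mono fun n hn => ((h n).2.2 x).trans hn)⟩, g1⟩

/-- **RE**: `Cb` data have a `Cb` solution on any tame manifold. -/
theorem exists_res_cb (hF : F.Tame C) (hA : ∀ c, F.Cb (A c)) (hk : ∀ c x, Skew (A c x))
    (hs : F.Cb s) : ∃ u, F.IsRes A s u ∧ F.Cb u := by
  have := lcs (I := I) (M := M)
  have := scs (I := I) (M := M)
  let K := CompactExhaustion.choice M
  choose χ c1 c2 _ c4 using fun n => hF.exh (K n) (K.isCompact n)
  choose u u1 u2 using fun n => exists_res_cs hF hA hk (s := fun x => χ n x • s x)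
    ((c1 n).1.smul (Cb.sm hs)) ((c2 n).smul_right (f' := s))
  have fx : ∀ {N : Type} [NormedAddCommGroup N] [NormedSpace ℝ N] {f : M → N}, F.Cb f →
      UB (fun _ : ℕ => F.toPre) fun _ => f := fun ⟨D, hD⟩ => ⟨D, fun _ => hD⟩
  have hu : UB (fun _ : ℕ => F.toPre) u := ub_isRes (F := fun _ : ℕ => F) (A := fun _ => A)
    (s := fun n x => χ n x • s x) (fun a b l => fx ⟨C, hF.c a b l⟩)
    (fun a => fx ⟨C, hF.dv a⟩) (fun _ => Mp86.bumps_of_tame F hF) (fun a => fx (hA a))
    (fun _ => hk) (UB.smul ⟨C, c1⟩ (fx hs)) u1 u2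
  obtain ⟨g, hg⟩ := Cmp73.MBOn.exists_cv (𝒰 := Ultrafilter.of (atTop : Filter ℕ)) (Ω := univ)
    fun k x _ => mb_of_ub k x hu
  obtain ⟨D, hD⟩ := hu
  have := isRes_lim (fun c => Cb.sm (hA c)) (Cb.sm hs) hD hg u1 fun x => by
    obtain ⟨n, hn⟩ := K.exists_mem x
    refine Ultrafilter.of_le _ ?_
    filter_upwards [eventually_ge_atTop n] with m hm
    rw [c4 m x (K.subset hm hn), one_smul]
  exact ⟨g, this.1, D, this.2⟩

theorem re_tame (hF : F.Tame C) (hA : ∀ c, F.Cb (A c)) (hk : ∀ c x, Skew (A c x)) (hs : F.Cb s) :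
    F.IsRes A s (F.res A s) ∧ F.Cb (F.res A s) := by
  obtain ⟨u, h1, h2⟩ := exists_res_cb hF hA hk hs
  rw [Mp86.res_eq (Mp86.bumps_of_tame F hF) ⟨fun a => Cb.sm (hA a), hk⟩ h1]
  exact ⟨h1, h2⟩

theorem re1_mix {F₀ : Pre I M ι} {S S' : ι → ι → M → ℝ} (hF : F.Tame C) (h : Mix F₀ F.toPre S)
    (hS : ∀ a b, F₀.Cb (S a b)) (h' : Mix F.toPre F₀ S') (hS' : ∀ a b, F₀.Cb (S' a b)) :
    RE1 V F₀ F := fun _ _ hA hk hs =>
  let ⟨u, h1, h2⟩ := exists_res_cb hF (fun c => h.Cb hS (hA c)) hk (h.Cb hS hs)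
  ⟨u, h1, h'.Cb (fun a b => h.Cb hS (hS' a b)) h2⟩

end one

/-- **RE, uniform**: bounds of all orders of the resolvent in families. -/
theorem ub_res {J : Type*} {F : J → Fr I M ι} {A : J → ι → M → V →L[ℝ] V} {s : J → M → V}
    {C : ℕ → ℝ} (hF : ∀ j, (F j).Tame C) (hA : ∀ a, UB (fun j => (F j).toPre) fun j => A j a)
    (hk : ∀ j a x, Skew (A j a x)) (hs : UB (fun j => (F j).toPre) s) :
    UB (fun j => (F j).toPre) fun j => (F j).res (A j) (s j) :=
  have h := fun j => re_tame (hF j) (fun a => let ⟨D, h⟩ := hA a; ⟨D, h j⟩) (hk j)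
    (let ⟨D, h⟩ := hs; ⟨D, h j⟩)
  ub_isRes (fun a b l => ⟨C, fun j => (hF j).c a b l⟩) (fun a => ⟨C, fun j => (hF j).dv a⟩)
    (fun j => Mp86.bumps_of_tame _ (hF j)) hA hk hs (fun j => (h j).1) fun j => (h j).2

variable (I M V) in
theorem res_cbs (C : ℕ → ℝ) : ∃ K : ℕ → ℝ, ∀ (F : Fr I M ι) (A : ι → M → V →L[ℝ] V) (s : M → V),
    F.Tame C → (∀ a, F.CBs (A a) C) → (∀ a x, Skew (A a x)) → F.CBs s C →
      F.CBs (F.res A s) K :=
  let ⟨K, hK⟩ := ub_res (J := {q : Fr I M ι × (ι → M → V →L[ℝ] V) × (M → V) // q.1.Tame C ∧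
      (∀ a, q.1.CBs (q.2.1 a) C) ∧ (∀ a x, Skew (q.2.1 a x)) ∧ q.1.CBs q.2.2 C})
    (F := fun q => q.1.1) (A := fun q => q.1.2.1) (s := fun q => q.1.2.2) (fun q => q.2.1)
    (fun a => ⟨C, fun q => q.2.2.1 a⟩) (fun q => q.2.2.2.1) ⟨C, fun q => q.2.2.2.2⟩
  ⟨K, fun F A s h1 h2 h3 h4 => hK ⟨(F, A, s), h1, h2, h3, h4⟩⟩

namespace Dm
variable {J : Type} {X Y : J → Type} [∀ i, NormedAddCommGroup (X i)] [∀ i, NormedSpace ℝ (X i)]
  {D : Dm I M ι X Y} {G : ∀ i, X i → Fr I M ι}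

/-- `RE` for tame geometric frames that are boundedly equivalent to the Sobolev frames -/
theorem re_of_tame (hF : D.FF G) (hT : ∀ i y, ∃ C, (G i (D.pt i y)).Tame C)
    {S' : ι → ι → ∀ i, Y i → M → ℝ} (hS' : ∀ a b, D.Sz (S' a b))
    (h' : ∀ i y, Mix (G i (D.pt i y)).toPre (D.P i) fun a b => S' a b i y) : D.RE V G := by
  obtain ⟨S, hS, h⟩ := hF.mix
  have z := fun a b => ((hS a b).a0 4 le_rfl).sz
  have ex := fun i y => re1_mix (V := V) (hT i y).choose_spec (h i _ (D.mem i y))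
    (fun a b => (z a b).cb i y) (h' i y) fun a b => (hS' a b).cb i y
  refine ⟨ex, fun A s hA hk hs => ?_⟩
  have up : ∀ {N : Type} [NormedAddCommGroup N] [NormedSpace ℝ N] {f : J → M → N}, UB D.P f →
      UB (fun i => (G i (D.pt i (D.y₀ i))).toPre) f :=
    ub_mix (fun i => h i _ (D.mem i _)) fun a b => (z a b).ub
  have r := fun i => re_tame (hT i (D.y₀ i)).choose_spec (fun a => (up (hA a)).cb i) (hk i)
    ((up hs).cb i)
  exact ub_mix (fun i => h' i _) (fun a b => up (hS' a b).ub) (ub_isRes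
    (fun a b l => up ((hF.c a b l).a0 4 le_rfl).sz.ub) (fun a => up ((hF.dv a).a0 4 le_rfl).sz.ub)
    (fun i => hF.bump i _) (fun a => up (hA a)) hk (up hs) (fun i => (r i).1) fun i => (r i).2)

/-- the same vector fields (weighted Sobolev frames) -/
theorem re_of_e (hF : D.FF G) (hT : ∀ i y, ∃ C, (G i (D.pt i y)).Tame C)
    (he : ∀ i y, (G i (D.pt i y)).e = (D.F i).e) : D.RE V G := by
  classical
  exact re_of_tame hF hT (S' := fun a b _ _ _ => if a = b then 1 else 0)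
    (fun a b => Sz.fixed (UB.const _)) fun i y a x => by simp [he]

end Dm

section fmt
open Mod61
variable {lam : Type} [Fintype lam] {T : Type} [NormedAddCommGroup T] [NormedSpace ℝ T]
  {𝔉 : Fam I M ι lam T}

theorem mix_inv (h : 𝔉.OK) {t : T} (ht : t ∈ 𝔉.Q) :
    Mix (𝔉.G t).F.toPre 𝔉.F0.toPre fun a b x => 𝔉.Si t x a b := fun a x => by
  simp only [h.mix t ht _ x, Finset.smul_sum, smul_smul]
  rw [Finset.sum_comm]
  simp only [← Finset.sum_smul, h.SiS t ht, ← h.P0, 𝔉.F0.P_e]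

theorem re1_fam (h : 𝔉.OK) {t : T} (ht : t ∈ 𝔉.Q) : RE1 V 𝔉.F0.toPre (𝔉.G t).F :=
  re1_mix (h.tameG t ht).choose_spec (h.mix t ht) (fun a b => (h.sS a b).cb t ht) (mix_inv h ht)
    fun a b => (h.sSi a b).cb t ht

/-- on ends only locality and the a priori bound on the scale of `F0` are hypotheses -/
theorem hy_of (h : 𝔉.OK) (o : Ref 𝔉) {χ : M → ℝ} (c1 : Sm I χ) (c2 : HasCompactSupport χ)
    (l1 : ∀ a b, Off 𝔉.Q χ fun t x => 𝔉.S t x a b) (l2 : ∀ a b k, Off 𝔉.Q χ fun t x => 𝔉.cf t x a b k)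
    (l3 : ∀ a, Off 𝔉.Q χ fun t x => 𝔉.la t x a)
    (l4 : ∀ a b k, Off 𝔉.Q χ fun t => (𝔉.G t).F.c a b k) (l5 : ∀ a, Off 𝔉.Q χ fun t => (𝔉.G t).F.dv a)
    (hw : ∀ t ∈ 𝔉.Q, ∃ F' d C, Nk89.Dr (𝔉.G t).F F' d ∧ F'.Tame C ∧ Cmp 𝔉.F0.toPre F'.toPre) :
    Hy o := by
  have hB : ∀ {V : Type} [NormedAddCommGroup V] [InnerProductSpace ℝ V] [FiniteDimensional ℝ V],
      ∀ t ∈ 𝔉.Q, RB1 V 𝔉.F0.toPre (𝔉.G t).F := fun t ht =>
    let ⟨_, _, _, h1, h2, h3⟩ := hw t ht
    (rb1_dr h1 h2).chg h3 (act_fam h ht) (h1.act h2)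
  exact ⟨h, ⟨χ, c1, c2, l1, l2, l3, l4, l5⟩, hB, hB, fun _ => re1_fam h, fun _ => re1_fam h⟩

end fmt

end Crest.Agent.X212.Mon62
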