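import Crest.Agent.X212.Ixm76.Main
import Crest.Agent.X212.Cht98.TrA
import Crest.Agent.X212.Cht98.TrF
import Crest.Agent.X212.Cht98.TrJ
import Crest.Agent.X212.Cht98.TrS
import Crest.Agent.X212.Ulc97.Ec
import Crest.Agent.X212.Ixz30.Ff
import Crest.Agent.X212.Ntz30.Gau
import Crest.Agent.X212.Ntz30.Main
import Crest.Agent.X212.Mon62.Lz1
import Crest.Agent.X212.Mon62.Lz2
import Crest.Agent.X212.Mon62.Lz3
import Crest.Agent.X212.Mon62.Lz4
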