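import Crest.Agent.X212.Mon62.NkE
import Crest.Agent.X212.Nka63.A
import Crest.Agent.X212.Nk89.Wt
import Crest.Agent.X212.Sob92.Fun
import Crest.Agent.X212.Nka63.B
import Crest.Agent.X212.Cyc79.Ub

-- ▼ part X212/Mon62/NkW
section

/-! # Row 212, NK-SM: window integrals act on the families of the calculus -/

set_option autoImplicit false
set_option linter.unusedSectionVars false
set_option maxSynthPendingDepth 3
noncomputable section
open scoped Manifold ContDiff Topology InnerProductSpace ENNReal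
open MeasureTheory Set Function Filter Real

namespace Crest.Agent.X212.Mon62
open An Sob92 Prm93 Wz78 Dgr80
open Ell97 (UB)
open Nk89 (wm)

section schur
variable {M : Type*} [MeasurableSpace M] {ν : Measure M}

theorem sq_lintegral_le {κ f : M → ℝ≥0∞} (hκ : Measurable κ) (hf : Measurable f) :
    (∫⁻ z, κ z * f z ∂ν) ^ 2 ≤ (∫⁻ z, κ z ∂ν) * ∫⁻ z, κ z * f z ^ 2 ∂ν := by
  have h := ENNReal.lintegral_mul_le_Lp_mul_Lq (ν.withDensity κ) Real.HolderConjugate.two_two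
    (f := fun _ => 1) (g := f) aemeasurable_const hf.aemeasurable
  simp only [Pi.mul_apply, one_mul, ENNReal.rpow_two] at h
  rw [lintegral_withDensity_eq_lintegral_mul _ hκ hf, lintegral_withDensity_eq_lintegral_mul _ hκ
    (hf.pow_const 2), lintegral_withDensity_eq_lintegral_mul _ hκ measurable_const,
    ← ENNReal.mul_rpow_of_nonneg _ _ (by norm_num)] at h
  refine (pow_le_pow_left' h 2).trans_eq ?_
  rw [← ENNReal.rpow_two, ← ENNReal.rpow_mul]
  simp

/-- the Schur test -/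
theorem schur [SFinite ν] {κ : M → M → ℝ≥0∞} (hκ : Measurable (uncurry κ)) {A : ℝ≥0∞}
    (h1 : ∀ x, ∫⁻ z, κ x z ∂ν ≤ A) (h2 : ∀ z, ∫⁻ x, κ x z ∂ν ≤ A) {f : M → ℝ≥0∞}
    (hf : Measurable f) : ∫⁻ x, (∫⁻ z, κ x z * f z ∂ν) ^ 2 ∂ν ≤ A ^ 2 * ∫⁻ z, f z ^ 2 ∂ν := by
  have hm : Measurable (uncurry fun x z => κ x z * f z ^ 2) :=
    hκ.mul ((hf.pow_const 2).comp measurable_snd)
  calc _ ≤ ∫⁻ x, A * ∫⁻ z, κ x z * f z ^ 2 ∂ν ∂ν := lintegral_mono fun x =>
        (sq_lintegral_le hκ.of_uncurry_left hf).trans (mul_le_mul_left (h1 x) _)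
    _ = A * ∫⁻ z, ∫⁻ x, κ x z * f z ^ 2 ∂ν ∂ν := by
        rw [lintegral_const_mul _ hm.lintegral_prod_right, lintegral_lintegral_swap hm.aemeasurable]
    _ ≤ A * ∫⁻ z, A * f z ^ 2 ∂ν := mul_le_mul_right (lintegral_mono fun z => by
        rw [lintegral_mul_const _ hκ.of_uncurry_right]; exact mul_le_mul_left (h2 z) _) _
    _ = _ := by rw [lintegral_const_mul _ (hf.pow_const 2), ← mul_assoc, sq A]

theorem memLp_of_lint {μ : Measure M} {a g : M → ℝ} {K : ℝ} (hK : 0 ≤ K)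
    (ha : AEStronglyMeasurable a ν) (hg : MemLp g 2 μ)
    (h : ∫⁻ x, ENNReal.ofReal (‖a x‖ ^ 2) ∂ν ≤
      ENNReal.ofReal K * ∫⁻ x, ENNReal.ofReal (‖g x‖ ^ 2) ∂μ) :
    MemLp a 2 ν ∧ ∫ x, ‖a x‖ ^ 2 ∂ν ≤ K * ∫ x, ‖g x‖ ^ 2 ∂μ := by
  have h0 : 0 ≤ ∫ x, ‖g x‖ ^ 2 ∂μ := integral_nonneg fun _ => by positivity
  rw [← ofReal_integral_eq_lintegral_ofReal (int_sq hg) (.of_forall fun _ => by positivity),
    ← ENNReal.ofReal_mul hK] at h
  have hi : Integrable (fun x => ‖a x‖ ^ 2) ν := ⟨ha.norm.pow 2,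
    (hasFiniteIntegral_iff_ofReal (.of_forall fun _ => by positivity)).2
      (h.trans_lt ENNReal.ofReal_lt_top)⟩
  refine ⟨(memLp_two_iff_integrable_sq_norm ha).2 hi, ?_⟩
  rwa [← ofReal_integral_eq_lintegral_ofReal hi (.of_forall fun _ => by positivity),
    ENNReal.ofReal_le_ofReal_iff (by positivity)] at h

end schur

variable {E : Type} [NormedAddCommGroup E] [NormedSpace ℝ E] [FiniteDimensional ℝ E]
  [MeasurableSpace E] [BorelSpace E]
  {HM : Type} [TopologicalSpace HM] {I : ModelWithCorners ℝ E HM}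
  {M : Type} [TopologicalSpace M] [ChartedSpace HM M] [IsManifold I ∞ M]
  [MeasurableSpace M] [T2Space M] [BorelSpace M] [SecondCountableTopology M] {ι : Type} [Fintype ι]
  {J : Type} {X Y : J → Type} [∀ i, NormedAddCommGroup (X i)] [∀ i, NormedSpace ℝ (X i)]

section one
variable {ν : Measure M} {τ ψ g : M → ℝ} {δ η C A c : ℝ} {S : Set M}

variable (ν τ) in
/-- volume growth along the time -/
def VG (η A : ℝ) : Prop :=
  ∀ t, Integrable (fun z => exp (-(η * |τ z - t|))) ν ∧ ∫ z, exp (-(η * |τ z - t|)) ∂ν ≤ A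

theorem b_le_exp' (hδ : 0 < δ) (hη : η ≤ δ) (s : ℝ) : b δ s ≤ δ * exp (-(η * |s|)) :=
  (b_le_exp hδ s).trans (by have := abs_nonneg s; gcongr)

theorem VG.wi (h : VG ν τ η A) (hδ : 0 < δ) (hη : η ≤ δ) (hτ : Continuous τ) (hg : Continuous g)
    (hc : ∀ x, ‖g x‖ ≤ c) : WI ν τ δ g ∧ ∀ t, wn ν τ δ (fun x => ‖g x‖) t ≤ δ * |c| * A := by
  have h1 : ∀ t x, ‖b δ (τ x - t) * ‖g x‖‖ ≤ δ * |c| * exp (-(η * |τ x - t|)) := fun t x => by
    rw [Real.norm_of_nonneg (mul_nonneg (b_pos hδ _).le (norm_nonneg _)), mul_right_comm]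
    exact mul_le_mul (b_le_exp' hδ hη _) ((hc x).trans (le_abs_self c)) (norm_nonneg _)
      (by positivity)
  refine ⟨⟨hτ.aestronglyMeasurable, hg.aestronglyMeasurable, ((h 0).1.const_mul (δ * |c|)).mono'
    (((continuous_b δ).comp hτ).mul hg.norm).aestronglyMeasurable
    (.of_forall fun x => by simpa only [sub_zero] using h1 0 x)⟩, fun t => ?_⟩
  refine (Real.le_norm_self _).trans ((norm_integral_le_of_norm_le ((h t).1.const_mul _)
    (.of_forall (h1 t))).trans ?_)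
  rw [integral_const_mul]
  exact mul_le_mul_of_nonneg_left (h t).2 (by positivity)

theorem VG.schur [SFinite ν] (h : VG ν τ η A) (hδ : 0 < δ) (hτ : Continuous τ)
    (hψ : Continuous ψ) (hS : ∀ᵐ x ∂ν, x ∈ S)
    (hs : ∀ x ∈ S, ∀ z ∈ S, ψ x - ψ z ≤ C + (δ - η) * |τ x - τ z|) (s : ℝ) (hg : Continuous g)
    (hw : WI ν τ δ g) :
    ∫⁻ x, ENNReal.ofReal (wn ν τ δ (fun x => ‖g x‖) (τ x + s) ^ 2) ∂wm ν ψ ≤
      ENNReal.ofReal ((δ * exp (δ * |s|) * exp C * A) ^ 2) *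
        ∫⁻ x, ENNReal.ofReal (‖g x‖ ^ 2) ∂wm ν ψ := by
  set c := δ * exp (δ * |s|) * exp C
  have hc : 0 ≤ c := by positivity
  have hA : 0 ≤ A := (integral_nonneg fun _ => (exp_pos _).le).trans (h 0).2
  have h1 : ∀ t, ∫⁻ z, ENNReal.ofReal (c * exp (-(η * |τ z - t|))) ∂ν ≤ ENNReal.ofReal (c * A) :=
    fun t => by
    rw [← ofReal_integral_eq_lintegral_ofReal ((h t).1.const_mul c)
      (.of_forall fun _ => by positivity), integral_const_mul]
    exact ENNReal.ofReal_le_ofReal (mul_le_mul_of_nonneg_left (h t).2 hc)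
  have h2 := Mon62.schur (ν := ν) (κ := fun x z => ENNReal.ofReal (c * exp (-(η * |τ z - τ x|))))
    (Continuous.measurable (f := fun p : M × M => c * exp (-(η * |τ p.2 - τ p.1|)))
      (by fun_prop)).ennreal_ofReal (fun x => h1 _)
    (fun z => by simpa only [abs_sub_comm (τ z)] using h1 (τ z))
    (f := fun z => ENNReal.ofReal (exp (ψ z) * ‖g z‖))
    (Continuous.measurable (by fun_prop)).ennreal_ofReal
  have h3 : ∀ {u : M → ℝ}, Continuous u → ∫⁻ x, ENNReal.ofReal (u x ^ 2) ∂wm ν ψ =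
      ∫⁻ x, ENNReal.ofReal (exp (ψ x) * |u x|) ^ 2 ∂ν := fun {u} hu => by
    rw [wm, lintegral_withDensity_eq_lintegral_mul _ (Nk89.meas_w hψ)
      (g := fun x => ENNReal.ofReal (u x ^ 2)) (hu.pow 2).measurable.ennreal_ofReal]
    refine lintegral_congr fun x => ?_
    rw [Pi.mul_apply, ← ENNReal.ofReal_mul (exp_pos _).le, ← ENNReal.ofReal_pow (by positivity),
      mul_pow, sq_abs, ← exp_nat_mul]
    rfl
  rw [h3 hg.norm, h3 (u := fun x => wn ν τ δ (fun x => ‖g x‖) (τ x + s))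
    ((hw.norm.contDiff_wn hδ).continuous.comp (hτ.add continuous_const)),
    ENNReal.ofReal_pow (by positivity)]
  simp only [abs_norm]
  refine (lintegral_mono_ae ?_).trans h2
  filter_upwards [hS] with x hx
  refine pow_le_pow_left' ?_ 2
  rw [abs_of_nonneg (wn_nonneg hδ (fun _ => norm_nonneg _) _), wn, ← integral_const_mul,
    ofReal_integral_eq_lintegral_ofReal ((hw.norm.int hδ _).const_mul _) (.of_forall fun z =>
      mul_nonneg (exp_pos _).le (mul_nonneg (b_pos hδ _).le (norm_nonneg _)))]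
  refine lintegral_mono_ae ?_
  filter_upwards [hS] with z hz
  rw [← ENNReal.ofReal_mul (by positivity), smul_eq_mul, ← mul_assoc, ← mul_assoc]
  refine ENNReal.ofReal_le_ofReal (mul_le_mul_of_nonneg_right ?_ (norm_nonneg _))
  refine (mul_le_mul_of_nonneg_left (b_le_exp hδ _) (exp_pos _).le).trans ?_
  have h4 := hs x hx z hz
  have h5 : |τ x - τ z| ≤ |τ z - (τ x + s)| + |s| := by
    rw [abs_sub_comm (τ x)]
    simpa [sub_add_eq_sub_sub] using abs_add_le (τ z - (τ x + s)) s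
  simp only [c, mul_left_comm (exp (ψ x)), mul_assoc, ← exp_add, abs_sub_comm (τ z) (τ x)]
  refine mul_le_mul_of_nonneg_left (exp_le_exp.2 ?_) hδ.le
  nlinarith

end one

/-- `L²_k` bounds for cut-off functions of the time -/
theorem n2_time {F : J → Pre I M ι} {τ : J → M → ℝ} {S : J → Set M} (hτ : ∀ i, Sm I (τ i))
    (dτ : ∀ a, UB F fun i => (F i).D a (τ i)) (hS : ∀ i, MeasurableSet (S i)) (c : ℕ → ℝ) (k : ℕ) :
    ∀ (m : ℕ) (θ : J → M → ℝ), UB F θ → (∀ i, tsupport (θ i) ⊆ S i) → ∃ K, ∀ i (a : ℕ → ℝ → ℝ) Q,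
      0 ≤ Q → (∀ m, ContDiff ℝ ∞ (a m)) → (∀ m, deriv (a m) = a (m + 1)) →
      (∀ m, MemLp (fun x => a m (τ i x)) 2 ((F i).μ.restrict (S i)) ∧
        ∫ x in S i, ‖a m (τ i x)‖ ^ 2 ∂(F i).μ ≤ c m * Q) →
      FL (F i) k (fun x => θ i x * a m (τ i x)) ∧
        N2 (F i) k (fun x => θ i x * a m (τ i x)) ≤ K * Q := by
  have h0 : ∀ (m : ℕ) (θ : J → M → ℝ), UB F θ → (∀ i, tsupport (θ i) ⊆ S i) → ∃ K, ∀ i
      (a : ℕ → ℝ → ℝ) Q, (∀ m, MemLp (fun x => a m (τ i x)) 2 ((F i).μ.restrict (S i)) ∧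
        ∫ x in S i, ‖a m (τ i x)‖ ^ 2 ∂(F i).μ ≤ c m * Q) →
      FL (F i) 0 (fun x => θ i x * a m (τ i x)) ∧
        N2 (F i) 0 (fun x => θ i x * a m (τ i x)) ≤ K * Q := fun m θ ⟨C, hC⟩ hs => by
    refine ⟨C 0 ^ 2 * c m, fun i a Q h => ?_⟩
    have hb := CB_bound ((hC i).2 0)
    have h1 : MemLp (fun x => θ i x * a m (τ i x)) 2 ((F i).μ.restrict (S i)) :=
      (h m).1.of_le_mul (c := C 0) ((hC i).1.continuous.aestronglyMeasurable.mul (h m).1.1)
        (.of_forall fun x => by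
          rw [norm_mul]; exact mul_le_mul_of_nonneg_right (hb x) (norm_nonneg _))
    have h2 : ∀ x ∉ S i, θ i x * a m (τ i x) = 0 := fun x hx => by
      rw [image_eq_zero_of_notMem_tsupport fun e => hx (hs i e), zero_mul]
    refine ⟨?_, ?_⟩
    · have := (memLp_indicator_iff_restrict (hS i)).2 h1
      rwa [indicator_eq_self.2 fun x hx => by_contra fun e => hx (h2 x e)] at this
    · change ∫ x, _ ∂_ ≤ _
      rw [← setIntegral_eq_integral_of_forall_compl_eq_zero (s := S i) fun x hx => by simp [h2 x hx],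
        mul_assoc]
      refine (integral_mono (int_sq h1) ((int_sq (h m).1).const_mul (C 0 ^ 2)) fun x => ?_).trans ?_
      · simp only [norm_mul, mul_pow]
        exact mul_le_mul_of_nonneg_right (pow_le_pow_left₀ (norm_nonneg _) (hb x) 2) (by positivity)
      · rw [integral_const_mul]
        exact mul_le_mul_of_nonneg_left (h m).2 (by positivity)
  induction k with
  | zero => exact fun m θ h1 h2 => let ⟨K, hK⟩ := h0 m θ h1 h2; ⟨K, fun i a Q _ _ _ => hK i a Q⟩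
  | succ k ih =>
    intro m θ h1 h2
    obtain ⟨K, hK⟩ := h0 m θ h1 h2
    have u2 := fun a => h1.bil (ContinuousLinearMap.mul ℝ ℝ) (dτ a)
    choose K1 k1 using fun a => ih m _ (h1.D a) fun i => ((F i).tsupport_D _ a).trans (h2 i)
    choose K2 k2 using fun a => ih (m + 1) _ (u2 a) fun i => tsupport_mul_subset_left.trans (h2 i)
    refine ⟨K + ∑ a, (2 * K1 a + 2 * K2 a), fun i a Q hQ s1 s2 h => ?_⟩
    have sm := fun m => Sob92.sm_comp (s1 m) (hτ i)
    have e : ∀ e, dv I ((F i).e e) (fun x => θ i x * a m (τ i x)) =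
        (fun x => (F i).D e (θ i) x * a m (τ i x)) +
          fun x => θ i x * (F i).D e (τ i) x * a (m + 1) (τ i x) := fun e => funext fun x => by
      refine (dv_smul ((h1.sm i).mdifferentiableAt (by simp))
        ((sm m).mdifferentiableAt (by simp))).trans ?_
      rw [← Pre.D_def, ← Pre.D_def, Nka63.D_time (hτ i) (s1 m), s2]
      simp [mul_assoc]
    refine ⟨⟨(hK i a Q h).1, fun e' => ?_⟩, ?_⟩
    · rw [e]
      exact ML.add (F i).sm (((h1.D e').sm i).mul (sm m)) (((u2 e').sm i).mul (sm _))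
        (k1 e' i a Q hQ s1 s2 h).1 (k2 e' i a Q hQ s1 s2 h).1
    · rw [N2, n2_succ, add_mul, Finset.sum_mul]
      refine add_le_add (hK i a Q h).2 (Finset.sum_le_sum fun e' _ => ?_)
      rw [e, add_mul, mul_assoc, mul_assoc]
      exact (n2_add_le (F i).sm k (((h1.D e').sm i).mul (sm m)) (((u2 e').sm i).mul (sm _))
        (k1 e' i a Q hQ s1 s2 h).1 (k2 e' i a Q hQ s1 s2 h).1).trans (add_le_add
          (mul_le_mul_of_nonneg_left (k1 e' i a Q hQ s1 s2 h).2 zero_le_two)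
          (mul_le_mul_of_nonneg_left (k2 e' i a Q hQ s1 s2 h).2 zero_le_two))

namespace Dm
variable (D : Dm I M ι X Y)

/-- windows for a time and a measure that do not depend on the parameter -/
structure WE (δ : ℝ) (ν : J → Measure M) (τ : J → M → ℝ) (S : J → Set M) : Prop where
  δ0 : 0 < δ
  sm : ∀ i, Sm I (τ i)
  dτ : ∀ a, UB D.P fun i => (D.P i).D a (τ i)
  ms : ∀ i, MeasurableSet (S i)
  sf : ∀ i, SFinite (ν i)
  sup : ∀ i, ∀ᵐ x ∂ν i, x ∈ S i
  wt : ∃ (ψ : J → M → ℝ) (η C A : ℝ), η ≤ δ ∧ ∀ i, Continuous (ψ i) ∧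
    (D.P i).μ.restrict (S i) = wm (ν i) (ψ i) ∧ VG (ν i) (τ i) η A ∧
    ∀ x ∈ S i, ∀ z ∈ S i, ψ i x - ψ i z ≤ C + (δ - η) * |τ i x - τ i z|

variable {D} {δ : ℝ} {ν : J → Measure M} {τ θ : J → M → ℝ} {S : J → Set M}

theorem WE.wi (h : D.WE δ ν τ S) : ∃ A, ∀ i (g : M → ℝ) c, Continuous g → (∀ x, ‖g x‖ ≤ c) →
    WI (ν i) (τ i) δ g ∧ ∀ t, wn (ν i) (τ i) δ (fun x => ‖g x‖) t ≤ δ * |c| * A :=
  let ⟨_, _, _, A, h1, h2⟩ := h.wt
  ⟨A, fun i _ _ => (h2 i).2.2.1.wi h.δ0 h1 (h.sm i).continuous⟩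

theorem WE.cbs (h : D.WE δ ν τ S) (s c : ℝ) : ∃ C, ∀ i (g : M → ℝ), Continuous g →
    (∀ x, ‖g x‖ ≤ c) → (D.P i).CBs (fun x => wn (ν i) (τ i) δ g (τ i x + s)) C := by
  obtain ⟨A, hA⟩ := h.wi
  obtain ⟨T, hT⟩ := UB.unif h.dτ
  refine ⟨fun k => Nka63.cT T k * ∑ m ∈ Finset.range (k + 1), |cb δ m * (δ * |c| * A)|,
    fun i g h1 h2 => ?_⟩
  obtain ⟨w, hw⟩ := hA i g c h1 h2
  have sm : ContDiff ℝ ∞ fun t => wn (ν i) (τ i) δ g (t + s) :=
    (w.contDiff_wn h.δ0).comp (contDiff_id.add contDiff_const)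
  refine ⟨Sob92.sm_comp sm (h.sm i), fun k => Nka63.CB_time (h.sm i) (hT i) k sm fun m hm t => ?_⟩
  rw [iteratedDeriv_comp_add_const, w.iteratedDeriv_wn h.δ0]
  exact (((w.norm_wnd_le h.δ0 m _).trans (mul_le_mul_of_nonneg_left (hw _) (cb_nonneg δ m))).trans
    (le_abs_self _)).trans (Finset.single_le_sum (f := fun m => |cb δ m * (δ * |c| * A)|)
      (fun _ _ => abs_nonneg _) (Finset.mem_range.2 (Nat.lt_succ_of_le hm)))

theorem WE.n2 (h : D.WE δ ν τ S) (hθ : UB D.P θ) (hs : ∀ i, tsupport (θ i) ⊆ S i) (s : ℝ) (k : ℕ) :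
    ∃ K, ∀ i (g : M → ℝ) c, Continuous g → (∀ x, ‖g x‖ ≤ c) → MemLp g 2 (D.P i).μ →
      FL (D.P i) k (fun x => θ i x * wn (ν i) (τ i) δ g (τ i x + s)) ∧
      N2 (D.P i) k (fun x => θ i x * wn (ν i) (τ i) δ g (τ i x + s)) ≤ K * N2 (D.P i) 0 g := by
  obtain ⟨ψ, η, C, A, h1, h2⟩ := h.wt
  obtain ⟨K, hK⟩ := n2_time h.sm h.dτ h.ms
    (fun m => cb δ m ^ 2 * (δ * exp (δ * |s|) * exp C * A) ^ 2) k 0 θ hθ hs
  refine ⟨K, fun i g c g1 g2 g3 => ?_⟩
  obtain ⟨p1, p2, p3, p4⟩ := h2 i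
  have w := (p3.wi h.δ0 h1 (h.sm i).continuous g1 g2).1
  have sm : ∀ m, ContDiff ℝ ∞ fun t => wnd (ν i) (τ i) δ m g (t + s) := fun m =>
    (w.contDiff_wnd h.δ0 m).comp (contDiff_id.add contDiff_const)
  have := hK i (fun m t => wnd (ν i) (τ i) δ m g (t + s)) (N2 (D.P i) 0 g) (n2_nonneg 0 g) sm
    (fun m => funext fun t => ((w.hasDerivAt_wnd h.δ0 m (t + s)).comp_add_const t s).deriv)
    fun m => memLp_of_lint (by positivity)
      ((sm m).continuous.comp (h.sm i).continuous).aestronglyMeasurable g3 ?_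
  · simpa only [wnd_zero] using this
  have := h.sf i
  have h3 := p3.schur h.δ0 (h.sm i).continuous p1 (h.sup i) p4 s g1 w
  rw [← p2] at h3
  rw [ENNReal.ofReal_mul (by positivity), mul_assoc]
  refine le_trans ?_ (mul_le_mul_right (h3.trans (mul_le_mul_right
    (lintegral_mono' Measure.restrict_le_self le_rfl) _)) _)
  rw [← lintegral_const_mul' _ _ ENNReal.ofReal_ne_top]
  refine lintegral_mono fun x => ?_
  rw [← ENNReal.ofReal_mul (by positivity), ← mul_pow]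
  exact ENNReal.ofReal_le_ofReal (pow_le_pow_left₀ (norm_nonneg _) (w.norm_wnd_le h.δ0 m _) 2)

theorem wn_add {μ : Measure M} {τ g g' : M → ℝ} (hδ : 0 < δ) (h : WI μ τ δ g) (h' : WI μ τ δ g')
    (t : ℝ) : wn μ τ δ (fun x => g x + g' x) t = wn μ τ δ g t + wn μ τ δ g' t := by
  simp only [wn, smul_add]
  exact integral_add (h.int hδ t) (h'.int hδ t)

variable [I.Boundaryless]

/-- **Windows, fixed neck.** -/
theorem WE.a0 (h : D.WE δ ν τ S) (hθ : UB D.P θ) (hs : ∀ i, tsupport (θ i) ⊆ S i) (s : ℝ)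
    {ε : Prop} {l j : ℕ} (hl : 4 ≤ l) (hj : 4 ≤ j) {w : ∀ i, Y i → M → ℝ} (hw : D.A0 ε l w) :
    D.A0 ε j fun i y x => θ i x * wn (ν i) (τ i) δ (w i y) (τ i x + s) := by
  obtain ⟨A, hA⟩ := h.wi
  obtain ⟨K, hK⟩ := h.n2 hθ hs s j
  have cb : ∀ i (g : M → ℝ) c, Continuous g → (∀ x, ‖g x‖ ≤ c) →
      (D.P i).Cb fun x => θ i x * wn (ν i) (τ i) δ g (τ i x + s) := fun i g c h1 h2 =>
    let ⟨C, hC⟩ := h.cbs s c
    Cb_bil (ContinuousLinearMap.mul ℝ ℝ) (hθ.cb i) ⟨C, hC i g h1 h2⟩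
  have ub : ∀ {g : J → M → ℝ}, UB D.P g →
      UB D.P fun i x => θ i x * wn (ν i) (τ i) δ (g i) (τ i x + s) := fun ⟨C, hC⟩ =>
    let ⟨C', hC'⟩ := h.cbs s (C 0)
    hθ.bil (ContinuousLinearMap.mul ℝ ℝ)
      ⟨C', fun i => hC' i _ (hC i).1.continuous (CB_bound ((hC i).2 0))⟩
  have cv := fun i (u : D.H ℝ l i) => continuous_val (D.sup i) hl u
  have bv := fun i (u : D.H ℝ l i) => norm_val_le (D.sup i) hl u
  have iv := fun i (u : D.H ℝ l i) => Is.val (D.sup i) hl u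
  have ex : ∀ i (u : D.H ℝ l i), ∃ v : D.H ℝ j i,
      (D.vl v = fun x => θ i x * wn (ν i) (τ i) δ (D.vl u) (τ i x + s)) ∧ ‖v‖ ≤ √|K| * ‖u‖ := by
    intro i u
    obtain ⟨k1, k2⟩ := hK i _ _ (cv i u) (bv i u) (iv i u).memLp
    have sm := Cb.sm (cb i _ _ (cv i u) (bv i u))
    obtain ⟨v, hv⟩ := exists_Is (p := triv M ℝ) (Exh.of_tame (D.tame i)) sm k1 fun _ => rfl
    refine ⟨v, hv.val_eq (D.sup i) hj sm.continuous, ?_⟩
    rw [hv.norm sm]
    refine nrm_le_of_sq (by positivity) (k2.trans ?_)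
    rw [mul_pow, Real.sq_sqrt (abs_nonneg K), ← nrm_sq, ← (iv i u).norm_zero]
    exact mul_le_mul (le_abs_self K) (pow_le_pow_left₀ (norm_nonneg _)
      ((ContinuousLinearMap.le_of_opNorm_le _ (rep_incl' l.zero_le).2 u).trans_eq (one_mul _)) 2)
      (by positivity) (abs_nonneg K)
  choose T t1 t2 using ex
  let L : ∀ i, D.H ℝ l i →L[ℝ] D.H ℝ j i := fun i => LinearMap.mkContinuous
    { toFun := T i
      map_add' := fun u v => val_injective (D.sup i) hj (by
        rw [val_add, ← vl, ← vl, ← vl, t1, t1, t1]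
        funext x
        rw [Pi.add_apply, ← mul_add, ← wn_add h.δ0 (hA i _ _ (cv i u) (bv i u)).1
          (hA i _ _ (cv i v) (bv i v)).1, vl, val_add]; rfl)
      map_smul' := fun c u => val_injective (D.sup i) hj (by
        rw [RingHom.id_apply, val_smul, ← vl, ← vl, t1, t1]
        funext x
        simp only [wn, vl, val_smul, Pi.smul_apply, smul_eq_mul, mul_left_comm _ c,
          integral_const_mul]) } √|K| (t2 i)
  have hL : Bv L := ⟨_, fun i => LinearMap.mkContinuous_norm_le _ (Real.sqrt_nonneg _) _⟩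
  obtain ⟨b, δ', h1, h2, h3, h4⟩ := hw.ex
  refine ⟨⟨fun i y => let ⟨C, hC⟩ := hw.sz.cb i y; cb i _ _ hC.1.continuous (CB_bound (hC.2 0)),
    ub hw.sz.ub⟩, _, _, ub h1, fun e i x => by simp [wn, h2 e], h3.clm hL, fun i y x => ?_⟩
  obtain ⟨C, hC⟩ := h1.cb i
  rw [show D.vl (L i _) = _ from t1 i _, ← mul_add, ← wn_add h.δ0
    (hA i _ _ hC.1.continuous (CB_bound (hC.2 0))).1 (hA i _ _ (cv i _) (bv i _)).1, funext (h4 i y)]

omit [I.Boundaryless] in
theorem is_inner {V : Type} [NormedAddCommGroup V] [InnerProductSpace ℝ V] [CompleteSpace V]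
    {F : Pre I M ι} {h h' : F.H 0 (triv M V)} {u v : M → V} (H : Is F 0 _ h u)
    (H' : Is F 0 _ h' v) : ⟪h, h'⟫_ℝ = ∫ x, ⟪u x, v x⟫_ℝ ∂F.μ := by
  rw [← inner_toL2, L2.inner_def]
  refine integral_congr_ae ?_
  filter_upwards [H, H'] with x h1 h2
  rw [h1, h2]

omit [I.Boundaryless] in
theorem bv_innerSL {Z : J → Type} [∀ i, NormedAddCommGroup (Z i)] [∀ i, InnerProductSpace ℝ (Z i)] :
    Bv fun i => (innerSL ℝ : Z i →L[ℝ] Z i →L[ℝ] ℝ) := ⟨1, fun i => norm_innerSL_le ℝ (E := Z i)⟩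

omit [I.Boundaryless] in
/-- the `L²` pairing of two pure families -/
theorem A0.pair {V : Type} [NormedAddCommGroup V] [InnerProductSpace ℝ V] [CompleteSpace V]
    {l l' : ℕ} (hl : 4 ≤ l) (hl' : 4 ≤ l') {u v : ∀ i, Y i → M → V} (hu : D.A0 True l u)
    (hv : D.A0 True l' v) : D.Sc fun i y => ∫ x, ⟪u i y x, v i y x⟫_ℝ ∂(D.P i).μ := by
  obtain ⟨a, a1, a2⟩ := hu.pure
  obtain ⟨c, c1, c2⟩ := hv.pure
  exact ⟨_, UC.bil bv_innerSL (a1.clm (bv_ic l.zero_le)) (c1.clm (bv_ic l'.zero_le)), fun i y => by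
    simp only [a2, c2]
    exact (is_inner ((Is.val (D.sup i) hl _).incl l.zero_le)
      ((Is.val (D.sup i) hl' _).incl l'.zero_le)).symm⟩

omit [I.Boundaryless] in
theorem US.of_map {N : Type} [NormedAddCommGroup N] [NormedSpace ℝ N] {f : ∀ i, X i → M → N}
    (h : ∀ k, ∃ g : ∀ i, X i → B (D.P i) k N, UC D.toRg g ∧ ∀ i, ∀ x ∈ D.U i, B.fn (g i x) = f i x) :
    D.US f :=
  ⟨fun i x hx => let ⟨g, _, e⟩ := h 0; e i x hx ▸ (g i x).cb, fun k =>
    let ⟨_, h1, e⟩ := h k; h1.congr fun i x hx => (eq_toB (e i x hx)).symm⟩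

omit [I.Boundaryless] in
theorem FF.densR {G : ∀ i, X i → Fr I M ι} (h : D.FF G) : ∃ ρ : ∀ i, X i → M → ℝ, D.US ρ ∧
    ∀ i y (g : M → ℝ), ∫ x, g x ∂(G i (D.pt i y)).μ = ∫ x, ρ i (D.pt i y) x * g x ∂(D.P i).μ := by
  obtain ⟨ρ, h1, h2⟩ := h.dens
  refine ⟨ρ, h1, fun i y g => Complex.ofReal_injective ?_⟩
  rw [← integral_complex_ofReal, ← integral_complex_ofReal, h2]
  simp

/-- multiplication by the kernel at a given time -/
def _root_.Crest.Agent.X212.Mon62.kerL (F : Pre I M ι) (δ : ℝ) (p : B F 0 ℝ × ℝ) :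
    HT F ℝ 0 →L[ℝ] HT F ℝ 0 :=
  mulB F 0 (triv M ℝ) (B.clm (ContinuousLinearMap.mul ℝ ℝ) (nemB F 0 (b δ) (p.1 - B.const p.2)))

theorem ug_ker (δ : ℝ) : UG fun i => kerL (D.P i) δ := fun _ =>
  ((((UG.fixed (contDiff_b δ)).nemB (F := D.P) (k := 0)).cmp
    (uc_fst.sub (uc_snd.clm bv_Bconst))).clm (bv_clm 0 _)).clm (bv_mulB 0)

/-- functions of the parameter and of a moving function -/
theorem US.nem {T Z : J → Type} [∀ i, NormedAddCommGroup (T i)] [∀ i, NormedSpace ℝ (T i)]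
    [∀ i, NormedAddCommGroup (Z i)] [∀ i, NormedSpace ℝ (Z i)] {g : ∀ i, T i × ℝ → Z i}
    (hg : UG g) {p : ∀ i, X i → T i} (hp : UC D.toRg p) {Λ : ∀ i, X i → Z i →L[ℝ] ℝ}
    (hΛ : UC D.toRg Λ) {τ : ∀ i, X i → M → ℝ} (hτ : D.US τ) (s : ℝ) :
    D.US fun i x z => Λ i x (g i (p i x, τ i x z + s)) := US.of_map fun k => by
  have h1 := ((hp.prod (UC.const (Bv.const s))).clm (bv_Bconst (F := D.P) (k := k))).add
    ((hτ.uc k).clm (bv_Bclm (L := fun i => ContinuousLinearMap.inr ℝ (T i) ℝ)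
      ⟨1, fun _ => ContinuousLinearMap.norm_inr_le_one _ _ _⟩))
  have h2 : Bv fun i => (B.bil (ContinuousLinearMap.id ℝ (Z i →L[ℝ] ℝ)) :
      B (D.P i) k _ →L[ℝ] B (D.P i) k _ →L[ℝ] B (D.P i) k _) := bv_Bbil bv_id
  refine ⟨_, UC.bil h2 (hΛ.clm bv_Bconst) (hg.nemB.cmp h1), fun i x hx => funext fun z => ?_⟩
  simp only [B.fn_bil, B.fn_const, (hg.ga i).fn, map_add, B.fn_clm, fn_toB (hτ.cb i x hx),
    Pi.add_apply, ContinuousLinearMap.inr_apply, Prod.mk_add_mk, add_zero, add_comm s]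
  rfl

/-- **Windows, compact moving neck.** -/
theorem A0.us_wn {G : ∀ i, X i → Fr I M ι} (hF : D.FF G) {τ : ∀ i, X i → M → ℝ} (hτ : D.US τ)
    (δ s : ℝ) {l : ℕ} (hl : 4 ≤ l) {η w : ∀ i, Y i → M → ℝ} (hη : D.A0 True l η)
    (hw : D.A0 True l w) (e : ∀ i y x, η i y x * w i y x = w i y x) :
    ∃ a : ∀ i, X i → M → ℝ, D.US a ∧ ∀ i y x, a i (D.pt i y) x =
      wn (G i (D.pt i y)).μ (τ i (D.pt i y)) δ (w i y) (τ i (D.pt i y) x + s) := by
  obtain ⟨ρ, r1, r2⟩ := hF.densR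
  obtain ⟨u, u1, u2⟩ := (hw.us_smul (ε := True) hl r1).pure
  obtain ⟨v, v1, v2⟩ := hη.pure
  have h0 : Bv fun i => ContinuousLinearMap.apply ℝ (E := D.H ℝ 0 i) (D.H ℝ 0 i) :=
    ⟨1, fun i => ContinuousLinearMap.opNorm_le_bound₂ _ zero_le_one fun v T => by
      rw [one_mul, mul_comm]; exact T.le_opNorm v⟩
  have hΛ := ((v1.clm (bv_ic l.zero_le)).clm bv_innerSL).comp ((u1.clm (bv_ic l.zero_le)).clm h0)
  refine ⟨_, hτ.nem (ug_ker δ) (hτ.uc 0) hΛ s, fun i y x => ?_⟩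
  have h1 := (Is.val (D.sup i) hl (u i (D.pt i y))).incl l.zero_le
  refine (is_inner ((Is.val (D.sup i) hl _).incl l.zero_le)
    (h1.mulH (B.cb _) (Maps.triv _))).trans ?_
  rw [wn, r2]
  refine integral_congr_ae (.of_forall fun z => ?_)
  have := e i y z
  simp only [← u2, ← v2, B.fn_clm, fn_nemB (contDiff_b δ), map_sub, B.fn_const,
    fn_toB (hτ.cb i _ (D.mem i y)), Pi.sub_apply, ContinuousLinearMap.mul_apply', smul_eq_mul,
    RCLike.inner_apply, conj_trivial]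
  linear_combination (b δ (τ i (D.pt i y) z - (τ i (D.pt i y) x + s)) * ρ i (D.pt i y) z) * this

end Dm

end Crest.Agent.X212.Mon62
end
end

-- ▼ part X212/Mon62/NkQ
section

/-! # Row 212, NK-SM: the neck terms `q1`, `q2` extend smoothly to the Banach model -/

set_option autoImplicit false
set_option linter.unusedSectionVars false
set_option maxSynthPendingDepth 3
noncomputable section
open scoped Manifold ContDiff Topology InnerProductSpace
open MeasureTheory Set Function Filter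

namespace Crest.Agent.X212.Mon62
open An Sob92 Prm93 Wz78 Dgr80 Nd18 Dm
open Ell97 (UB)
open Cyc79 (Cy)

theorem contDiff_nr : ContDiff ℝ ∞ fun t : ℝ => t / √(1 + t ^ 2) :=
  contDiff_id.div ((contDiff_const.add (contDiff_id.pow 2)).sqrt fun _ => by positivity)
    fun _ => by positivity

theorem contDiff_iq : ContDiff ℝ ∞ fun t : ℝ => (√(1 + t ^ 2))⁻¹ :=
  ((contDiff_const.add (contDiff_id.pow 2)).sqrt fun _ => by positivity).inv fun _ => by positivity

theorem contDiff_out {C : YTC} (h : ContDiff ℝ ∞ C.k) : ContDiff ℝ ∞ C.out.k :=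
  (contDiff_nr.comp (contDiff_apply ℝ ℝ (0 : Fin (C.m + 1)))).mul
    (h.comp (contDiff_pi.2 fun i => contDiff_apply ℝ ℝ i.succ))

variable {E3 : Type} [NormedAddCommGroup E3] [NormedSpace ℝ E3] [FiniteDimensional ℝ E3]
  [MeasurableSpace E3] [BorelSpace E3]
  {H3 : Type} [TopologicalSpace H3] {I3 : ModelWithCorners ℝ E3 H3} [I3.Boundaryless]
  {Y : Type} [TopologicalSpace Y] [ChartedSpace H3 Y] [IsManifold I3 ∞ Y] [T2Space Y]
  [MeasurableSpace Y] [BorelSpace Y] [SecondCountableTopology Y] [CompactSpace Y]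
  {κ : Type} [Fintype κ] {lam : Type} [Fintype lam]
  {E : Type} [NormedAddCommGroup E] [NormedSpace ℝ E] [FiniteDimensional ℝ E]
  [MeasurableSpace E] [BorelSpace E]
  {HM : Type} [TopologicalSpace HM] {I : ModelWithCorners ℝ E HM} [I.Boundaryless]
  {M : Type} [TopologicalSpace M] [ChartedSpace HM M] [IsManifold I ∞ M] [MeasurableSpace M]
  [T2Space M] [BorelSpace M] [SecondCountableTopology M] {DY : YD I3 Y κ lam}

theorem contDiff_cx (N : ND Y lam) : ContDiff ℝ ∞ N.cx :=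
  (contDiff_pi.2 fun _ => contDiff_apply ℝ ℝ _).prodMk (contDiff_pi.2 fun j =>
    Complex.equivRealProdCLM.symm.contDiff.comp
      ((contDiff_apply ℝ ℝ (Sum.inr (Sum.inl j) : N.J)).prodMk (contDiff_apply ℝ ℝ _)))

/-- convolution in time as a window integral -/
theorem cv_eq {B : Base M (Option κ) lam} {G : Geo I M (Option κ) lam} (K : Nk DY B G) (δ : ℝ)
    (g : ℝ → ℝ) (x : M) : cv δ (fun t => K.cut 3 t * g t) (K.τ x) * K.χ x = (Nka63.vY DY)⁻¹ *
      wn G.F.μ K.τ δ (fun z => K.cut 3 (K.τ z) * g (K.τ z)) (K.τ x + 0) * K.χ x := by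
  by_cases h : K.χ x = 0
  · simp [h]
  have : Nonempty Y := ⟨(K.ψ.symm x).1⟩
  have := openPos DY.F.toPre
  have h0 : Nka63.vY DY ≠ 0 :=
    (ENNReal.toReal_pos (isOpen_univ.measure_pos _ univ_nonempty).ne' (measure_ne_top _ _)).ne'
  have h1 : ∀ s, K.cut 3 s * K.cut 1 s = K.cut 3 s := fun s => by
    by_cases e : s ∈ Dp K.p K.q 3
    · rw [show K.cut 1 s = 1 from ct_one (Dp_mono (by norm_num) e), mul_one]
    · rw [show K.cut 3 s = 0 from ct_zero e, zero_mul]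
  have h2 := Nka63.integral_time_χ K fun s => b δ (s - K.τ x) * (K.cut 3 s * g s)
  have h3 : ∀ s, b δ (s - K.τ x) * (K.cut 3 s * g s) * K.cut 1 s =
      b δ (s - K.τ x) * (K.cut 3 s * g s) := fun s => by
    linear_combination (b δ (s - K.τ x) * g s) * h1 s
  simp only [Nka63.χ_eq K, h3] at h2
  rw [wn, add_zero]
  simp only [smul_eq_mul]
  rw [h2, inv_mul_cancel_left₀ h0, cv]
  congr 2
  funext t
  rw [← b_neg, neg_sub, mul_comm]

variable {J : Type} {X Q : J → Type} [∀ i, NormedAddCommGroup (X i)] [∀ i, NormedSpace ℝ (X i)]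
  {D : Dm I M (Option κ) X Q} {μ : MF M (Option κ) lam J} {r n : ℕ} {c : CF D μ r}
  {B : J → Base M (Option κ) lam} {a : ∀ i, Q i → Option κ → M → En lam}
  (K : ∀ i y, Nk DY (B i) ⟨c.F i y, a i y⟩) (δ : ℝ) (j : ℕ)

/-- moments of the square of a pure family -/
theorem Dm.A0.moment {ι : Type} [Fintype ι] {D : Dm I M ι X Q} {V : Type} [NormedAddCommGroup V]
    [InnerProductSpace ℝ V] [CompleteSpace V] {l : ℕ} {u : ∀ i, Q i → M → V} (hu : D.A0 True l u)
    (hl : 7 ≤ l) {ρ g : ∀ i, X i → M → ℝ} (hρ : D.US ρ) (hg : D.US g) {f : ∀ i, Q i → M → ℝ}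
    (hf : D.A0 False l f) : (D.Sc fun i y =>
      ∫ x, ρ i (D.pt i y) x * (g i (D.pt i y) x * (f i y x * ‖u i y x‖ ^ 2)) ∂(D.P i).μ) ∧
      ∀ i y, Integrable (fun x =>
        ρ i (D.pt i y) x * (g i (D.pt i y) x * (f i y x * ‖u i y x‖ ^ 2))) (D.P i).μ := by
  have h4 : 4 ≤ l := by omega
  have hv := (((A0.smul (Lev.self hl) h4 hf hu).imp (ε' := True) Or.inr).us_smul (ε := True) h4
    hg).us_smul (ε := True) h4 hρ
  have m : ∀ {w : ∀ i, Q i → M → V}, D.A0 True l w → ∀ i y, MemLp (w i y) 2 (D.P i).μ :=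
    fun hw i y => let ⟨_, _, e⟩ := hw.pure; e i y ▸ (Is.val (D.sup i) h4 _).memLp
  have h1 := hv.pair h4 h4 hu
  have h2 := fun i y => ((m hv i y).norm.integrable_mul (m hu i y).norm).mono'
    ((m hv i y).1.inner (𝕜 := ℝ) (m hu i y).1) (.of_forall fun _ => norm_inner_le_norm _ _)
  simp only [real_inner_smul_left, real_inner_self_eq_norm_sq] at h1 h2
  exact ⟨h1, h2⟩

abbrev MF.pp {ι : Type} [Fintype ι] (μ : MF M ι lam J) (B : J → Base M ι lam) (i : J) :
    M → CL μ.V μ.V := (μ.m i).pp (B i)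

/-- the hypotheses on a family of necks -/
structure NH : Prop where
  ext : ∀ f : Y → ℝ, Sm I3 f → D.A0 False (j + 1) fun i y => (K i y).ext f
  exl : ∀ s : Y → Eu lam, Sm I3 s → D.A0 False j fun i y => (K i y).ext s
  dτ : c.Cd j fun i y => (K i y).τ
  cut : ∀ d, 1 ≤ d → D.A0 False j fun i y x => (K i y).cut d ((K i y).tm x)
  win : ∃ θ : ∀ i, Q i → M → ℝ, (∀ i y, ∀ x ∈ (K i y).dp 1, θ i y x = 1) ∧
    ∀ (s : ℝ) ε (w : ∀ i, Q i → M → ℝ), D.A0 ε 4 w → (∀ i y, ∀ x ∉ (K i y).dp 1, w i y x = 0) →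
      D.A0 ε j fun i y x => θ i y x * wn (c.F i y).μ (K i y).τ δ (w i y) ((K i y).τ x + s)

/-- hypothesis (row CYC-SM): the cyclic seeds -/
def NC : Prop := ∀ d : Cy Y, d.OK DY.F → c.SedS j fun i y => ((K i y).cyc d).sed (c.F i y)

namespace NH
variable {K δ j} (h : NH K δ j) {ε : Prop} (o : c.OK ε j)
include h o

theorem ex {f : Y → ℝ} (hf : Sm I3 f) : D.A0 False j fun i y => (K i y).ext f :=
  (h.ext f hf).lower o.h4 j.le_succ

theorem cdx {f : Y → ℝ} (hf : Sm I3 f) : c.Cd j fun i y => (K i y).ext f :=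
  (h.ext f hf).dG o.F o.h4

theorem cd : ∀ {g : Option (Y → ℝ)}, OF I3 g → c.Cd j fun i y => (K i y).fn g
  | none, _ => h.dτ
  | some f, hg => h.cdx o (hg f rfl)

theorem lt : ∀ {t : YL Y}, t.OK I3 → c.LtY j fun i y => (K i y).lt t
  | .mul _, ht => .mul (h.ex o ht)
  | .cl _, ht => .cl (h.cd o ht)
  | .im, _ => .im
  | .G, _ => .G

theorem la : ∀ {t : La Y}, laOK I3 t → D.LaY j fun i y => (K i y).la t
  | .mul _, ht => .mul (h.ex o ht)
  | .G, _ => .G

theorem sw {u : List (YL Y)} (hu : ∀ t ∈ u, YL.OK I3 t) :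
    Fa (c.LtY j) fun i y => u.map (K i y).lt := .list fun t ht => h.lt o (hu t ht)

theorem las {u : List (La Y)} (hu : ∀ t ∈ u, laOK I3 t) :
    Fa (D.LaY j) fun i y => u.map (K i y).la := .list fun t ht => h.la o (hu t ht)

variable {N : ND Y lam}

/-- the densities are cut-off densities of the calculus -/
theorem den (hN : N.OK DY) (hC : NC K j) (k : N.J) : ∃ d, c.DenS j d ∧
    ∀ i y, (N.dg (K i y)).d k = dcut (K i y).χ (d i y) := by
  rcases k with k | k | k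
  · have := hN.d0 k
    cases e : N.d0 k with
    | sw u v =>
      rw [e] at this
      exact ⟨_, o.denSw o.pk_one (h.sw o this.1) (h.sw o this.2), fun i y => by
        simp only [ND.dg, Sum.elim_inl, e]; rfl⟩
    | cy d w d' w' =>
      rw [e] at this
      exact ⟨_, .sed o.h7 (o.sedWd (hC d this.1) (h.las o this.2.1))
        (o.sedWd (hC d' this.2.2.1) (h.las o this.2.2.2)), fun i y => by
        simp only [ND.dg, Sum.elim_inl, e]; rfl⟩
  · obtain ⟨h1, h2, h3⟩ := hN.d2 k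
    exact ⟨_, o.denSw (o.pk_re (h.exl _ h1)) (h.sw o h2) (h.sw o h3), fun _ _ => rfl⟩
  · obtain ⟨h1, h2, h3⟩ := hN.d2 k
    exact ⟨_, o.denSw (o.pk_im (h.exl _ h1)) (h.sw o h2) (h.sw o h3), fun _ _ => rfl⟩

/-- smooth functions of finitely many windows, cut off -/
theorem fwin {α : Type} [Fintype α] {g : (α → ℝ) → ℝ} (hg : ContDiff ℝ ∞ g) (s : α → ℝ)
    {w : α → ∀ i, Q i → M → ℝ} (hw : ∀ k, D.A0 False 4 (w k))
    (h0 : ∀ k i y, ∀ x ∉ (K i y).dp 1, w k i y x = 0) {d : ℝ} (hd : 1 ≤ d) :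
    D.A0 False j fun i y x => (K i y).cut d ((K i y).tm x) *
      g fun k => wn (c.F i y).μ (K i y).τ δ (w k i y) ((K i y).τ x + s k) := by
  obtain ⟨θ, h1, h2⟩ := h.win
  refine (((h.cut d hd).mul o.h7
    (A0.compF o.hj hg fun k => h2 (s k) _ _ (hw k) (h0 k))).aff).congr fun i y x => ?_
  by_cases e : x ∈ (K i y).dp 1
  · simp only [h1 i y x e, one_mul]
  · rw [show (K i y).cut d ((K i y).tm x) = 0 from ct_zero fun e' => e (Dp_mono hd e'), zero_mul,
      zero_mul]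

end NH

namespace NH
variable {K j} {N : ND Y lam} (h : NH K N.δ j) {ε : Prop} (o : c.OK ε j)
include h o

theorem β (hN : N.OK DY) (hC : NC K j) (k : N.J) : D.A0 False j fun i y x =>
    (N.dg (K i y)).β (c.F i y) (c.c i y) k ((K i y).τ x) * (K i y).χ x := by
  choose d d1 d2 using h.den o hN hC
  have sm : ContDiff ℝ ∞ fun v => fderiv ℝ (fun x => N.φ (N.cx x)) v (Pi.single k 1) :=
    (sm_fderiv (hN.sm.comp (contDiff_cx N))).clm_apply contDiff_const
  have h1 := h.fwin o sm (fun _ => 0) (w := fun k i y => ((N.dg (K i y)).d k).h (c.c i y))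
    (fun k => (((h.cut 1 le_rfl).mul o.h7 (d1 k).h).aff.lower le_rfl o.h4).congr fun i y x => by
      rw [d2]; rfl)
    (fun k i y x hx => by rw [d2]; exact mul_eq_zero_of_left ((K i y).χ_zero hx) _)
    (d := 3) (by norm_num)
  have h2 := h.fwin o ((contDiff_const (c := (Nka63.vY DY)⁻¹)).mul (contDiff_apply ℝ ℝ ()))
    (fun _ => 0) (fun _ => h1.lower le_rfl o.h4) (fun _ i y x hx => mul_eq_zero_of_left
      (ct_zero fun e => hx (Dp_mono (by norm_num) e)) _) le_rfl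
  refine h2.congr fun i y x => (cv_eq (K i y) N.δ _ x).trans ?_
  simp only [add_zero, (K i y).cut_τ (show (1 : ℝ) ≤ 3 by norm_num), mul_comm _ ((K i y).χ x)]
  rfl

theorem gA (hN : N.OK DY) (hC : NC K j) : D.A0 False j (V := Fm (Option κ) μ.A) fun i y =>
    (N.dg (K i y)).gA (c.F i y) (c.c i y) := A0.fsum Finset.univ fun k _ =>
  let ⟨_, d1, d2⟩ := h.den o hN hC k
  (d1.gA _ _ (h.β o hN hC k)).congr fun i y x => by rw [d2]; rfl

theorem gP (hN : N.OK DY) (hC : NC K j) : D.A0 False j (V := μ.V) fun i y =>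
    (N.dg (K i y)).gP (c.F i y) (c.c i y) := A0.fsum Finset.univ fun k _ =>
  let ⟨_, d1, d2⟩ := h.den o hN hC k
  (d1.gP _ _ (h.β o hN hC k)).congr fun i y x => by rw [d2]; rfl

/-- the Dirac row of `q1`; pure if `dτ` is pure -/
theorem q1D (hN : N.OK DY) (hC : NC K j) (hB : UB D.P (μ.pp B)) {ε' : Prop}
    (hτ : ∀ e, D.A0 ε' j fun i y => (c.F i y).D e (K i y).τ) :
    D.A0 ε' j (V := μ.V) fun i y => (N.q1 (n := n) (K i y)).D (c.c i y) :=
  (A0.fsum Finset.univ fun e _ => (A0.smul o.lev o.h4 (hτ e)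
    (((h.gP o hN hC).app o.h4 hB).app o.h4 (o.ρ e))).imp Or.inl).neg o.h4

/-- the curvature row of `q1` -/
theorem q1C (hN : N.OK DY) (hC : NC K j) (hB : UB D.P (μ.p2 B)) {ε' : Prop}
    (hτ : ∀ e, D.A0 ε' j fun i y => (c.F i y).D e (K i y).τ) :
    D.A0 ε' j (V := Fm (Option κ × Option κ) μ.A) fun i y =>
      (N.q1 (n := n) (K i y)).C (c.c i y) :=
  ((A0.toLp o.h4 fun s => (A0.smul o.lev o.h4 (hτ s.1) ((h.gA o hN hC).clm o.h4
    (PiLp.proj 2 (fun _ : Option κ => μ.A) s.2))).imp Or.inl).app o.h4 hB).clm o.h4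
      ((-8 : ℝ) • ContinuousLinearMap.id ℝ _)

omit h in
theorem l7 {l : ℕ} (hl : l + 1 = j) : 7 ≤ l := by have := o.hj; omega

theorem χ4 {l : ℕ} (hl : l + 1 = j) : D.A0 False l fun i y => (K i y).χ4 :=
  have := o.hj; (h.cut 4 (by norm_num)).lower (by omega) (by omega)

theorem xA {l : ℕ} (hl : l + 1 = j) : D.A0 False l (V := Fm (Option κ) μ.A) fun i y x =>
    (K i y).χ4 x • xA (c.F i y) (c.c i y) (K i y).τ x :=
  have h7 := l7 o hl
  (A0.smul (Lev.self h7) (by omega) (h.χ4 o hl) (A0.toLp (by omega) fun e =>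
    A0.fsum Finset.univ fun k _ => A0.smul (Lev.left o.h7 (by omega)) (by omega) (h.dτ k)
      (o.Fg (by omega) hl.le (k, e)))).aff

theorem xP {l : ℕ} (hl : l + 1 = j) : D.A0 ε l (V := μ.V) fun i y x =>
    (K i y).χ4 x • xP (c.F i y) (c.c i y) (K i y).τ x :=
  have h7 := l7 o hl
  (A0.smul (Lev.self h7) (by omega) (h.χ4 o hl) (o.ntΦ hl h.dτ)).imp Or.inr

theorem uA {l : ℕ} (hl : l + 1 = j) {ε' : Prop} (hA : D.A0 ε' l (V := Fm (Option κ) μ.A)
    fun i y x => (K i y).χ4 x • Dgr80.xA (c.F i y) (c.c i y) (K i y).τ x) {f : Y → ℝ}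
    (hf : Sm I3 f) : D.A0 ε' l (V := μ.A) fun i y =>
      (c.c i y).sd (c.F i y) (.cv (K i y).χ4 (K i y).τ ((K i y).ext f)) := by
  have h7 := l7 o hl
  have h4 : 4 ≤ l := by omega
  have h1 := A0.fsum Finset.univ fun e _ => (A0.smul (Lev.left o.h7 (by omega)) h4
    (h.cdx o hf e) (hA.clm h4 (PiLp.proj 2 (fun _ : Option κ => μ.A) e))).imp Or.inr
  refine (o.resA h4 hl.le ((o.resA h4 hl.le (h1.congr fun i y x => ?_)).lower h4
    (by omega))).lower h4 (by omega)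
  rw [Fintype.sum_prod_type, Finset.sum_comm]
  refine Finset.sum_congr rfl fun e _ => ?_
  simp only [PiLp.proj_apply, PiLp.smul_apply, Dgr80.xA, Finset.smul_sum, smul_smul]
  exact Finset.sum_congr rfl fun k _ => by rw [mul_comm, mul_comm]

/-- the smoothed energy density (one level lower); pure if the time derivative is pure -/
theorem ew' (hy : ∀ i, Sm I3 (N.y i)) {l : ℕ} (hl : l + 1 = j) {ε' : Prop}
    (hA : D.A0 ε' l (V := Fm (Option κ) μ.A)
      fun i y x => (K i y).χ4 x • Dgr80.xA (c.F i y) (c.c i y) (K i y).τ x)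
    (hP : D.A0 ε' l (V := μ.V)
      fun i y x => (K i y).χ4 x • Dgr80.xP (c.F i y) (c.c i y) (K i y).τ x) :
    D.A0 ε' l fun i y => N.ew (K i y) (c.c i y) :=
  have h7 := l7 o hl
  ((h.χ4 o hl).mul h7 ((A0.fsum Finset.univ fun k _ => (h.uA o hl hA (hy k)).sq h7).add
    (hP.sq h7))).imp Or.inr

theorem ew (hy : ∀ i, Sm I3 (N.y i)) {l : ℕ} (hl : l + 1 = j) :
    D.A0 False l fun i y => N.ew (K i y) (c.c i y) := h.ew' o hy hl (h.xA o hl) (h.xP o hl).aff

/-- **MS-ROW**: moments of the smoothed energy -/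
theorem row (hy : ∀ i, Sm I3 (N.y i)) {l : ℕ} (hl : l + 1 = j)
    (hA : D.A0 True l (V := Fm (Option κ) μ.A)
      fun i y x => (K i y).χ4 x • Dgr80.xA (c.F i y) (c.c i y) (K i y).τ x)
    (hP : D.A0 True l (V := μ.V)
      fun i y x => (K i y).χ4 x • Dgr80.xP (c.F i y) (c.c i y) (K i y).τ x)
    {g : ∀ i, X i → M → ℝ} (hg : D.US g) :
    D.Sc fun i y => ∫ x, g i (D.pt i y) x * N.ew (K i y) (c.c i y) x ∂(c.F i y).μ := by
  have h7 := l7 o hl
  obtain ⟨ρ, r1, r2⟩ := o.F.densR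
  obtain ⟨a1, a2⟩ := (A0.toLp (by omega) fun k => h.uA o hl hA (hy k)).moment h7 r1 hg (h.χ4 o hl)
  obtain ⟨b1, b2⟩ := hP.moment h7 r1 hg (h.χ4 o hl)
  refine (a1.add b1).congr fun i y => ?_
  rw [← integral_add (a2 i y) (b2 i y), r2]
  simp only [PiLp.norm_sq_eq_of_L2 fun _ : Fin N.ny => μ.A, ← mul_add]
  rfl

omit o h in
theorem ew_zero (i : J) (y : Q i) : ∀ x ∉ (K i y).dp 1, N.ew (K i y) (c.c i y) x = 0 :=
  fun _ hx => mul_eq_zero_of_left (ct_zero fun e => hx (Dp_mono (by norm_num) e)) _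

theorem tc (hy : ∀ i, Sm I3 (N.y i)) {C : YTC} (hC : ContDiff ℝ ∞ C.k) {d : ℝ} (hd : 1 ≤ d) :
    D.A0 False j fun i y x => (K i y).cut d ((K i y).tm x) *
      (N.tc (K i y) C).val (c.F i y) (K i y).τ N.δ (c.c i y) ((K i y).τ x) := by
  have := o.hj
  exact h.fwin o (hC.comp (contDiff_pi.2 fun i => contDiff_nr.comp (contDiff_apply ℝ ℝ i))) C.s
    (fun _ => (h.ew o hy (l := j - 1) (by omega)).lower le_rfl (by omega))
    (fun _ => ew_zero) hd

theorem tl (hy : ∀ i, Sm I3 (N.y i)) {u : List (YL Y ⊕ YTC)} (hu : tlOK I3 u) :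
    Fa (c.LtY j) fun i y =>
      (u.map (N.tl (K i y))).map (Dgr80.tl (c.F i y) (K i y).τ N.δ (c.c i y)) := by
  simp only [List.map_map]
  refine .list fun t ht => ?_
  have := hu t ht
  rcases t with t | C
  · exact h.lt o this
  · exact .mul (h.tc o hy this.1 le_rfl)

theorem ta (hy : ∀ i, Sm I3 (N.y i)) {u : List (La Y ⊕ YTC)} (hu : taOK I3 u) :
    Fa (D.LaY j) fun i y =>
      (u.map (N.ta (K i y))).map (Dgr80.ta (c.F i y) (K i y).τ N.δ (c.c i y)) := by
  simp only [List.map_map]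
  refine .list fun t ht => ?_
  have := hu t ht
  rcases t with t | C
  · exact h.la o this
  · exact .mul (h.tc o hy this.1 le_rfl)

theorem oc (hy : ∀ i, Sm I3 (N.y i)) {T : YT Y} (hT : T.OK I3) :
    D.A0 False j fun i y => N.oc (K i y) T (c.c i y) :=
  (h.tc o hy (contDiff_out (C := T.C) (by cases T <;> exact hT.1.1)) (d := 3) (by norm_num)).congr
    fun i y x => by rw [ND.oc, (K i y).cut_τ (by norm_num)]

/-- the outer coefficient is pure if the energy density is pure -/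
theorem oc_pure (hy : ∀ i, Sm I3 (N.y i)) {T : YT Y} (hT : T.OK I3)
    (he : D.A0 True 4 fun i y => N.ew (K i y) (c.c i y)) :
    D.A0 True j fun i y => N.oc (K i y) T (c.c i y) := by
  have := o.hj
  have hk : ContDiff ℝ ∞ T.C.k := by cases T <;> exact hT.1.1
  have h0 := contDiff_apply (n := ∞) (E := ℝ) ℝ (0 : Fin (T.C.m + 1))
  have h1 := h.fwin o (((contDiff_iq.comp h0).mul (contDiff_iq.comp (contDiff_nr.comp h0))).mul
    (hk.comp (contDiff_pi.2 fun i => contDiff_nr.comp (contDiff_apply ℝ ℝ i.succ)))) T.C.out.s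
    (fun _ => (h.ew o hy (l := j - 1) (by omega)).lower le_rfl (by omega))
    (fun _ => ew_zero) (d := 3) (by norm_num)
  obtain ⟨θ, h2, h3⟩ := h.win
  refine (((h3 0 _ _ he ew_zero).mul o.h7 h1).imp Or.inl).congr fun i y x => ?_
  rw [ND.oc, (K i y).cut_τ (by norm_num)]
  by_cases e : x ∈ (K i y).dp 1
  · simp only [h2 i y x e, TC.val, ND.tc, YTC.out, comp_apply, Fin.cons_zero, div_eq_mul_inv]
    ring
  · rw [show (K i y).cut 3 ((K i y).tm x) = 0 from ct_zero fun e' => e (Dp_mono (by norm_num) e')]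
    simp

theorem tD (hy : ∀ i, Sm I3 (N.y i)) {T : YT Y} (hT : T.OK I3) (hB : UB D.P (μ.pm B)) :
    D.A0 False j (V := μ.V) fun i y =>
      (c.c i y).tD (B i) (c.F i y) (N.tm (K i y) (c.c i y) n T) := by
  cases T with
  | lin C u => exact ((o.swY (h.tl o hy hT.2)).app o.h4 hB).aff
  | _ => exact A0.zero

theorem tC (hy : ∀ i, Sm I3 (N.y i)) {T : YT Y} (hT : T.OK I3) (hB : UB D.P (μ.p2 B)) :
    D.A0 False j (V := Fm (Option κ × Option κ) μ.A) fun i y =>
      (c.c i y).tC (B i) (c.F i y) (N.tm (K i y) (c.c i y) n T) := by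
  cases T with
  | lin C u => exact A0.zero
  | ad C g u v l =>
    obtain ⟨-, h1, h2, h3, h4⟩ := hT
    exact (o.wedge h.dτ (h.cdx o h1) (o.wdAY (h.ta o hy h4)
      (o.qY (h.tl o hy h2) (h.tl o hy h3)).aff)).app o.h4 hB
  | cv C g f g1 g2 l =>
    obtain ⟨-, h1, h2, h3, h4, h5⟩ := hT
    exact (o.wedge h.dτ (h.cdx o h1) (o.wdAY (h.ta o hy h5)
      (o.cvY (h.ex o h2) (h.cd o h3) (h.cd o h4)))).app o.h4 hB

/-- the Dirac row of `q2`; pure if the outer coefficient is pure -/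
theorem q2D (hy : ∀ i, Sm I3 (N.y i)) {T : YT Y} (hT : T.OK I3) (hB : UB D.P (μ.pm B)) {ε' : Prop}
    (ho : D.A0 ε' j fun i y => N.oc (K i y) T (c.c i y)) :
    D.A0 ε' j (V := μ.V) fun i y => (N.q2 (n := n) (K i y) T).D (c.c i y) :=
  (A0.smul o.lev o.h4 ho ((h.tD o hy hT hB).nrm o.hj)).imp Or.inl

/-- the curvature row of `q2` -/
theorem q2C (hy : ∀ i, Sm I3 (N.y i)) {T : YT Y} (hT : T.OK I3) (hB : UB D.P (μ.p2 B)) {ε' : Prop}
    (ho : D.A0 ε' j fun i y => N.oc (K i y) T (c.c i y)) :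
    D.A0 ε' j (V := Fm (Option κ × Option κ) μ.A) fun i y =>
      (N.q2 (n := n) (K i y) T).C (c.c i y) :=
  (A0.smul o.lev o.h4 ho ((h.tC o hy hT hB).nrm o.hj)).imp Or.inl

end NH

end Crest.Agent.X212.Mon62
end
end

-- ▼ part X212/Mon62/NkI

/-! # Row 212, NK-SM: fixed necks, moving compact necks, homogeneity of `q1` -/

set_option autoImplicit false
set_option linter.unusedSectionVars false
set_option maxSynthPendingDepth 3
noncomputable section
open scoped Manifold ContDiff Topology InnerProductSpace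
open MeasureTheory Set Function Filter

namespace Crest.Agent.X212.Mon62
open An Sob92 Prm93 Wz78 Dgr80 Nd18 Dm
open Ell97 (UB)
open Cyc79 (Cy)
open Nk89 (wm)

section time
variable {p q : Option ℝ} {d s : ℝ}

/-- `0` at `0`, `1` on the values of `ct d` at depth `≥ d + 1/4` -/
def th (v : ℝ) : ℝ := Real.smoothTransition (v / Real.smoothTransition (1 / 4) ^ 2)

theorem contDiff_th : ContDiff ℝ ∞ th :=
  Real.smoothTransition.contDiff.comp (contDiff_id.div_const _)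

theorem th_zero (h : s ∉ Dp p q d) : th (ct p q d s) = 0 := by simp [ct_zero h, th]

theorem th_one (h : s ∈ Dp p q (d + 1 / 4)) : th (ct p q d s) = 1 := by
  have h0 : 0 < Real.smoothTransition (1 / 4) := Real.smoothTransition.pos_of_pos (by norm_num)
  refine Real.smoothTransition.one_of_one_le ((one_le_div (by positivity)).2 ?_)
  have h1 : Real.smoothTransition (1 / 4) ≤ p.elim 1 fun a => Real.smoothTransition (s - a - d) := by
    cases p with
    | none => exact Real.smoothTransition.le_one _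
    | some a => exact Real.smoothTransition.monotone (by linarith [h.1 a rfl])
  have h2 : Real.smoothTransition (1 / 4) ≤ q.elim 1 fun a => Real.smoothTransition (a - s - d) := by
    cases q with
    | none => exact Real.smoothTransition.le_one _
    | some a => exact Real.smoothTransition.monotone (by linarith [h.2 a rfl])
  rw [sq]
  exact mul_le_mul h1 h2 h0.le (h0.le.trans h1)

theorem abs_fl_le (h : 0 ≤ s) : |fl s| ≤ 1 := by
  rcases le_total 1 s with h1 | h1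
  · simp [fl_ge h1]
  have h2 := Real.smoothTransition.nonneg (2 * s - 1)
  have h3 := Real.smoothTransition.le_one (2 * s - 1)
  rw [fl, abs_le]
  constructor <;> nlinarith

theorem abs_tf_sub (h : s ∈ Jv p q) : |tf p q s - s| ≤ 2 := by
  have h1 : |p.elim 0 fun a => fl (s - a)| ≤ 1 := by
    cases p with
    | none => simp
    | some a => exact abs_fl_le (sub_nonneg.2 (h.1 a rfl).le)
  have h2 : |q.elim 0 fun a => fl (a - s)| ≤ 1 := by
    cases q with
    | none => simp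
    | some a => exact abs_fl_le (sub_nonneg.2 (h.2 a rfl).le)
  rw [abs_le] at h1 h2 ⊢
  unfold tf
  constructor <;> linarith [h1.1, h1.2, h2.1, h2.2]

theorem integrable_exp_abs {η : ℝ} (h : 0 < η) : Integrable fun s : ℝ => Real.exp (-(η * |s|)) := by
  rw [← integrableOn_univ, ← Iic_union_Ioi (a := (0 : ℝ))]
  exact ((integrableOn_exp_mul_Iic h 0).congr_fun (fun s hs => by
    simp [abs_of_nonpos (show s ≤ 0 from hs)]) measurableSet_Iic).union
    ((integrableOn_exp_mul_Ioi (neg_neg_of_pos h) 0).congr_fun (fun s hs => by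
      simp [abs_of_pos (show 0 < s from hs)]) measurableSet_Ioi)

end time

variable {E3 : Type} [NormedAddCommGroup E3] [NormedSpace ℝ E3] [FiniteDimensional ℝ E3]
  [MeasurableSpace E3] [BorelSpace E3]
  {H3 : Type} [TopologicalSpace H3] {I3 : ModelWithCorners ℝ E3 H3} [I3.Boundaryless]
  {Y : Type} [TopologicalSpace Y] [ChartedSpace H3 Y] [IsManifold I3 ∞ Y] [T2Space Y]
  [MeasurableSpace Y] [BorelSpace Y] [SecondCountableTopology Y] [CompactSpace Y]
  {κ : Type} [Fintype κ] {lam : Type} [Fintype lam]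
  {E : Type} [NormedAddCommGroup E] [NormedSpace ℝ E] [FiniteDimensional ℝ E]
  [MeasurableSpace E] [BorelSpace E]
  {HM : Type} [TopologicalSpace HM] {I : ModelWithCorners ℝ E HM} [I.Boundaryless]
  {M : Type} [TopologicalSpace M] [ChartedSpace HM M] [IsManifold I ∞ M] [MeasurableSpace M]
  [T2Space M] [BorelSpace M] [SecondCountableTopology M] {DY : YD I3 Y κ lam}
  {N : Type} [NormedAddCommGroup N] [NormedSpace ℝ N]

theorem cbs_e {ι : Type} [Fintype ι] {F F' : Pre I M ι} (h : F.e = F'.e) {f : M → N} {C : ℕ → ℝ}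
    (hf : F.CBs f C) : F'.CBs f C := by
  have e : ∀ (w : List ι) (u : M → N), F'.Dw w u = F.Dw w u := fun w => by
    induction w with
    | nil => exact fun _ => rfl
    | cons a w ih => exact fun u => by rw [Pre.Dw, Pre.Dw, ih, Pre.D_def, Pre.D_def, h]
  exact ⟨hf.1, fun k w hw x => e w f ▸ hf.2 k w hw x⟩

theorem sfinite_μ {ι : Type} [Fintype ι] (F : Pre I M ι) : SFinite F.μ :=
  have := Manifold.locallyCompact_of_finiteDimensional (M := M) I
  inferInstance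

section same
variable {B B' : Base M (Option κ) lam} {G G' : Geo I M (Option κ) lam}

/-- volume growth along a neck -/
theorem vg_nk (K : Nk DY B G) {η : ℝ} (hη : 0 < η) : VG (G.F.μ.restrict (K.dp (1 / 2))) K.τ η
    (Nka63.vY DY * (Real.exp (2 * η) * ∫ s : ℝ, Real.exp (-(η * |s|)))) := fun t => by
  have h1 := ((integrable_exp_abs hη).comp_sub_right t).const_mul (Real.exp (2 * η))
  let g := (Dp K.p K.q (1 / 2)).indicator fun s => Real.exp (2 * η) * Real.exp (-(η * |s - t|))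
  have h0 : ∀ s ∉ K.J, g s = 0 := fun s hs => indicator_of_notMem
    (fun e => hs (Dp_sub one_half_pos e)) _
  have h2 := Nka63.integrable_tm K (h1.indicator isClosed_Dp.measurableSet) h0
  have h3 : ∀ᵐ z ∂G.F.μ.restrict (K.dp (1 / 2)), Real.exp (-(η * |K.τ z - t|)) ≤ g (K.tm z) :=
    (ae_restrict_mem K.isClosed_dp.measurableSet).mono fun z hz => by
      rw [show g (K.tm z) = _ from indicator_of_mem (s := Dp _ _ _) hz _, ← Real.exp_add,
        Real.exp_le_exp]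
      have h4 := abs_tf_sub (Dp_sub one_half_pos hz)
      have h5 := abs_sub_le (K.tm z) (K.τ z) t
      rw [abs_sub_comm] at h4
      nlinarith [mul_le_mul_of_nonneg_left (h5.trans (add_le_add_left h4 _)) hη.le]
  have c := K.sm_τ.continuous
  have h4 : Integrable (fun z => Real.exp (-(η * |K.τ z - t|))) (G.F.μ.restrict (K.dp (1 / 2))) :=
    h2.restrict.mono' (Continuous.aestronglyMeasurable (by fun_prop))
      (h3.mono fun z hz => by rwa [Real.norm_of_nonneg (Real.exp_pos _).le])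
  have g0 : ∀ s, 0 ≤ g s := indicator_nonneg fun _ _ => by positivity
  refine ⟨h4, (integral_mono_ae h4 h2.restrict h3).trans
    ((setIntegral_le_integral h2 (.of_forall fun z => g0 _)).trans ?_)⟩
  rw [Nka63.integral_tm K h0, smul_eq_mul,
    ← integral_sub_right_eq_self (fun s => Real.exp (-(η * |s|))) t,
    ← integral_const_mul (Real.exp (2 * η))]
  exact mul_le_mul_of_nonneg_left (integral_mono (h1.indicator isClosed_Dp.measurableSet) h1
    (indicator_le_self' fun _ _ => by positivity)) (Nka63.vY_nonneg DY)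

/-- the same neck in two backgrounds -/
structure Same (K : Nk DY B G) (K' : Nk DY B' G') : Prop where
  p : K.p = K'.p
  q : K.q = K'.q
  ψ : ∀ z ∈ K.ψ.source, K.ψ z = K'.ψ z

theorem Same.refl (K : Nk DY B G) : Same K K := ⟨rfl, rfl, fun _ _ => rfl⟩

namespace Same
variable {K : Nk DY B G} {K' : Nk DY B' G'} (h : Same K K') {x : M} {d : ℝ}
include h

theorem src : K.ψ.source = K'.ψ.source := by rw [K.src, K'.src, h.p, h.q]

theorem tgt : K.ψ.target = K'.ψ.target := by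
  rw [← K.ψ.image_source_eq_target, ← K'.ψ.image_source_eq_target, ← h.src]
  exact image_congr h.ψ

theorem inv (hx : x ∈ K.ψ.target) : K.ψ.symm x = K'.ψ.symm x := by
  have h1 := K.ψ.map_target hx
  rw [← K'.ψ.left_inv (x := K.ψ.symm x) (h.src ▸ h1), ← h.ψ _ h1, K.ψ.right_inv hx]

theorem tm (hx : x ∈ K.ψ.target) : K.tm x = K'.tm x := by
  rw [← K.snd_symm hx, ← K'.snd_symm (h.tgt ▸ hx), h.inv hx]

theorem time {g : Option ℝ → Option ℝ → ℝ → N} (h0 : ∀ s ∉ K'.J, g K'.p K'.q s = 0) (x : M) :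
    g K.p K.q (K.tm x) = g K'.p K'.q (K'.tm x) := by
  rw [h.p, h.q]
  by_cases hx : x ∈ K.ψ.target
  · rw [h.tm hx]
  · rw [h0 _ (by rwa [K.tgt, h.p, h.q] at hx), h0 _ (by rwa [h.tgt, K'.tgt] at hx)]

theorem cut (hd : 0 < d) (x : M) : K.cut d (K.tm x) = K'.cut d (K'.tm x) :=
  h.time (g := fun p q => ct p q d) (fun _ hs => ct_zero fun e => hs (Dp_sub hd e)) x

theorem dp (hd : 0 < d) : K.dp d = K'.dp d := Set.ext fun x => by
  by_cases hx : x ∈ K.ψ.target
  · rw [Nk.dp, Nk.dp, mem_preimage, mem_preimage, h.tm hx, h.p, h.q]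
  · exact iff_of_false (fun e => hx (K.dp_sub hd e)) fun e => hx (h.tgt ▸ K'.dp_sub hd e)

theorem ext (f : Y → N) : K.ext f = K'.ext f := funext fun x => by
  by_cases hx : x ∈ K.ψ.target
  · rw [Nk.ext, Nk.ext, h.inv hx, Nk.χ, h.cut one_pos]; rfl
  · rw [K.ext_zero f fun e => hx (K.dp_sub one_pos e),
      K'.ext_zero f fun e => hx (h.tgt ▸ K'.dp_sub one_pos e)]

theorem τ (hx : x ∈ K.ψ.target) : K.τ x = K'.τ x := by rw [Nk.τ, Nk.τ, h.tm hx, h.p, h.q]

theorem dτ : ∀ a, G.F.D a K.τ = G'.F.D a K'.τ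
  | none => by
    rw [K.D_τ_none, K'.D_τ_none]
    exact funext (h.time (g := fun p q => deriv (tf p q))
      fun _ hs => Nka63.dtf_zero K'.len fun e => hs (Dp_sub one_half_pos e))
  | some a => by rw [K.D_τ_some, K'.D_τ_some]

theorem wn (δ t : ℝ) {w : M → ℝ} (hw : ∀ x ∉ K.dp 1, w x = 0) :
    wn G.F.μ K.τ δ w t = wn (G'.F.μ.restrict (K'.dp (1 / 2))) K'.τ δ w t := by
  have h0 : ∀ (τ : M → ℝ) d, d ≤ 1 → ∀ x ∉ K.dp d, b δ (τ x - t) • w x = 0 := fun _ d hd x hx => by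
    rw [hw x fun e => hx (Nka63.dp_mono K hd e), smul_zero]
  have h1 := fun τ x (hx : x ∉ K.ψ.target) => h0 τ 1 le_rfl x fun e => hx (K.dp_sub one_pos e)
  rw [Dgr80.wn, Dgr80.wn, ← h.dp one_half_pos,
    setIntegral_eq_integral_of_forall_compl_eq_zero (h0 _ _ (by norm_num)),
    Nka63.integral_eq_prod K (h1 _), Nka63.integral_eq_prod K' (h.tgt ▸ h1 _), ← Nka63.restrict_src,
    ← Nka63.restrict_src, ← h.src]
  exact setIntegral_congr_fun K.ψ.open_source.measurableSet fun z hz => by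
    simp only [← h.ψ z hz, h.τ (K.ψ.map_source hz)]

end Same
end same

variable {J : Type} {X Q : J → Type} [∀ i, NormedAddCommGroup (X i)] [∀ i, NormedSpace ℝ (X i)]
  {D : Dm I M (Option κ) X Q} {μ : MF M (Option κ) lam J} {r n : ℕ} {c : CF D μ r}
  {B : J → Base M (Option κ) lam} {a : ∀ i, Q i → Option κ → M → En lam}
  (K : ∀ i y, Nk DY (B i) ⟨c.F i y, a i y⟩) {δ : ℝ} {j : ℕ}

/-- necks that do not depend on the parameter; the slope of the weight is less than `δ` -/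
structure NE {G0 : J → Geo I M (Option κ) lam} (K0 : ∀ i, Nk DY (B i) (G0 i)) (δ : ℝ) : Prop where
  e : ∀ i, (G0 i).F.e = (D.F i).e
  same : ∀ i y, Same (K i y) (K0 i)
  wt : ∃ (ψ : J → M → ℝ) (η C : ℝ), 0 < η ∧ η ≤ δ ∧ ∀ i, Continuous (ψ i) ∧
    (D.P i).μ = wm (G0 i).F.μ (ψ i) ∧ ∀ x ∈ (K0 i).dp (1 / 2), ∀ z ∈ (K0 i).dp (1 / 2),
      ψ i x - ψ i z ≤ C + (δ - η) * |(K0 i).tm x - (K0 i).tm z|

namespace NE
variable {K} {G0 : J → Geo I M (Option κ) lam} {K0 : ∀ i, Nk DY (B i) (G0 i)} (h : NE K K0 δ)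
include h

theorem ub {f : J → M → N} {C : ℕ → ℝ} (hf : ∀ i, (G0 i).F.CBs (f i) C) : UB D.P f :=
  ⟨C, fun i => cbs_e (h.e i) (hf i)⟩

theorem ucut {d : ℝ} (hd : 0 < d) : UB D.P fun i x => (K0 i).cut d ((K0 i).tm x) :=
  let ⟨_, hC⟩ := cbs_cut DY; h.ub fun i => hC (K0 i) d hd

theorem uτ (e : Option κ) : UB D.P fun i => (G0 i).F.D e (K0 i).τ :=
  let ⟨_, hC⟩ := cbs_Dτ DY; h.ub fun i => hC (K0 i) e

theorem we : D.WE δ (fun i => (G0 i).F.μ.restrict ((K0 i).dp (1 / 2))) (fun i => (K0 i).τ)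
    fun i => (K0 i).dp (1 / 2) := by
  obtain ⟨ψ, η, C, h1, h2, h3⟩ := h.wt
  have ms := fun i => ((K0 i).isClosed_dp (d := 1 / 2)).measurableSet
  refine ⟨h1.trans_le h2, fun i => (K0 i).sm_τ, fun e => ?_, ms,
    fun i => have := sfinite_μ (G0 i).F.toPre; inferInstance, fun i => ae_restrict_mem (ms i),
    ψ, η, C + (δ - η) * 4, _, h2, fun i => ⟨(h3 i).1, ?_, vg_nk _ h1, fun x hx z hz => ?_⟩⟩
  · simpa only [Pre.D_def, h.e] using h.uτ e
  · rw [(h3 i).2.1, wm, wm, restrict_withDensity (ms i)]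
  · have h4 := abs_tf_sub (Dp_sub one_half_pos hx)
    have h5 := abs_tf_sub (Dp_sub one_half_pos hz)
    have h6 := abs_sub_le ((K0 i).tm x) ((K0 i).τ x) ((K0 i).tm z)
    have h7 := abs_sub_le ((K0 i).τ x) ((K0 i).τ z) ((K0 i).tm z)
    rw [abs_sub_comm] at h4
    have h8 : |(K0 i).tm x - (K0 i).tm z| ≤ 4 + |(K0 i).τ x - (K0 i).τ z| := by
      unfold Nk.τ at *; linarith
    linarith [(h3 i).2.2 x hx z hz, mul_le_mul_of_nonneg_left h8 (sub_nonneg.2 h2)]

/-- **Fixed necks.** -/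
theorem nh (hj : 4 ≤ j) : NH K δ j := by
  have ex : ∀ {V : Type} [NormedAddCommGroup V] [InnerProductSpace ℝ V] (l) (f : Y → V), Sm I3 f →
      D.A0 False l fun i y => (K i y).ext f := fun l f hf =>
    let ⟨_, hC⟩ := cbs_ext DY hf
    (A0.fixed (h.ub fun i => hC (K0 i))).congr fun i y => congrFun ((h.same i y).ext f)
  refine ⟨ex _, ex _, fun e => (A0.fixed (h.uτ e)).congr fun i y => congrFun ((h.same i y).dτ e),
    fun d hd => (A0.fixed (h.ucut (one_pos.trans_le hd))).congr fun i y =>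
      (h.same i y).cut (one_pos.trans_le hd), fun i _ x => th ((K0 i).cut (1 / 2) ((K0 i).tm x)),
    fun i y x hx => th_one (Dp_mono (by norm_num) (show x ∈ (K0 i).dp 1 from
      (h.same i y).dp one_pos ▸ hx)), fun s ε w h1 h2 => ?_⟩
  refine (h.we.a0 (ub_nem contDiff_th (h.ucut one_half_pos)) (fun i => closure_minimal
    (fun x hx => by_contra fun e => hx (th_zero e)) (K0 i).isClosed_dp) s le_rfl hj h1).congr
    fun i y x => ?_
  by_cases hx : x ∈ (K0 i).dp (1 / 2)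
  · rw [(h.same i y).wn δ _ (h2 i y), (h.same i y).τ ((h.same i y).tgt ▸
      (K0 i).dp_sub one_half_pos hx)]
  · exact (mul_eq_zero_of_left (th_zero hx) _).trans (mul_eq_zero_of_left (th_zero hx) _).symm

end NE

/-- finite necks inside a fixed compact set which depend smoothly on the parameter -/
structure NF (P L : ∀ i, Q i → ℝ) : Prop where
  p : ∀ i y, (K i y).p = some (P i y)
  q : ∀ i y, (K i y).q = some (L i y)
  χ : ∃ χ : J → M → ℝ, (∀ l, 4 ≤ l → D.A0 True l fun i _ => χ i) ∧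
    ∀ i y, ∀ x ∈ (K i y).dp (1 / 4), χ i x = 1
  us : ∀ {N : Type} [NormedAddCommGroup N] [NormedSpace ℝ N] (Φ : ℝ × ℝ × ℝ → ℝ) (f : Y → N) (d : ℝ),
    ContDiff ℝ ∞ Φ → Sm I3 f → 1 / 4 ≤ d →
    (∀ u v s, u + 2 ≤ v → s ∉ Dp (some u) (some v) d → Φ (u, v, s) = 0) → ∃ g, D.US g ∧
      ∀ i y x, g i (D.pt i y) x = Φ (P i y, L i y, (K i y).tm x) • f ((K i y).ψ.symm x).1

theorem contDiff_ct3 (d : ℝ) : ContDiff ℝ ∞ fun z : ℝ × ℝ × ℝ => ct (some z.1) (some z.2.1) d z.2.2 :=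
  (Real.smoothTransition.contDiff.comp (f := fun z : ℝ × ℝ × ℝ => z.2.2 - z.1 - d)
    (by fun_prop)).mul (Real.smoothTransition.contDiff.comp
      (f := fun z : ℝ × ℝ × ℝ => z.2.1 - z.2.2 - d) (by fun_prop))

theorem contDiff_tf3 : ContDiff ℝ ∞ fun z : ℝ × ℝ × ℝ => tf (some z.1) (some z.2.1) z.2.2 :=
  ((contDiff_snd.comp contDiff_snd).sub (contDiff_fl.comp (f := fun z : ℝ × ℝ × ℝ => z.2.2 - z.1)
    (by fun_prop))).add (contDiff_fl.comp (f := fun z : ℝ × ℝ × ℝ => z.2.1 - z.2.2) (by fun_prop))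

theorem contDiff_dtf3 :
    ContDiff ℝ ∞ fun z : ℝ × ℝ × ℝ => deriv (tf (some z.1) (some z.2.1)) z.2.2 := by
  have h := (contDiff_infty_iff_deriv.1 contDiff_fl).2
  simp only [deriv_tf]
  exact (contDiff_const.add (contDiff_const.mul (h.comp (f := fun z : ℝ × ℝ × ℝ => z.2.2 + -z.1)
    (by fun_prop)))).add (contDiff_const.mul (h.comp (f := fun z : ℝ × ℝ × ℝ => z.2.1 - z.2.2)
      (by fun_prop)))

namespace NF
variable {K} {P L : ∀ i, Q i → ℝ} (h : NF K P L) {ε : Prop}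
include h

theorem len (i : J) (y : Q i) : P i y + 2 ≤ L i y := (K i y).len _ (h.p i y) _ (h.q i y)

/-- families supported in the neck are pure -/
theorem pure {V : Type} [NormedAddCommGroup V] [InnerProductSpace ℝ V] [CompleteSpace V]
    (hj : 4 ≤ j) {w : ∀ i, Q i → M → V} {ε' : Prop} (hw : D.A0 ε' j w)
    (h0 : ∀ i y, ∀ x ∉ (K i y).dp (1 / 4), w i y x = 0) : D.A0 ε j w := by
  obtain ⟨χ, c1, c2⟩ := h.χ
  refine ((A0.smul (Lev.left (by omega) (by omega)) hj (c1 (j + 7) (by omega)) hw).imp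
    fun _ => .inl trivial).congr fun i y x => ?_
  by_cases hx : x ∈ (K i y).dp (1 / 4)
  · rw [c2 i y x hx, one_smul]
  · rw [h0 i y x hx, smul_zero]

theorem a0 {V : Type} [NormedAddCommGroup V] [InnerProductSpace ℝ V] [CompleteSpace V]
    (hj : 4 ≤ j) {Φ : ℝ × ℝ × ℝ → ℝ} {f : Y → V} {d : ℝ} (h1 : ContDiff ℝ ∞ Φ) (h2 : Sm I3 f)
    (hd : 1 / 4 ≤ d) (h3 : ∀ u v s, u + 2 ≤ v → s ∉ Dp (some u) (some v) d → Φ (u, v, s) = 0) :
    D.A0 ε j fun i y x => Φ (P i y, L i y, (K i y).tm x) • f ((K i y).ψ.symm x).1 := by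
  obtain ⟨g, g1, g2⟩ := h.us Φ f d h1 h2 hd h3
  obtain ⟨χ, c1, c2⟩ := h.χ
  have h0 : ∀ i y, ∀ x ∉ (K i y).dp (1 / 4), g i (D.pt i y) x = 0 := fun i y x hx => by
    rw [g2, h3 _ _ _ (h.len i y) fun e => hx (Nka63.dp_mono _ hd (by
      rwa [Nk.dp, h.p, h.q])), zero_smul]
  have h4 : ∀ i y x, χ i x • g i (D.pt i y) x = g i (D.pt i y) x := fun i y x => by
    by_cases hx : x ∈ (K i y).dp (1 / 4)
    · rw [c2 i y x hx, one_smul]
    · rw [h0 i y x hx, smul_zero]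
  exact (h.pure hj (A0.loc hj g1 (c1 j hj) fun i y x => by rw [smul_sub, h4, h4]) h0).congr
    fun i y x => (g2 i y x).symm

theorem time (hj : 4 ≤ j) {g : Option ℝ → Option ℝ → ℝ → ℝ} {d : ℝ}
    (h1 : ContDiff ℝ ∞ fun z : ℝ × ℝ × ℝ => g (some z.1) (some z.2.1) z.2.2) (hd : 1 / 4 ≤ d)
    (h3 : ∀ u v s, u + 2 ≤ v → s ∉ Dp (some u) (some v) d → g (some u) (some v) s = 0) :
    D.A0 ε j fun i y x => g (K i y).p (K i y).q ((K i y).tm x) :=
  (h.a0 hj (f := fun _ => (1 : ℝ)) h1 contMDiff_const hd h3).congr fun i y x => by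
    rw [h.p, h.q, smul_eq_mul, mul_one]

theorem cut (hj : 4 ≤ j) {d : ℝ} (hd : 1 / 4 ≤ d) :
    D.A0 ε j fun i y x => (K i y).cut d ((K i y).tm x) :=
  h.time hj (g := fun p q => ct p q d) (contDiff_ct3 d) hd fun _ _ _ _ => ct_zero

theorem dτ (hj : 4 ≤ j) : ∀ e, D.A0 ε j fun i y => (c.F i y).D e (K i y).τ
  | none => (h.time hj (g := fun p q => deriv (tf p q)) contDiff_dtf3 (d := 1 / 2) (by norm_num)
      fun u v s k => Nka63.dtf_zero (by simpa using k)).congr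
      fun i y => congrFun (K i y).D_τ_none
  | some e => A0.zero.congr fun i y => congrFun ((K i y).D_τ_some e)

theorem ext {V : Type} [NormedAddCommGroup V] [InnerProductSpace ℝ V] [CompleteSpace V]
    (hj : 4 ≤ j) {f : Y → V} (hf : Sm I3 f) : D.A0 ε j fun i y => (K i y).ext f :=
  (h.a0 hj (contDiff_ct3 1) hf (by norm_num) fun _ _ _ _ => ct_zero).congr fun i y x => by
    rw [Nk.ext, Nk.χ, Nk.cut, h.p, h.q]

/-- **Moving compact necks.** -/
theorem nh (hF : D.FF c.G) (hj : 4 ≤ j) : NH K δ j := by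
  refine ⟨fun f => h.ext (by omega), fun f => h.ext hj, h.dτ hj,
    fun d hd => h.cut hj (by linarith),
    fun i y x => th ((K i y).cut (1 / 2) ((K i y).tm x)),
    fun i y x hx => th_one (Dp_mono (by norm_num) hx), fun s ε w h1 h2 => ?_⟩
  obtain ⟨τ, t1, t2⟩ := h.us (fun z => th (ct (some z.1) (some z.2.1) (1 / 4) z.2.2) *
    tf (some z.1) (some z.2.1) z.2.2) (fun _ => (1 : ℝ)) (1 / 4)
    ((contDiff_th.comp (contDiff_ct3 _)).mul contDiff_tf3) contMDiff_const le_rfl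
    fun _ _ _ _ k => mul_eq_zero_of_left (th_zero k) _
  have t3 : ∀ i y, ∀ x ∈ (K i y).dp (1 / 2), τ i (D.pt i y) x = (K i y).τ x := fun i y x hx => by
    rw [t2, ← h.p, ← h.q, th_one (by norm_num; exact hx), one_mul, smul_eq_mul, mul_one]; rfl
  obtain ⟨χ, c1, c2⟩ := h.χ
  have h0 : ∀ i y, ∀ x ∉ (K i y).dp (1 / 4), w i y x = 0 := fun i y x hx => h2 i y x fun e =>
    hx (Nka63.dp_mono _ (by norm_num) e)
  obtain ⟨g, g1, g2⟩ := (c1 4 le_rfl).us_wn hF t1 δ s le_rfl (h.pure le_rfl h1 h0) fun i y x => by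
    by_cases hx : x ∈ (K i y).dp (1 / 4)
    · rw [c2 i y x hx, one_mul]
    · rw [h0 i y x hx, mul_zero]
  refine ((h.time hj (g := fun p q s => th (ct p q (1 / 2) s)) (contDiff_th.comp (contDiff_ct3 _))
    (d := 1 / 2) (by norm_num) fun _ _ _ _ => th_zero).us_smul hj g1).congr fun i y x => ?_
  by_cases hx : x ∈ (K i y).dp (1 / 2)
  · rw [g2, t3 i y x hx, smul_eq_mul, mul_comm]
    refine congrArg (· * _) (integral_congr_ae (.of_forall fun z => ?_))
    by_cases hz : z ∈ (K i y).dp 1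
    · simp only [t3 i y z (Nka63.dp_mono _ (by norm_num) hz)]
    · simp only [h2 i y z hz, smul_zero]
  · exact (mul_eq_zero_of_left (th_zero hx) _).trans (mul_eq_zero_of_right _ (th_zero hx)).symm

theorem oc {N : ND Y lam} (o : c.OK ε j) (hy : ∀ i, Sm I3 (N.y i)) {T : YT Y} (hT : T.OK I3) :
    D.A0 True j fun i y => N.oc (K i y) T (c.c i y) :=
  h.pure o.h4 ((h.nh o.F o.h4).oc o hy hT) fun i y x hx => mul_eq_zero_of_left
    (((K i y).cut_τ (by norm_num) x).trans (ct_zero fun e => hx (Dp_mono (by norm_num) e))) _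

end NF

/-! ### homogeneity of the gradients -/

section hom
open Mp86 (Mc Bumps res_smul)
variable {ι : Type} [Fintype ι] {F : Fr I M ι} (hB : Bumps I F.e F.dv) (t : ℝ)
include hB

section eng
variable {V U : Type} [NormedAddCommGroup V] [InnerProductSpace ℝ V] [CompleteSpace V]
  [NormedAddCommGroup U] [InnerProductSpace ℝ U] [CompleteSpace U] {A : ι → M → CL V V}
  (hA : Mc I A)
include hA

theorem bk_smul (w : List (SL M V)) (l : M → V) :
    bk F A w (fun y => t • l y) = fun y => t • bk F A w l y := by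
  induction w generalizing l with
  | nil => rfl
  | cons s w ih =>
    cases s with
    | op T => simp only [bk, slT, map_smul, ih]
    | G => simp only [bk, slT, res_smul hB hA, ih]

theorem gc_smul (ρ : CL U (CL V V)) (s : M → V) (w : List (SL M V)) (l : M → V) (y : M) :
    gc F A ρ s w (fun y => t • l y) y = t • gc F A ρ s w l y := by
  induction w generalizing l with
  | nil => exact (smul_zero _).symm
  | cons s w ih =>
    cases s with
    | op T => simp only [gc, slT, map_smul, ih]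
    | G =>
      simp only [gc, res_smul hB hA, ih, smul_sub]
      congr 1
      ext1 b
      simp only [cur, nab_csmul b t (Mp86.sm_res F A l y), tp, map_smul,
        smul_apply, PiLp.smul_apply, smul_add]

end eng

variable {c : Cfg M ι lam r} (hW : Mc I c.W) (hA : Mc I (c.m.adW c.W))

omit hB in
/-- homogeneous gradients -/
structure DH (c : Cfg M ι lam r) (d : Den M ι lam r) : Prop where
  A : ∀ (t : ℝ) f x, d.gA c (fun y => t * f y) x = t • d.gA c f x
  P : ∀ (t : ℝ) f x, d.gP c (fun y => t * f y) x = t • d.gP c f x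

omit hB in
/-- homogeneous gradients -/
structure SH (c : Cfg M ι lam r) (S : Sed M ι lam r) : Prop where
  A : ∀ (t : ℝ) l x, S.sA c (fun y => t • l y) x = t • S.sA c l x
  P : ∀ (t : ℝ) l, S.sP c (fun y => t • l y) = fun x => t • S.sP c l x

omit hB in
theorem DH.cut {d : Den M ι lam r} (h : DH c d) (χ : M → ℝ) : DH c (dcut χ d) :=
  ⟨fun t f x => by simpa only [dcut, mul_assoc] using h.A t _ x,
    fun t f x => by simpa only [dcut, mul_assoc] using h.P t _ x⟩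

omit hB in
theorem SH.sed {S S' : Sed M ι lam r} (h : SH c S) (h' : SH c S') : DH c (Den.sed S S') :=
  ⟨fun t f x => by simp only [Den.sed, mul_smul, h.A, h'.A, smul_add],
    fun t f x => by simp only [Den.sed, mul_smul, h.P, h'.P, smul_add]⟩

include hW in
theorem dh_sw (T : Pk M lam) (u v : SW M) : DH c (Den.sw F T u v) :=
  ⟨fun t f x => by simp only [Den.sw, mul_smul, swA, gc_smul hB t hW, smul_add],
    fun t f x => by
      simp only [Den.sw, mul_smul, swP, bk_smul hB t hW, dn, real_inner_smul_right]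
      module⟩

include hA

theorem SH.wd {S : Sed M ι lam r} (h : SH c S) (w : List (La M)) : SH c (S.wd F w) :=
  ⟨fun t l x => by simp only [Sed.wd, gc_smul hB t hA, bk_smul hB t hA, h.A, smul_add],
    fun t l => by simp only [Sed.wd, bk_smul hB t hA, h.P]⟩

theorem sh_cyc (d : Cy M) : SH c (d.sed F) := by
  have h : Mc I (Cyc79.AA F c) :=
    ⟨Cyc79.sm_aA hA.sm, fun a x => Cyc79.skew_amp (hA.sk a x)⟩
  refine ⟨fun t l x => ?_, fun t l => funext fun x => (smul_zero t).symm⟩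
  have e : ∀ u, Cyc79.adl F c (fun y => t • l y) u = fun y => t • Cyc79.adl F c l u y :=
    fun u => funext fun y => by simp only [Cyc79.adl, map_smul, smul_apply]
  simp only [Cy.sed, Cyc79.gh, e, gc_smul hB t h, bk_smul hB t h, smul_add, smul_sub]

end hom

section smul
variable {B : Base M (Option κ) lam} {G : Geo I M (Option κ) lam} (K : Nk DY B G) {N : ND Y lam}
  {c : Cfg M (Option κ) lam r} (hB : Mp86.Bumps I G.F.e G.F.dv) (hc : c.m.IsConn B G c.W)
  (hN : ContDiff ℝ ∞ N.φ) (t : ℝ)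
include hB hc

theorem dh_dg (k : N.J) : DH c ((N.dg K).d k) := by
  have h1 := Mp86.mc_W hc
  have h2 := Mp86.mc_adW hc
  rcases k with k | k | k
  · simp only [ND.dg, Sum.elim_inl]
    cases N.d0 k with
    | sw u v => exact (dh_sw hB h1 _ _ _).cut _
    | cy d w d' w' => exact (((sh_cyc hB h2 _).wd hB h2 _).sed ((sh_cyc hB h2 _).wd hB h2 _)).cut _
  · exact (dh_sw hB h1 _ _ _).cut _
  · exact (dh_sw hB h1 _ _ _).cut _

include hN

omit hB hc in
theorem β_smul (k : N.J) (s : ℝ) :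
    ((N.smul t).dg K).β G.F c k s = t * (N.dg K).β G.F c k s := by
  refine Eq.trans (integral_congr_ae (.of_forall fun u => ?_)) (integral_const_mul t _)
  have := fderiv_const_smul (𝕜 := ℝ) (((hN.comp (contDiff_cx N)).differentiable (by simp))
    ((N.dg K).Iv G.F c u)) t
  refine (congrArg (fun L : (N.J → ℝ) →L[ℝ] ℝ => K.cut 3 u * L (Pi.single k 1) * b N.δ (s - u))
    this).trans ?_
  change K.cut 3 u * (t * _) * _ = t * (K.cut 3 u * _ * _)
  rw [mul_left_comm, mul_assoc t]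
  rfl

/-- **`q1` is homogeneous in `φ`.** -/
theorem q1_smul (x : M) :
    ((N.smul t).q1 (n := n) K).D c x = t • (N.q1 (n := n) K).D c x ∧
    ((N.smul t).q1 (n := n) K).C c x = t • (N.q1 (n := n) K).C c x := by
  have hP : ((N.smul t).dg K).gP G.F c x = t • (N.dg K).gP G.F c x := by
    refine (Finset.sum_congr rfl fun (k : N.J) _ => ?_).trans Finset.smul_sum.symm
    exact (congrArg (((N.dg K).d k).gP c · x) (funext fun y => β_smul K hN t k _)).trans
      ((dh_dg K hB hc k).P t _ x)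
  have hA : ((N.smul t).dg K).gA G.F c x = t • (N.dg K).gA G.F c x := by
    refine (Finset.sum_congr rfl fun (k : N.J) _ => ?_).trans Finset.smul_sum.symm
    exact (congrArg (((N.dg K).d k).gA c · x) (funext fun y => β_smul K hN t k _)).trans
      ((dh_dg K hB hc k).A t _ x)
  constructor
  · simp only [ND.q1, DG.q1, hP, map_smul, smul_neg, Finset.smul_sum, smul_comm t]
    rfl
  · simp only [ND.q1, DG.q1, hA]
    rw [smul_comm t, ← map_smul _ t]
    congr 2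
    exact PiLp.ext fun s => smul_comm (G.F.D s.1 K.τ x) t ((N.dg K).gA G.F c x s.2)

end smul

end Crest.Agent.X212.Mon62
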